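import Vale.Agent.P263.G.Sing
import Vale.Agent.P263.G2.SingSS

/-!
# P263, block G2: the two forms of the singular simplicial set agree

`toSing X : SS.Map (G2.sing X) (G.sing (TopCat.of X))` and its inverse `ofSing X`; naturality.
-/

open CategoryTheory Simplicial Opposite

namespace Vale.Agent.P263.G2

open Vale.Agent.P263.S Vale.Agent.P263.E

variable (X : Type) [TopologicalSpace X] {Y : Type} [TopologicalSpace Y]

/-- the simplices -/
noncomputable def singEquiv (p : ℕ) : (sing X).obj p ≃ (G.sing (TopCat.of X)).obj p :=
  (TopCat.toSSetObjEquiv (TopCat.of X) (op ⦋p⦌)).symm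

/-- from continuous maps on `stdSimplex` to Mathlib's singular simplices -/
noncomputable def toSing : SS.Map (sing X) (G.sing (TopCat.of X)) where
  app {p} σ := singEquiv X p σ
  nat _ _ := rfl

/-- the inverse -/
noncomputable def ofSing : SS.Map (G.sing (TopCat.of X)) (sing X) where
  app {p} σ := (singEquiv X p).symm σ
  nat _ _ := rfl

theorem toSing_ofSing : (toSing X).comp (ofSing X) = SS.Map.id _ :=
  SS.Map.ext fun p x => (singEquiv X p).apply_symm_apply x

theorem ofSing_toSing : (ofSing X).comp (toSing X) = SS.Map.id _ :=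
  SS.Map.ext fun p x => (singEquiv X p).symm_apply_apply x

variable {X}

theorem toSing_nat (f : C(X, Y)) :
    (toSing Y).comp (singMap f) = (G.singMap (TopCat.ofHom f)).comp (toSing X) := rfl

theorem ofSing_nat (f : C(X, Y)) :
    (ofSing Y).comp (G.singMap (TopCat.ofHom f)) = (singMap f).comp (ofSing X) := rfl

end Vale.Agent.P263.G2
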