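import Vale.Agent.P263.G2.Coll
import Vale.Agent.P263.G2.Box
import Vale.Agent.P263.GB.QStage

/-!
# P263, G2: the collapse `α_r` of configurations of little boxes

`S : Conf K T` a family (over `T`) of configurations of boxes of stage `r` with labels in `K`:
`alpha r S : C(T, BMap ℝ^r (K × ℝ^r))`.

* `alpha_pull`, `alpha_map`, `alpha_stage` : strict compatibility with maps of `T`, pointed maps
  of `K₊` and the stabilisation.
-/

open OnePoint Topology Vale.Agent.P251.G Vale.Agent.P263.TOP

namespace Vale.Agent.P263.G2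

/-! ### More on `join` -/

section join

variable {Y : Type}

theorem join_congr {A B : Set (OnePoint Y)} (hA : Sub A)
    (h : ∀ y : Y, (y : OnePoint Y) ∈ A ↔ (y : OnePoint Y) ∈ B) : join A = join B := by
  have hB : Sub B := by
    intro y hy z hz hy' hz'
    obtain ⟨y, rfl⟩ := OnePoint.ne_infty_iff_exists.1 hy'
    obtain ⟨z, rfl⟩ := OnePoint.ne_infty_iff_exists.1 hz'
    exact hA _ ((h y).2 hy) _ ((h z).2 hz) hy' hz'
  by_cases h1 : ∀ y ∈ A, y = ∞
  · rw [join_of_forall h1, join_of_forall]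
    intro y hy
    by_contra hy'
    obtain ⟨y, rfl⟩ := OnePoint.ne_infty_iff_exists.1 hy'
    exact hy' (h1 _ ((h y).2 hy))
  · push Not at h1
    obtain ⟨y, hy, hy'⟩ := h1
    obtain ⟨y, rfl⟩ := OnePoint.ne_infty_iff_exists.1 hy'
    rw [join_of_mem hA hy hy', join_of_mem hB ((h y).1 hy) hy']

end join

/-! ### Labels -/

section lab

variable {K L Y Z : Type}

/-- the point with label `k` -/
def lab (k : K) (y : OnePoint Y) : OnePoint (K × Y) := y.map (Prod.mk k)

@[simp] theorem lab_infty (k : K) : lab k (∞ : OnePoint Y) = ∞ := rfl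

@[simp] theorem lab_coe (k : K) (y : Y) : lab k (y : OnePoint Y) = ((k, y) : K × Y) := rfl

theorem lab_eq_infty {k : K} {y : OnePoint Y} : lab k y = ∞ ↔ y = ∞ := by
  induction y using OnePoint.rec with
  | infty => simp
  | coe y => simp

theorem continuous_lab [TopologicalSpace K] [DiscreteTopology K] [TopologicalSpace Y] [T2Space Y]
    (k : K) :
    Continuous (lab k : OnePoint Y → OnePoint (K × Y)) := by
  have h1 : IsClosedEmbedding (Prod.mk k : Y → K × Y) := by
    refine ⟨isEmbedding_prodMkRight k, ?_⟩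
    have h2 : Set.range (Prod.mk k : Y → K × Y) = Prod.fst ⁻¹' {k} := by
      ext p
      constructor
      · rintro ⟨y, rfl⟩
        rfl
      · rintro h
        exact ⟨p.2, Prod.ext (show k = p.1 from (Set.mem_singleton_iff.1 h).symm) rfl⟩
    rw [h2]
    exact (isClosed_discrete _).preimage continuous_fst
  refine OnePoint.continuous_map h1.continuous ?_
  rw [Filter.coclosedCompact_eq_cocompact, Filter.coclosedCompact_eq_cocompact]
  exact h1.tendsto_cocompact

/-- the relabelling along the pointed map `K₊ → L₊` -/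
def pushLab (f : K → Option L) (z : OnePoint (K × Y)) : OnePoint (L × Y) :=
  z.elim ∞ fun p => (f p.1).elim ∞ fun l => (((l, p.2) : L × Y) : OnePoint (L × Y))

@[simp] theorem pushLab_infty (f : K → Option L) : pushLab f (∞ : OnePoint (K × Y)) = ∞ := rfl

theorem pushLab_lab_none {f : K → Option L} {k : K} (h : f k = Option.none) (y : OnePoint Y) :
    pushLab f (lab k y) = ∞ := by
  induction y using OnePoint.rec with
  | infty => rfl
  | coe y =>
    change (f k).elim ∞ _ = _
    rw [h]
    rfl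

theorem pushLab_lab_some {f : K → Option L} {k : K} {l : L} (h : f k = Option.some l)
    (y : OnePoint Y) :
    pushLab f (lab k y) = lab l y := by
  induction y using OnePoint.rec with
  | infty => rfl
  | coe y =>
    change (f k).elim ∞ _ = _
    rw [h]
    rfl

end lab

/-! ### The collapse onto a box of stage `r` -/

section collB

/-- the collapse onto the box given by the first `r` coordinates of `b` -/
noncomputable def collB (r : ℕ) (b : Bx) (x : OnePoint (Fin r → ℝ)) : OnePoint (Fin r → ℝ) :=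
  coll (fun i : Fin r => (b i).lo) (fun i => (b i).hi) x

@[simp] theorem collB_infty (r : ℕ) (b : Bx) : collB r b ∞ = ∞ := rfl

theorem continuous_collB (r : ℕ) :
    Continuous fun p : Bx × OnePoint (Fin r → ℝ) => collB r p.1 p.2 :=
  continuous_coll (ι := Fin r) (T := Bx) (lo := fun b i => (b i).lo) (hi := fun b i => (b i).hi)
    (fun i => Iv.continuous_lo.comp (continuous_apply (i : ℕ)))
    (fun i => Iv.continuous_hi.comp (continuous_apply (i : ℕ))) (fun b i => (b i).lo_nonneg)
    (fun b i => (b i).lo_lt_hi) (fun b i => (b i).hi_le_one)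

theorem collB_disj {r : ℕ} {b c : Bx} (hb : Bx.St r b) (hc : Bx.St r c) (h : Bx.Disj b c)
    (x : OnePoint (Fin r → ℝ)) : collB r b x = ∞ ∨ collB r c x = ∞ := by
  obtain ⟨i, hi, h⟩ := h.exists_lt hb hc
  exact coll_disj (ι := Fin r) (lo := fun i => (b i).lo) (hi := fun i => (b i).hi)
    (lo' := fun i => (c i).lo) (hi' := fun i => (c i).hi)
    (fun i => (b i).lo_lt_hi) (fun i => (c i).lo_lt_hi) ⟨⟨i, hi⟩, h⟩ x

/-- the homeomorphism `S^r ∧ S^1 = S^(r+1)`, as a function of two variables -/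
def sm (r : ℕ) (x : OnePoint (Fin r → ℝ)) (t : OnePoint ℝ) : OnePoint (Fin (r + 1) → ℝ) :=
  opH (snocH r) (LC.smash x t)

@[simp] theorem sm_infty_left (r : ℕ) (t : OnePoint ℝ) : sm r ∞ t = ∞ := rfl

@[simp] theorem sm_infty_right (r : ℕ) (x : OnePoint (Fin r → ℝ)) : sm r x ∞ = ∞ := by
  rw [sm, LC.smash_infty_right]; rfl

theorem sm_coe (r : ℕ) (x : Fin r → ℝ) (t : ℝ) : sm r (x : OnePoint (Fin r → ℝ)) (t : OnePoint ℝ) =
    ((Fin.snoc x t : Fin (r + 1) → ℝ) : OnePoint (Fin (r + 1) → ℝ)) := rfl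

theorem sm_surj (r : ℕ) (z : OnePoint (Fin (r + 1) → ℝ)) : ∃ x t, sm r x t = z := by
  obtain ⟨⟨x, t⟩, h⟩ := smash_surjective ((opH (snocH r)).symm z)
  refine ⟨x, t, ?_⟩
  change opH (snocH r) (LC.smash x t) = z
  have h' : LC.smash x t = (opH (snocH r)).symm z := h
  rw [h', Homeomorph.apply_symm_apply]

theorem tup_snoc {r : ℕ} (v : Fin (r + 1) → OnePoint ℝ) :
    tup v = sm r (tup fun i : Fin r => v i.castSucc) (v (Fin.last r)) := by
  by_cases h : ∀ i, v i ≠ ∞
  · choose x hx using fun i => OnePoint.ne_infty_iff_exists.1 (h i)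
    have h1 : v = fun i => (x i : OnePoint ℝ) := funext fun i => (hx i).symm
    rw [h1, tup_coe, tup_coe (fun i : Fin r => x i.castSucc), sm_coe]
    congr 1
    exact (Fin.snoc_init_self x).symm
  · push Not at h
    obtain ⟨i, hi⟩ := h
    rw [tup_of_eq_infty hi]
    refine Fin.lastCases (motive := fun i => v i = ∞ → _) (fun h => ?_) (fun j h => ?_) i hi
    · rw [h, sm_infty_right]
    · have h1 : (tup fun i : Fin r => v i.castSucc) = ∞ := tup_of_eq_infty (i := j) h
      rw [h1, sm_infty_left]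

/-- **The collapse and the last coordinate.** -/
theorem collB_sm (r : ℕ) (b : Bx) (x : OnePoint (Fin r → ℝ)) (t : OnePoint ℝ) :
    collB (r + 1) b (sm r x t) = sm r (collB r b x) (GB.rho (b r).lo (b r).hi t) := by
  induction x using OnePoint.rec with
  | infty => rw [sm_infty_left, collB_infty, collB_infty, sm_infty_left]
  | coe x =>
    induction t using OnePoint.rec with
    | infty => rw [sm_infty_right, collB_infty, GB.rho_infty, sm_infty_right]
    | coe t =>
      rw [sm_coe, collB, coll_coe, tup_snoc, collB, coll_coe]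
      congr 1
      · congr 1
        funext i
        rw [Fin.snoc_castSucc]
        rfl
      · rw [Fin.snoc_last]
        rfl

theorem collB_sm_of_St {r : ℕ} {b : Bx} (hb : Bx.St r b) (x : OnePoint (Fin r → ℝ))
    (t : OnePoint ℝ) : collB (r + 1) b (sm r x t) = sm r (collB r b x) t := by
  rw [collB_sm, hb r le_rfl, Iv.full_lo, Iv.full_hi, GB.rho_zero_one]

end collB

/-! ### The collapse of a configuration -/

section alpha

variable {K L : Type} {T T' : Type} [TopologicalSpace T] [TopologicalSpace T']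

/-- the possible values at `x` -/
def vals (r : ℕ) (S : Conf K T) (t : T) (x : OnePoint (Fin r → ℝ)) :
    Set (OnePoint (K × (Fin r → ℝ))) :=
  (fun p : C(T, Bx) × K => lab p.2 (collB r (p.1 t) x)) '' (S.pts : Set (C(T, Bx) × K))

theorem sub_vals {r : ℕ} {S : Conf K T} (hS : S.IsSt r) (t : T) (x : OnePoint (Fin r → ℝ)) :
    Sub (vals r S t x) := by
  rintro _ ⟨p, hp, rfl⟩ _ ⟨q, hq, rfl⟩ h1 h2
  by_contra hne
  have hpq : p ≠ q := fun h => hne (by rw [h])
  rcases collB_disj (hS p hp t) (hS q hq t) (S.disj p hp q hq hpq t) x with h | h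
  · exact h1 (lab_eq_infty.2 h)
  · exact h2 (lab_eq_infty.2 h)

/-- the collapse, as a function -/
noncomputable def alphaFun (r : ℕ) (S : Conf K T) (t : T) (x : OnePoint (Fin r → ℝ)) :
    OnePoint (K × (Fin r → ℝ)) :=
  join (vals r S t x)

theorem alphaFun_infty (r : ℕ) (S : Conf K T) (t : T) : alphaFun r S t ∞ = ∞ := by
  refine join_of_forall ?_
  rintro _ ⟨p, -, rfl⟩
  rfl

/-- the value in a box -/
theorem alphaFun_of_mem {r : ℕ} {S : Conf K T} (hS : S.IsSt r) {c : C(T, Bx)} {k : K}
    (h : (c, k) ∈ S.pts) {t : T} {x : OnePoint (Fin r → ℝ)} (hx : collB r (c t) x ≠ ∞) :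
    alphaFun r S t x = lab k (collB r (c t) x) :=
  join_of_mem (sub_vals hS t x) ⟨(c, k), h, rfl⟩ (fun h' => hx (lab_eq_infty.1 h'))

/-- the value outside the boxes -/
theorem alphaFun_of_forall {r : ℕ} {S : Conf K T} {t : T} {x : OnePoint (Fin r → ℝ)}
    (hx : ∀ p ∈ S.pts, collB r (p.1 t) x = ∞) : alphaFun r S t x = ∞ := by
  refine join_of_forall ?_
  rintro _ ⟨p, hp, rfl⟩
  exact lab_eq_infty.2 (hx p hp)

theorem alphaFun_pull (r : ℕ) (S : Conf K T) (g : C(T', T)) (t : T')
    (x : OnePoint (Fin r → ℝ)) : alphaFun r (S.pull g) t x = alphaFun r S (g t) x := by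
  have h : vals r (S.pull g) t x = vals r S (g t) x := by
    ext z
    constructor
    · rintro ⟨p, hp, rfl⟩
      obtain ⟨c, hc, h⟩ := Conf.mem_pull.1 hp
      refine ⟨(c, p.2), hc, ?_⟩
      change lab p.2 (collB r (c (g t)) x) = lab p.2 (collB r (p.1 t) x)
      rw [← h]
      rfl
    · rintro ⟨p, hp, rfl⟩
      exact ⟨(p.1.comp g, p.2), Conf.mem_pull.2 ⟨p.1, hp, rfl⟩, rfl⟩
  rw [alphaFun, h, alphaFun]

theorem alphaFun_map {r : ℕ} {S : Conf K T} (hS : S.IsSt r) (f : K → Option L) (t : T)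
    (x : OnePoint (Fin r → ℝ)) : alphaFun r (S.map f) t x = pushLab f (alphaFun r S t x) := by
  rw [alphaFun, alphaFun, ← join_image (sub_vals hS t x) (pushLab f) rfl]
  refine join_congr (sub_vals (hS.map f) t x) fun y => ?_
  constructor
  · rintro ⟨p, hp, h⟩
    obtain ⟨k, hk, hf⟩ := Conf.mem_map.1 hp
    refine ⟨_, ⟨(p.1, k), hk, rfl⟩, ?_⟩
    rw [pushLab_lab_some hf]
    exact h
  · rintro ⟨_, ⟨p, hp, rfl⟩, h⟩
    rcases hf : f p.2 with _ | l
    · rw [pushLab_lab_none hf] at h
      exact absurd h.symm (OnePoint.coe_ne_infty _)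
    · rw [pushLab_lab_some hf] at h
      exact ⟨(p.1, l), Conf.mem_map.2 ⟨p.2, hp, hf⟩, h⟩

/-! ### The last coordinate -/

/-- the homeomorphism `(K₊ ∧ S^r) ∧ S^1 = K₊ ∧ S^(r+1)`, as a function of two variables -/
def smK (K : Type) (r : ℕ) (z : OnePoint (K × (Fin r → ℝ))) (t : OnePoint ℝ) :
    OnePoint (K × (Fin (r + 1) → ℝ)) :=
  (LC.smash z t).map fun p => (p.1.1, snocH r (p.1.2, p.2))

@[simp] theorem smK_infty_left (r : ℕ) (t : OnePoint ℝ) : smK K r ∞ t = ∞ := rfl

@[simp] theorem smK_infty_right (r : ℕ) (z : OnePoint (K × (Fin r → ℝ))) : smK K r z ∞ = ∞ := by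
  rw [smK, LC.smash_infty_right]; rfl

theorem smK_coe (r : ℕ) (k : K) (x : Fin r → ℝ) (t : ℝ) :
    smK K r (((k, x) : K × (Fin r → ℝ)) : OnePoint _) (t : OnePoint ℝ) =
      ((k, (Fin.snoc x t : Fin (r + 1) → ℝ)) : K × (Fin (r + 1) → ℝ)) := rfl

theorem lab_sm (r : ℕ) (k : K) (x : OnePoint (Fin r → ℝ)) (t : OnePoint ℝ) :
    lab k (sm r x t) = smK K r (lab k x) t := by
  induction x using OnePoint.rec with
  | infty => rfl
  | coe x =>
    induction t using OnePoint.rec with
    | infty => rw [sm_infty_right, smK_infty_right]; rfl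
    | coe t => rfl

/-- **The collapse and the last coordinate**: if all boxes have the same last side `J`. -/
theorem alphaFun_sm_of_forall {r : ℕ} {S : Conf K T} {t : T} {x : OnePoint (Fin r → ℝ)}
    (h : Sub (vals r S t x)) {J : Iv} (hJ : ∀ p ∈ S.pts, p.1 t r = J) (u : OnePoint ℝ) :
    alphaFun (r + 1) S t (sm r x u) = smK K r (alphaFun r S t x) (GB.rho J.lo J.hi u) := by
  rw [alphaFun, alphaFun, ← join_image h (fun z => smK K r z (GB.rho J.lo J.hi u)) rfl]
  congr 1
  ext z
  constructor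
  · rintro ⟨p, hp, rfl⟩
    refine ⟨_, ⟨p, hp, rfl⟩, ?_⟩
    change smK K r (lab p.2 (collB r (p.1 t) x)) _ = lab p.2 (collB (r + 1) (p.1 t) (sm r x u))
    rw [collB_sm, lab_sm, hJ p hp]
  · rintro ⟨_, ⟨p, hp, rfl⟩, rfl⟩
    refine ⟨p, hp, ?_⟩
    change lab p.2 (collB (r + 1) (p.1 t) (sm r x u)) = smK K r (lab p.2 (collB r (p.1 t) x)) _
    rw [collB_sm, lab_sm, hJ p hp]

/-- **Stability of the collapse.** -/
theorem alphaFun_sm {r : ℕ} {S : Conf K T} (hS : S.IsSt r) (t : T) (x : OnePoint (Fin r → ℝ))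
    (u : OnePoint ℝ) : alphaFun (r + 1) S t (sm r x u) = smK K r (alphaFun r S t x) u := by
  rw [alphaFun_sm_of_forall (sub_vals hS t x) (J := Iv.full) (fun p hp => hS p hp t r le_rfl),
    Iv.full_lo, Iv.full_hi, GB.rho_zero_one]

/-! ### The collapse as a family of based maps -/

section cont

variable [TopologicalSpace K] [DiscreteTopology K]

theorem continuous_alphaFun {r : ℕ} {S : Conf K T} (hS : S.IsSt r) :
    Continuous fun p : T × OnePoint (Fin r → ℝ) => alphaFun r S p.1 p.2 := by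
  refine continuous_join (Z := T × OnePoint (Fin r → ℝ)) S.pts
    (fun q p => lab q.2 (collB r (q.1 p.1) p.2)) (fun q _ => ?_) (fun p => sub_vals hS p.1 p.2)
  exact (continuous_lab q.2).comp ((continuous_collB r).comp
    ((q.1.continuous.comp continuous_fst).prodMk continuous_snd))

/-- **The collapse** `F_r(K) → Ω^r(S^r ∧ K₊)` on families over `T`. -/
noncomputable def alpha (r : ℕ) (S : Conf K T) (hS : S.IsSt r) :
    C(T, BMap (Fin r → ℝ) (K × (Fin r → ℝ))) where
  toFun t := ⟨⟨alphaFun r S t, (continuous_alphaFun hS).comp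
    (Continuous.prodMk_right t)⟩, alphaFun_infty r S t⟩
  continuous_toFun := Continuous.subtype_mk
    (ContinuousMap.continuous_of_continuous_uncurry _ (continuous_alphaFun hS)) _

@[simp] theorem alpha_apply (r : ℕ) (S : Conf K T) (hS : S.IsSt r) (t : T)
    (x : OnePoint (Fin r → ℝ)) : (alpha r S hS t).1 x = alphaFun r S t x := rfl

/-- naturality in `T` -/
theorem alpha_pull (r : ℕ) (S : Conf K T) (hS : S.IsSt r) (g : C(T', T)) :
    alpha r (S.pull g) (hS.pull g) = (alpha r S hS).comp g :=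
  ContinuousMap.ext fun t => Subtype.ext (ContinuousMap.ext fun x => alphaFun_pull r S g t x)

variable [Finite K] [TopologicalSpace L] [DiscreteTopology L] [Finite L]

/-- naturality in `K₊` -/
theorem alpha_map (r : ℕ) (S : Conf K T) (hS : S.IsSt r) (f : K → Option L) :
    alpha r (S.map f) (hS.map f) = (GB.push f).comp (alpha r S hS) :=
  ContinuousMap.ext fun t => Subtype.ext (ContinuousMap.ext fun x => alphaFun_map hS f t x)

omit [DiscreteTopology K] [Finite K] in
theorem smK_eq (r : ℕ) (z : OnePoint (K × (Fin r → ℝ))) (t : OnePoint ℝ) :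
    smK K r z t = opH (GB.kH K (snocH r)) (LC.smash z t) := by
  unfold smK
  generalize LC.smash z t = w
  induction w using OnePoint.rec with
  | infty => rfl
  | coe w => rfl

/-- stability -/
theorem alpha_stage (r : ℕ) (S : Conf K T) (hS : S.IsSt r) :
    alpha (r + 1) S (hS.mono (Nat.le_succ r)) =
      (GB.stK K (snocH r) (snocH r)).comp (alpha r S hS) := by
  refine ContinuousMap.ext fun t => GB.ext2' (snocH r) fun x u => ?_
  change alphaFun (r + 1) S t (sm r x u) =
    (GB.stC (snocH r) (GB.kH K (snocH r)) (alpha r S hS t)).1 (opH (snocH r) (LC.smash x u))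
  rw [GB.stC_smash, alphaFun_sm hS, smK_eq]
  rfl

end cont

end alpha

end Vale.Agent.P263.G2
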