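import Vale.Agent.P263.TOP.Stab
import Vale.Agent.P263.GB.Pinch

/-!
# P263, G2: the collapse map of little boxes

* `join A` : the unique finite point of a set `A` of points of `OnePoint Y`, else `∞`;
  `continuous_join` : the union of finitely many maps to `OnePoint Y` with disjoint supports is
  continuous.
* `tup : (ι → OnePoint ℝ) → OnePoint (ι → ℝ)` : the quotient map `(S¹)^r → S^r`.
* `coll lo hi : OnePoint (ι → ℝ) → OnePoint (ι → ℝ)` : the collapse onto the box
  `∏ (lo i, hi i)`, coordinatewise the pinch map `rho (lo i) (hi i)`; jointly continuous.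
* `coll_snoc` : compatibility with the stages.
-/

open OnePoint Topology Vale.Agent.P251.G

namespace Vale.Agent.P263.G2

/-! ### Unions of maps with disjoint supports -/

section join

variable {Y Z : Type} [TopologicalSpace Y] [TopologicalSpace Z]

open scoped Classical in
/-- the finite point of `A` if there is one, else `∞` -/
noncomputable def join (A : Set (OnePoint Y)) : OnePoint Y :=
  if h : ∃ y : Y, (y : OnePoint Y) ∈ A then (h.choose : OnePoint Y) else ∞

/-- `A` has at most one finite point -/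
def Sub (A : Set (OnePoint Y)) : Prop := ∀ y ∈ A, ∀ z ∈ A, y ≠ ∞ → z ≠ ∞ → y = z

omit [TopologicalSpace Y] in
theorem join_of_mem {A : Set (OnePoint Y)} (hA : Sub A) {y : OnePoint Y} (hy : y ∈ A)
    (h : y ≠ ∞) : join A = y := by
  obtain ⟨y, rfl⟩ := OnePoint.ne_infty_iff_exists.1 h
  have h1 : ∃ y : Y, (y : OnePoint Y) ∈ A := ⟨y, hy⟩
  rw [join, dif_pos h1]
  exact hA _ h1.choose_spec _ hy (OnePoint.coe_ne_infty _) (OnePoint.coe_ne_infty _)

omit [TopologicalSpace Y] in
theorem join_of_forall {A : Set (OnePoint Y)} (h : ∀ y ∈ A, y = ∞) : join A = ∞ := by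
  rw [join, dif_neg]
  rintro ⟨y, hy⟩
  exact OnePoint.coe_ne_infty _ (h _ hy)

omit [TopologicalSpace Y] [TopologicalSpace Z] in
/-- a pointed map commutes with `join` -/
theorem join_image {A : Set (OnePoint Y)} (hA : Sub A) (g : OnePoint Y → OnePoint Z)
    (hg : g ∞ = ∞) : join (g '' A) = g (join A) := by
  by_cases h : ∀ y ∈ A, y = ∞
  · rw [join_of_forall h, hg]
    refine join_of_forall ?_
    rintro _ ⟨y, hy, rfl⟩
    rw [h y hy, hg]
  · push Not at h
    obtain ⟨y, hy, hy'⟩ := h
    rw [join_of_mem hA hy hy']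
    have hgA : Sub (g '' A) := by
      rintro _ ⟨a, ha, rfl⟩ _ ⟨b, hb, rfl⟩ h1 h2
      have ha' : a ≠ ∞ := fun h => h1 (by rw [h, hg])
      have hb' : b ≠ ∞ := fun h => h2 (by rw [h, hg])
      rw [hA a ha b hb ha' hb']
    by_cases h2 : g y = ∞
    · rw [h2]
      refine join_of_forall ?_
      rintro _ ⟨z, hz, rfl⟩
      by_cases hz' : z = ∞
      · rw [hz', hg]
      · rw [hA z hz y hy hz' hy', h2]
    · exact join_of_mem hgA ⟨y, hy, rfl⟩ h2

/-- **The union of finitely many maps with disjoint supports is continuous.** -/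
theorem continuous_join {ι : Type*} (s : Finset ι) (f : ι → Z → OnePoint Y)
    (hf : ∀ i ∈ s, Continuous (f i)) (hs : ∀ z, Sub ((fun i => f i z) '' (s : Set ι))) :
    Continuous fun z => join ((fun i => f i z) '' (s : Set ι)) := by
  rw [continuous_def]
  intro U hU
  by_cases hm : (∞ : OnePoint Y) ∈ U
  · have h1 : (fun z => join ((fun i => f i z) '' (s : Set ι))) ⁻¹' U = ⋂ i ∈ s, f i ⁻¹' U := by
      ext z
      rw [Set.mem_preimage, Set.mem_iInter₂]
      constructor
      · intro h i hi
        by_cases h2 : f i z = ∞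
        · exact Set.mem_preimage.2 (h2 ▸ hm)
        · have h3 : join ((fun i => f i z) '' (s : Set ι)) = f i z :=
            join_of_mem (hs z) ⟨i, hi, rfl⟩ h2
          rw [Set.mem_preimage, ← h3]
          exact h
      · intro h
        by_cases h2 : ∀ y ∈ (fun i => f i z) '' (s : Set ι), y = ∞
        · rw [join_of_forall h2]
          exact hm
        · push Not at h2
          obtain ⟨_, ⟨i, hi, rfl⟩, h2⟩ := h2
          rw [join_of_mem (hs z) ⟨i, hi, rfl⟩ h2]
          exact h i hi
    rw [h1]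
    exact isOpen_biInter_finset fun i hi => hU.preimage (hf i hi)
  · have h1 : (fun z => join ((fun i => f i z) '' (s : Set ι))) ⁻¹' U = ⋃ i ∈ s, f i ⁻¹' U := by
      ext z
      rw [Set.mem_preimage, Set.mem_iUnion₂]
      constructor
      · intro h
        by_cases h2 : ∀ y ∈ (fun i => f i z) '' (s : Set ι), y = ∞
        · rw [join_of_forall h2] at h
          exact absurd h hm
        · push Not at h2
          obtain ⟨_, ⟨i, hi, rfl⟩, h2⟩ := h2
          rw [join_of_mem (hs z) ⟨i, hi, rfl⟩ h2] at h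
          exact ⟨i, hi, h⟩
      · rintro ⟨i, hi, h⟩
        have h2 : f i z ≠ ∞ := fun h3 => hm (by rw [← h3]; exact h)
        rw [join_of_mem (hs z) ⟨i, hi, rfl⟩ h2]
        exact h
    rw [h1]
    exact isOpen_biUnion fun i hi => hU.preimage (hf i hi)

end join

/-! ### The quotient map `(S¹)^r → S^r` -/

section tup

variable {ι : Type} [Finite ι]

theorem isOpenEmbedding_piCoe :
    IsOpenEmbedding (fun (x : ι → ℝ) (i : ι) => (x i : OnePoint ℝ)) :=
  IsOpenEmbedding.piMap (f := fun _ : ι => ((↑) : ℝ → OnePoint ℝ))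
    (fun _ => OnePoint.isOpenEmbedding_coe)

/-- `(v i)` if all `v i` are finite, else `∞` -/
noncomputable def tup (v : ι → OnePoint ℝ) : OnePoint (ι → ℝ) :=
  LC.collapseFun (X := LC.of (ι → OnePoint ℝ)) (Y := LC.of (ι → ℝ))
    (fun (x : ι → ℝ) (i : ι) => (x i : OnePoint ℝ)) (v : OnePoint (ι → OnePoint ℝ))

theorem continuous_tup : Continuous (tup : (ι → OnePoint ℝ) → OnePoint (ι → ℝ)) :=
  (LC.continuous_collapseFun (X := LC.of (ι → OnePoint ℝ)) (Y := LC.of (ι → ℝ))
    isOpenEmbedding_piCoe).comp OnePoint.continuous_coe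

theorem tup_coe (x : ι → ℝ) : tup (fun i => (x i : OnePoint ℝ)) = x :=
  LC.collapseFun_coe_of_injective (X := LC.of (ι → OnePoint ℝ)) (Y := LC.of (ι → ℝ))
    isOpenEmbedding_piCoe.injective x

theorem tup_of_eq_infty {v : ι → OnePoint ℝ} {i : ι} (h : v i = ∞) : tup v = ∞ := by
  refine LC.collapseFun_of_notMem (X := LC.of (ι → OnePoint ℝ)) (Y := LC.of (ι → ℝ)) ?_
  rintro ⟨x, rfl⟩
  exact OnePoint.coe_ne_infty _ h

theorem tup_ne_infty {v : ι → OnePoint ℝ} : tup v ≠ ∞ ↔ ∀ i, v i ≠ ∞ := by
  constructor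
  · intro h i hi
    exact h (tup_of_eq_infty hi)
  · intro h
    choose x hx using fun i => OnePoint.ne_infty_iff_exists.1 (h i)
    have h1 : v = fun i => (x i : OnePoint ℝ) := funext fun i => (hx i).symm
    rw [h1, tup_coe]
    exact OnePoint.coe_ne_infty _

theorem tup_surjective [Nonempty ι] :
    Function.Surjective (tup : (ι → OnePoint ℝ) → OnePoint (ι → ℝ)) := by
  intro x
  induction x using OnePoint.rec with
  | infty =>
    obtain ⟨i⟩ := ‹Nonempty ι›
    exact ⟨fun _ => ∞, tup_of_eq_infty (i := i) rfl⟩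
  | coe x => exact ⟨_, tup_coe x⟩

theorem isQuotientMap_id_tup [Nonempty ι] (T : Type*) [TopologicalSpace T] :
    IsQuotientMap (Prod.map (id : T → T) (tup : (ι → OnePoint ℝ) → OnePoint (ι → ℝ))) := by
  have h1 : IsProperMap (tup : (ι → OnePoint ℝ) → OnePoint (ι → ℝ)) := continuous_tup.isProperMap
  have h2 := (isProperMap_id (X := T)).prodMap h1
  exact h2.isClosedMap.isQuotientMap h2.continuous
    (Function.surjective_id.prodMap tup_surjective)

end tup

/-! ### The collapse onto a box -/

section coll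

variable {ι : Type} [Finite ι]

/-- the collapse onto the box with sides `(lo i, hi i)` -/
noncomputable def coll (lo hi : ι → ℝ) (x : OnePoint (ι → ℝ)) : OnePoint (ι → ℝ) :=
  x.elim ∞ fun x => tup fun i => GB.rho (lo i) (hi i) (x i : OnePoint ℝ)

theorem coll_infty (lo hi : ι → ℝ) : coll lo hi ∞ = ∞ := rfl

theorem coll_coe (lo hi : ι → ℝ) (x : ι → ℝ) :
    coll lo hi (x : OnePoint (ι → ℝ)) = tup fun i => GB.rho (lo i) (hi i) (x i : OnePoint ℝ) := rfl

theorem coll_tup [Nonempty ι] (lo hi : ι → ℝ) (v : ι → OnePoint ℝ) :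
    coll lo hi (tup v) = tup fun i => GB.rho (lo i) (hi i) (v i) := by
  by_cases h : ∀ i, v i ≠ ∞
  · choose x hx using fun i => OnePoint.ne_infty_iff_exists.1 (h i)
    have h1 : v = fun i => (x i : OnePoint ℝ) := funext fun i => (hx i).symm
    rw [h1, tup_coe, coll_coe]
  · push Not at h
    obtain ⟨i, hi⟩ := h
    rw [tup_of_eq_infty hi, coll_infty, tup_of_eq_infty (i := i)]
    rw [hi, GB.rho_infty]

/-- a point not sent to `∞` lies in the open box -/
theorem mem_of_coll_ne_infty {lo hi : ι → ℝ} (h : ∀ i, lo i < hi i) {x : ι → ℝ}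
    (hx : coll lo hi (x : OnePoint (ι → ℝ)) ≠ ∞) (i : ι) :
    lo i < GB.loopI (x i) ∧ GB.loopI (x i) < hi i := by
  rw [coll_coe] at hx
  exact GB.mem_of_rho_ne_infty (h i) (tup_ne_infty.1 hx i)

/-- the collapses onto disjoint boxes have disjoint supports -/
theorem coll_disj {lo hi lo' hi' : ι → ℝ} (h : ∀ i, lo i < hi i) (h' : ∀ i, lo' i < hi' i)
    (hd : ∃ i, hi i ≤ lo' i ∨ hi' i ≤ lo i) (x : OnePoint (ι → ℝ)) :
    coll lo hi x = ∞ ∨ coll lo' hi' x = ∞ := by
  induction x using OnePoint.rec with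
  | infty => exact Or.inl rfl
  | coe x =>
    by_contra hc
    push Not at hc
    obtain ⟨i, hi⟩ := hd
    have h1 := mem_of_coll_ne_infty h hc.1 i
    have h2 := mem_of_coll_ne_infty h' hc.2 i
    rcases hi with hi | hi <;> linarith

/-- the collapse onto the whole cube is the identity -/
theorem coll_full {lo hi : ι → ℝ} (h0 : ∀ i, lo i = 0) (h1 : ∀ i, hi i = 1)
    (x : OnePoint (ι → ℝ)) : coll lo hi x = x := by
  induction x using OnePoint.rec with
  | infty => rfl
  | coe x =>
    rw [coll_coe]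
    have h2 : (fun i => GB.rho (lo i) (hi i) (x i : OnePoint ℝ)) = fun i => (x i : OnePoint ℝ) :=
      funext fun i => by rw [h0, h1, GB.rho_zero_one]
    rw [h2, tup_coe]

/-- **The collapse onto a box is jointly continuous.** -/
theorem continuous_coll {T : Type*} [TopologicalSpace T] {lo hi : T → ι → ℝ}
    (hlo : ∀ i, Continuous fun t => lo t i) (hhi : ∀ i, Continuous fun t => hi t i)
    (h0 : ∀ t i, 0 ≤ lo t i) (h : ∀ t i, lo t i < hi t i) (h1 : ∀ t i, hi t i ≤ 1) :
    Continuous fun p : T × OnePoint (ι → ℝ) => coll (lo p.1) (hi p.1) p.2 := by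
  rcases isEmpty_or_nonempty ι with he | hn
  · refine continuous_snd.congr fun p => ?_
    exact (coll_full (fun i => (he.false i).elim) (fun i => (he.false i).elim) p.2).symm
  · rw [(isQuotientMap_id_tup T).continuous_iff]
    have h2 : (fun p : T × OnePoint (ι → ℝ) => coll (lo p.1) (hi p.1) p.2) ∘
        Prod.map (id : T → T) (tup : (ι → OnePoint ℝ) → OnePoint (ι → ℝ)) =
        fun p : T × (ι → OnePoint ℝ) => tup fun i => GB.rho (lo p.1 i) (hi p.1 i) (p.2 i) :=
      funext fun p => coll_tup _ _ _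
    rw [h2]
    refine continuous_tup.comp (continuous_pi fun i => ?_)
    exact (GB.continuous_rho (hlo i) (hhi i) (fun t => h0 t i) (fun t => h t i)
      (fun t => h1 t i)).comp (continuous_fst.prodMk ((continuous_apply i).comp continuous_snd))

end coll

end Vale.Agent.P263.G2
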