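import Vale.Agent.P263.G2.AlphaQ
import Vale.Agent.P263.G2.BoxSS

/-!
# P263, G2: the collapse as a map of simplicial sets

* `alphaSS r K : SS.Map (Fr r K) (sing (BMap ℝ^r (K × ℝ^r)))`, natural in `K₊` and `r`;
* `alphaOmSS r : SS.Map (Fr r Unit) (sing (Om r))`, `alphaQSS : SS.Map (F Unit) (sing QS0)`.
-/

open OnePoint Topology Vale.Agent.P251.G Vale.Agent.P263.TOP CategoryTheory
open Vale.Agent.P263.S Vale.Agent.P263.E

namespace Vale.Agent.P263.G2

section labels

variable (r : ℕ) (K : Type) [TopologicalSpace K] [DiscreteTopology K]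

/-- the collapse on simplicial sets -/
noncomputable def alphaSS : SS.Map (Fr r K) (sing (BMap (Fin r → ℝ) (K × (Fin r → ℝ)))) :=
  ⟨fun S => ofC (alpha r S.1 S.2), fun f S => alpha_pull r S.1 S.2 (dmap f)⟩

theorem toC_alphaSS {p : ℕ} (S : (Fr r K).obj p) : toC ((alphaSS r K).app S) = alpha r S.1 S.2 :=
  rfl

variable [Finite K]

/-- stability -/
theorem alphaSS_incl : (alphaSS (r + 1) K).comp (Fr.incl r.le_succ K) =
    (singMap (GB.stK K (snocH r) (snocH r))).comp (alphaSS r K) := by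
  apply SS.Map.ext
  intro p S
  exact alpha_stage r S.1 S.2

variable {K} {L : Type} [TopologicalSpace L] [DiscreteTopology L] [Finite L]

/-- naturality in `K₊` -/
theorem alphaSS_map (f : K → Option L) : (alphaSS r L).comp (Fr.map f) =
    (singMap (GB.push f)).comp (alphaSS r K) := by
  apply SS.Map.ext
  intro p S
  exact alpha_map r S.1 S.2 f

end labels

/-- the collapse into `Ωʳ Sʳ` -/
noncomputable def alphaOmSS (r : ℕ) : SS.Map (Fr r Unit) (sing (T0.Om r)) :=
  ⟨fun S => ofC (alphaOm r S.1 S.2), fun f S => alphaOm_pull r S.1 S.2 (dmap f)⟩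

theorem alphaOmSS_eq (r : ℕ) : alphaOmSS r = (singMap (omH r :
    C(BMap (Fin r → ℝ) (Unit × (Fin r → ℝ)), T0.Om r))).comp (alphaSS r Unit) := rfl

theorem alphaOmSS_incl (r : ℕ) : (alphaOmSS (r + 1)).comp (Fr.incl r.le_succ Unit) =
    (singMap (T0.stab r)).comp (alphaOmSS r) := by
  apply SS.Map.ext
  intro p S
  exact alphaOm_stage r S.1 S.2

/-- the collapse into `QS⁰` -/
noncomputable def alphaQSS : SS.Map (F Unit) (sing T0.QS0) :=
  ⟨fun S => ofC (alphaQ S), fun f S => alphaQ_pull S (dmap f)⟩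

theorem alphaQSS_toF (r : ℕ) : alphaQSS.comp (Fr.toF r Unit) =
    (singMap (T0.toQ r).hom).comp (alphaOmSS r) := by
  apply SS.Map.ext
  intro p S
  exact ContinuousMap.ext fun t => alphaQ_eq S.1 S.2 t

end Vale.Agent.P263.G2
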