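import Vale.Agent.P263.G2.Joined
import Vale.Agent.P263.T0.Adj
import Vale.Agent.P251.G.DegLC

/-!
# P263, literal mapping spaces: the degree

* `degB f : ℤ` for `f : BMap E E`, `E` a finite-dimensional real normed space; it is locally
  constant in `f`, hence constant along paths.
* `degOm f : ℤ` for `f : T0.Om r`; `degOm_stab`, `degOm_const`, `degOm_id`.
-/

open CategoryTheory MonoidalCategory OnePoint Topology Filter Vale.Agent.P251.G Vale.Agent.P263.TOP
open Vale.Agent.P205.TI.Deg

namespace Vale.Agent.P263.G2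

variable {E F : Type} [NormedAddCommGroup E] [NormedSpace ℝ E] [FiniteDimensional ℝ E]
  [NormedAddCommGroup F] [NormedSpace ℝ F] [FiniteDimensional ℝ F]

theorem exists_int_degV {f : OnePoint E → OnePoint E} (hf : Continuous f) (h0 : f ∞ = ∞) :
    ∃ m : ℤ, degV f = m := by
  obtain ⟨W, g, Z, h⟩ := exists_regV hf h0
  refine ⟨∑ z ∈ Z, sg (fderiv ℝ g z).det, ?_⟩
  rw [h.degV_eq hf h0]
  push_cast
  rfl

theorem exists_int_deg (f : LC.of E ⟶ LC.of E) : ∃ m : ℤ, LC.deg f = m :=
  exists_int_degV (LC.continuous_app f) (LC.app_infty f)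

/-- the degree of a based self map of a sphere -/
noncomputable def degB (f : BMap E E) : ℤ := (exists_int_deg (bhom f)).choose

theorem degB_cast (f : BMap E E) : (degB f : ℝ) = LC.deg (bhom f) :=
  (exists_int_deg (bhom f)).choose_spec.symm

theorem degB_eq_iff {f g : BMap E E} : degB f = degB g ↔ LC.deg (bhom f) = LC.deg (bhom g) := by
  rw [← degB_cast, ← degB_cast, Int.cast_inj]

theorem degB_eq_of_cast {f : BMap E E} {m : ℤ} (h : LC.deg (bhom f) = m) : degB f = m := by
  rw [← degB_cast] at h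
  exact_mod_cast h

theorem degB_joined {f g : BMap E E} (h : Joined f g) : degB f = degB g :=
  degB_eq_iff.2 (LC.deg_homotopic ((joined_iff f g).1 h))

theorem degB_zero : degB (bof 0 : BMap E E) = 0 :=
  degB_eq_of_cast (by rw [bhom_bof, LC.deg_zero, Int.cast_zero])

theorem degB_id : degB (bof (𝟙 (LC.of E)) : BMap E E) = 1 :=
  degB_eq_of_cast (by rw [bhom_bof, LC.deg_id, Int.cast_one])

/-- the degree is locally constant in families -/
theorem eventually_degV {T : Type*} [TopologicalSpace T] {H : T × OnePoint E → OnePoint E}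
    (hH : Continuous H) (h0 : ∀ t, H (t, ∞) = ∞) (t0 : T) :
    ∀ᶠ t in 𝓝 t0, degV (fun x => H (t, x)) = degV (fun x => H (t0, x)) := by
  let e := (coord E).toHomeomorph
  have h1 : Continuous (OnePoint.map (e : E → Eu _)) :=
    OnePoint.continuous_map e.continuous (by
      rw [coclosedCompact_eq_cocompact, coclosedCompact_eq_cocompact]
      exact e.isClosedEmbedding.tendsto_cocompact)
  have h2 : Continuous (OnePoint.map (e.symm : Eu _ → E)) :=
    OnePoint.continuous_map e.symm.continuous (by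
      rw [coclosedCompact_eq_cocompact, coclosedCompact_eq_cocompact]
      exact e.symm.isClosedEmbedding.tendsto_cocompact)
  exact eventually_deg_eq (H := fun p : T × OnePoint (Eu _) =>
    OnePoint.map e (H (p.1, OnePoint.map e.symm p.2)))
    (h1.comp (hH.comp (continuous_fst.prodMk (h2.comp continuous_snd)))) (fun t => by
      show OnePoint.map e (H (t, ∞)) = ∞
      rw [h0]; rfl) t0

theorem isLocallyConstant_degB : IsLocallyConstant (degB : BMap E E → ℤ) := by
  rw [IsLocallyConstant.iff_eventually_eq]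
  intro f
  have h := eventually_degV (T := BMap E E) (H := fun p => p.1.1 p.2)
    (continuous_bmap_uncurry continuous_id) (fun f => f.2) f
  filter_upwards [h] with g hg
  exact degB_eq_iff.2 hg

theorem continuous_degB : Continuous (degB : BMap E E → ℤ) := isLocallyConstant_degB.continuous

/-! ### The spaces `Om r` -/

/-- the degree `Ωʳ Sʳ → ℤ` -/
noncomputable def degOm {r : ℕ} (f : T0.Om r) : ℤ := degB (E := Fin r → ℝ) f

theorem continuous_degOm {r : ℕ} : Continuous (degOm : T0.Om r → ℤ) :=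
  continuous_degB (E := Fin r → ℝ)

theorem isLocallyConstant_degOm {r : ℕ} : IsLocallyConstant (degOm : T0.Om r → ℤ) :=
  isLocallyConstant_degB (E := Fin r → ℝ)

theorem degOm_joined {r : ℕ} {f g : T0.Om r} (h : Joined f g) : degOm f = degOm g :=
  degB_joined (E := Fin r → ℝ) h

theorem degOm_const (r : ℕ) : degOm (T0.Om.const r) = 0 := degB_zero (E := Fin r → ℝ)

/-- the identity as a point of `Om r` -/
def omId (r : ℕ) : T0.Om r := ⟨ContinuousMap.id _, rfl⟩

theorem degOm_id (r : ℕ) : degOm (omId r) = 1 := degB_id (E := Fin r → ℝ)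

/-- `snoc` as a continuous linear equivalence -/
noncomputable def snocL (r : ℕ) : ((Fin r → ℝ) × ℝ) ≃L[ℝ] (Fin (r + 1) → ℝ) where
  toFun p := Fin.snoc p.1 p.2
  invFun v := (Fin.init v, v (Fin.last r))
  map_add' p q := by
    funext i
    refine Fin.lastCases ?_ (fun j => ?_) i <;> simp
  map_smul' c p := by
    funext i
    refine Fin.lastCases ?_ (fun j => ?_) i <;> simp
  left_inv p := by simp
  right_inv v := by simp
  continuous_toFun := (T0.snocHomeo r).continuous
  continuous_invFun := (T0.snocHomeo r).symm.continuous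

theorem bhom_stab {r : ℕ} (f : T0.Om r) :
    bhom (X := Fin (r + 1) → ℝ) (Y := Fin (r + 1) → ℝ) (T0.stab r f) =
      (LC.ofHomeo (X := LC.of ((Fin r → ℝ) × ℝ)) (Y := LC.of (Fin (r + 1) → ℝ))
        (snocL r).toHomeomorph).inv ≫
      (bhom (X := Fin r → ℝ) (Y := Fin r → ℝ) f ▷ LC.of ℝ) ≫
      (LC.ofHomeo (X := LC.of ((Fin r → ℝ) × ℝ)) (Y := LC.of (Fin (r + 1) → ℝ))
        (snocL r).toHomeomorph).hom := by
  rw [Iso.eq_inv_comp]
  refine LC.tensor_ext (X := LC.of (Fin r → ℝ)) (Y := LC.of ℝ) fun v t => ?_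
  rw [LC.app_comp, LC.app_comp, LC.app_whiskerRight_smash]
  exact T0.stab_toSmash r f v t

theorem degOm_stab {r : ℕ} (f : T0.Om r) : degOm (T0.stab r f) = degOm f := by
  have h1 : LC.deg (bhom (X := Fin (r + 1) → ℝ) (Y := Fin (r + 1) → ℝ) (T0.stab r f)) =
      LC.deg (bhom (X := Fin r → ℝ) (Y := Fin r → ℝ) f) := by
    rw [bhom_stab]
    refine (LC.deg_conj (E := (Fin r → ℝ) × ℝ) (F := Fin (r + 1) → ℝ) (snocL r) _).trans ?_
    exact LC.deg_whiskerRight (E := Fin r → ℝ) (F := ℝ) _
  have h2 := degB_cast (E := Fin (r + 1) → ℝ) (T0.stab r f)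
  have h3 := degB_cast (E := Fin r → ℝ) f
  rw [h1, ← h3] at h2
  exact_mod_cast h2

end Vale.Agent.P263.G2
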