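import Vale.Agent.P263.G2.AlphaQ
import Vale.Agent.P263.G2.DegOm

/-!
# P263, G2: degrees of collapse maps

* `degV_coll` : the collapse onto a box has degree one.
* `degV_join` : the union of finitely many maps with disjoint supports has degree the sum.
* `collM`, `joinM` : the same as points of `BMap E E`, `degB`.
* `collBx r b : T0.Om r` for a box `b : Bx`, `joinBx r s` for a finite set of disjoint boxes of
  stage `r`.
* `degOm_alphaOm` : `alphaOm r S t` has degree the number of boxes of `S`.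
-/

open OnePoint Topology Vale.Agent.P251.G Vale.Agent.P263.TOP

namespace Vale.Agent.P263.G2

section

variable {ι : Type} [Fintype ι]

/-- **The collapse onto a box has degree one.** -/
theorem degV_coll {lo hi : ι → ℝ} (h0 : ∀ i, 0 ≤ lo i) (h : ∀ i, lo i < hi i)
    (h1 : ∀ i, hi i ≤ 1) : degV (E := ι → ℝ) (coll lo hi) = 1 := by
  have hc : Continuous fun p : unitInterval × OnePoint (ι → ℝ) =>
      coll (fun i => (1 - (p.1 : ℝ)) * lo i) (fun i => (1 - (p.1 : ℝ)) * hi i + (p.1 : ℝ)) p.2 := by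
    refine continuous_coll (T := unitInterval) (lo := fun t i => (1 - (t : ℝ)) * lo i)
      (hi := fun t i => (1 - (t : ℝ)) * hi i + (t : ℝ)) (fun i => by fun_prop)
      (fun i => by fun_prop) (fun t i => ?_) (fun t i => ?_) (fun t i => ?_)
    · exact mul_nonneg (by linarith [t.2.2]) (h0 i)
    · have ht0 := t.2.1
      have ht1 := t.2.2
      have := h i
      rcases eq_or_lt_of_le ht0 with h2 | h2
      · rw [← h2]; simpa using h i
      · nlinarith
    · have ht0 := t.2.1
      have ht1 := t.2.2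
      have := h1 i
      nlinarith
  have h2 := degV_homotopy hc (fun t => coll_infty _ _)
  have h3 : (fun x : OnePoint (ι → ℝ) => coll (fun i => (1 - ((0 : unitInterval) : ℝ)) * lo i)
      (fun i => (1 - ((0 : unitInterval) : ℝ)) * hi i + ((0 : unitInterval) : ℝ)) x) =
      coll lo hi := by
    funext x
    congr 1 <;> funext i <;> simp
  have h4 : (fun x : OnePoint (ι → ℝ) => coll (fun i => (1 - ((1 : unitInterval) : ℝ)) * lo i)
      (fun i => (1 - ((1 : unitInterval) : ℝ)) * hi i + ((1 : unitInterval) : ℝ)) x) = id := by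
    funext x
    exact coll_full (fun i => by simp) (fun i => by simp) x
  have h5 : degV (E := ι → ℝ) (coll lo hi) = degV (E := ι → ℝ) id := by
    rw [← h3, ← h4]
    exact h2
  rw [h5]
  exact degV_id

end

section

variable {E : Type} [NormedAddCommGroup E] [NormedSpace ℝ E] [FiniteDimensional ℝ E]

/-- The degree is additive for unions of maps with disjoint supports. -/
theorem degV_join {κ : Type*} (s : Finset κ) {f : κ → OnePoint E → OnePoint E}
    (hf : ∀ i ∈ s, Continuous (f i)) (h0 : ∀ i ∈ s, f i ∞ = ∞)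
    (hd : ∀ i ∈ s, ∀ j ∈ s, i ≠ j → ∀ x, f i x = ∞ ∨ f j x = ∞) :
    degV (E := E) (fun x => join ((fun i => f i x) '' (s : Set κ))) = ∑ i ∈ s, degV (f i) := by
  have hS : ∀ x, Sub ((fun i => f i x) '' (s : Set κ)) := by
    rintro x _ ⟨i, hi, rfl⟩ _ ⟨j, hj, rfl⟩ h1 h2
    by_contra h3
    have h4 : i ≠ j := fun h => h3 (by rw [h])
    rcases hd i hi j hj h4 x with h5 | h5
    · exact h1 h5
    · exact h2 h5
  refine degV_sum s (continuous_join s f hf hS) ?_ hf h0
    (U := fun i => {x : E | f i (x : OnePoint E) ≠ ∞}) ?_ ?_ ?_ ?_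
  · refine join_of_forall ?_
    rintro _ ⟨i, hi, rfl⟩
    exact h0 i hi
  · intro i hi j hj hij
    refine Set.disjoint_left.2 fun x hx hx' => ?_
    rcases hd i hi j hj hij x with h5 | h5
    · exact hx h5
    · exact hx' h5
  · intro i hi x hx
    exact join_of_mem (hS _) ⟨i, hi, rfl⟩ hx
  · intro i hi x hx
    exact not_not.1 hx
  · intro x hx
    refine join_of_forall ?_
    rintro _ ⟨i, hi, rfl⟩
    exact not_not.1 (hx i hi)

end

/-! ### As points of the mapping spaces -/

section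

variable {ι : Type} [Fintype ι]

/-- the collapse onto a box as a based self map of `S^ι` -/
noncomputable def collM {lo hi : ι → ℝ} (h0 : ∀ i, 0 ≤ lo i) (h : ∀ i, lo i < hi i)
    (h1 : ∀ i, hi i ≤ 1) : BMap (ι → ℝ) (ι → ℝ) :=
  ⟨⟨coll lo hi, (continuous_coll (T := Unit) (lo := fun _ => lo) (hi := fun _ => hi)
    (fun _ => continuous_const) (fun _ => continuous_const) (fun _ => h0) (fun _ => h)
    (fun _ => h1)).comp (Continuous.prodMk_right ())⟩, coll_infty lo hi⟩

theorem collM_apply {lo hi : ι → ℝ} (h0 : ∀ i, 0 ≤ lo i) (h : ∀ i, lo i < hi i)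
    (h1 : ∀ i, hi i ≤ 1) (x : OnePoint (ι → ℝ)) : (collM h0 h h1).1 x = coll lo hi x := rfl

theorem degB_collM {lo hi : ι → ℝ} (h0 : ∀ i, 0 ≤ lo i) (h : ∀ i, lo i < hi i)
    (h1 : ∀ i, hi i ≤ 1) : degB (collM h0 h h1) = 1 :=
  degB_eq_of_cast (by
    rw [Int.cast_one]
    exact degV_coll h0 h h1)

/-- The space of based self maps is joined by growing the box. -/
theorem joined_collM {lo hi : ι → ℝ} (h0 : ∀ i, 0 ≤ lo i) (h : ∀ i, lo i < hi i)
    (h1 : ∀ i, hi i ≤ 1) {lo' hi' : ι → ℝ} (h0' : ∀ i, 0 ≤ lo' i) (h' : ∀ i, lo' i < hi' i)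
    (h1' : ∀ i, hi' i ≤ 1) : Joined (collM h0 h h1) (collM h0' h' h1') := by
  have hk0 : ∀ (t : unitInterval) i, 0 ≤ (1 - (t : ℝ)) * lo i + t * lo' i := fun t i =>
    add_nonneg (mul_nonneg (by linarith [t.2.2]) (h0 i)) (mul_nonneg t.2.1 (h0' i))
  have hk : ∀ (t : unitInterval) i, (1 - (t : ℝ)) * lo i + t * lo' i <
      (1 - (t : ℝ)) * hi i + t * hi' i := by
    intro t i
    have ht0 := t.2.1
    have ht1 := t.2.2
    have h2 := h i
    have h3 := h' i
    rcases eq_or_lt_of_le ht0 with h4 | h4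
    · rw [← h4]; simpa using h2
    · nlinarith
  have hk1 : ∀ (t : unitInterval) i, (1 - (t : ℝ)) * hi i + t * hi' i ≤ 1 := by
    intro t i
    have ht0 := t.2.1
    have ht1 := t.2.2
    have h2 := h1 i
    have h3 := h1' i
    nlinarith
  refine ⟨⟨⟨fun t => collM (hk0 t) (hk t) (hk1 t), ?_⟩, ?_, ?_⟩⟩
  · refine continuous_bmap_of_uncurry ?_
    exact continuous_coll (T := unitInterval) (lo := fun t i => (1 - (t : ℝ)) * lo i + t * lo' i)
      (hi := fun t i => (1 - (t : ℝ)) * hi i + t * hi' i) (fun i => by fun_prop)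
      (fun i => by fun_prop) hk0 hk hk1
  · refine bmap_ext fun x => ?_
    show coll _ _ x = coll _ _ x
    congr 1 <;> funext i <;> simp
  · refine bmap_ext fun x => ?_
    show coll _ _ x = coll _ _ x
    congr 1 <;> funext i <;> simp

end

section

variable {X Y : Type} [TopologicalSpace X] [TopologicalSpace Y]

/-- the union of finitely many based maps with disjoint supports -/
noncomputable def joinM {κ : Type*} (s : Finset κ) (f : κ → BMap X Y)
    (hd : ∀ i ∈ s, ∀ j ∈ s, i ≠ j → ∀ x, (f i).1 x = ∞ ∨ (f j).1 x = ∞) : BMap X Y :=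
  ⟨⟨fun x => join ((fun i => (f i).1 x) '' (s : Set κ)),
    continuous_join s (fun i => (f i).1) (fun i _ => (f i).1.continuous) (by
      rintro x _ ⟨i, hi, rfl⟩ _ ⟨j, hj, rfl⟩ h1 h2
      by_contra h3
      have h4 : i ≠ j := fun h => h3 (by rw [h])
      rcases hd i hi j hj h4 x with h5 | h5
      · exact h1 h5
      · exact h2 h5)⟩, join_of_forall (by
      rintro _ ⟨i, hi, rfl⟩
      exact (f i).2)⟩

theorem joinM_apply {κ : Type*} (s : Finset κ) (f : κ → BMap X Y)
    (hd : ∀ i ∈ s, ∀ j ∈ s, i ≠ j → ∀ x, (f i).1 x = ∞ ∨ (f j).1 x = ∞) (x : OnePoint X) :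
    (joinM s f hd).1 x = join ((fun i => (f i).1 x) '' (s : Set κ)) := rfl

end

section

variable {E : Type} [NormedAddCommGroup E] [NormedSpace ℝ E] [FiniteDimensional ℝ E]

theorem degB_joinM {κ : Type*} (s : Finset κ) (f : κ → BMap E E)
    (hd : ∀ i ∈ s, ∀ j ∈ s, i ≠ j → ∀ x, (f i).1 x = ∞ ∨ (f j).1 x = ∞) :
    degB (joinM s f hd) = ∑ i ∈ s, degB (f i) :=
  degB_eq_of_cast (by
    push_cast
    simp only [degB_cast]
    exact degV_join s (fun i _ => (f i).1.continuous) (fun i _ => (f i).2) hd)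

/-- any union of `n` collapses has degree `n` -/
theorem degB_eq_card {ι : Type} [Fintype ι] {κ : Type*} (s : Finset κ)
    (g : BMap (ι → ℝ) (ι → ℝ)) (lo hi : κ → ι → ℝ) (h0 : ∀ k ∈ s, ∀ i, 0 ≤ lo k i)
    (h : ∀ k ∈ s, ∀ i, lo k i < hi k i) (h1 : ∀ k ∈ s, ∀ i, hi k i ≤ 1)
    (hd : ∀ k ∈ s, ∀ l ∈ s, k ≠ l → ∃ i, hi k i ≤ lo l i ∨ hi l i ≤ lo k i)
    (hg : ∀ x, g.1 x = join ((fun k => coll (lo k) (hi k) x) '' (s : Set κ))) :
    degB g = s.card := by
  refine degB_eq_of_cast ?_
  have h2 : degV (E := ι → ℝ) (fun x => join ((fun k => coll (lo k) (hi k) x) '' (s : Set κ))) =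
      ∑ k ∈ s, degV (E := ι → ℝ) (coll (lo k) (hi k)) := by
    refine degV_join s (fun k hk => ?_) (fun k _ => coll_infty _ _) ?_
    · exact (collM (h0 k hk) (h k hk) (h1 k hk)).1.continuous
    · intro k hk l hl hkl x
      exact coll_disj (h k hk) (h l hl) (hd k hk l hl hkl) x
  have h3 : degV (E := ι → ℝ) (fun x => g.1 x) = s.card := by
    rw [show (fun x => g.1 x) =
      fun x => join ((fun k => coll (lo k) (hi k) x) '' (s : Set κ)) from funext hg, h2,
      Finset.sum_congr rfl fun k hk => degV_coll (h0 k hk) (h k hk) (h1 k hk)]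
    simp
  rw [Int.cast_natCast]
  exact h3

end

/-! ### The boxes of `Box.lean` -/

/-- the collapse of `Sʳ` onto the box `b` -/
noncomputable def collBx (r : ℕ) (b : Bx) : T0.Om r :=
  collM (ι := Fin r) (lo := fun i => (b i).lo) (hi := fun i => (b i).hi)
    (fun i => (b i).lo_nonneg) (fun i => (b i).lo_lt_hi) (fun i => (b i).hi_le_one)

theorem collBx_apply (r : ℕ) (b : Bx) (x : OnePoint (Fin r → ℝ)) :
    (collBx r b).1 x = coll (fun i : Fin r => (b i).lo) (fun i : Fin r => (b i).hi) x := rfl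

theorem collBx_full (r : ℕ) : collBx r (fun _ => Iv.full) = omId r :=
  Subtype.ext (ContinuousMap.ext fun x =>
    coll_full (lo := fun i : Fin r => ((fun _ => Iv.full : Bx) i).lo)
      (hi := fun i : Fin r => ((fun _ => Iv.full : Bx) i).hi) (fun _ => rfl) (fun _ => rfl) x)

theorem degOm_collBx (r : ℕ) (b : Bx) : degOm (collBx r b) = 1 :=
  degB_collM (ι := Fin r) _ _ _

theorem joined_collBx (r : ℕ) (b c : Bx) : Joined (collBx r b) (collBx r c) :=
  joined_collM (ι := Fin r) _ _ _ _ _ _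

theorem joined_collBx_id (r : ℕ) (b : Bx) : Joined (collBx r b) (omId r) := by
  rw [← collBx_full]
  exact joined_collBx r b _

/-- the collapse onto a finite set of pairwise disjoint boxes of stage `r` -/
noncomputable def joinBx (r : ℕ) (s : Finset Bx) (hr : ∀ b ∈ s, Bx.St r b)
    (hd : ∀ b ∈ s, ∀ c ∈ s, b ≠ c → Bx.Disj b c) : T0.Om r :=
  joinM (X := Fin r → ℝ) (Y := Fin r → ℝ) s (collBx r) (by
    intro b hb c hc hbc x
    refine coll_disj (ι := Fin r) (fun i => (b i).lo_lt_hi) (fun i => (c i).lo_lt_hi) ?_ x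
    obtain ⟨i, hi, h⟩ := (hd b hb c hc hbc).exists_lt (hr b hb) (hr c hc)
    exact ⟨⟨i, hi⟩, h⟩)

theorem degOm_joinBx (r : ℕ) (s : Finset Bx) (hr : ∀ b ∈ s, Bx.St r b)
    (hd : ∀ b ∈ s, ∀ c ∈ s, b ≠ c → Bx.Disj b c) : degOm (joinBx r s hr hd) = s.card := by
  have h : ∑ b ∈ s, degOm (collBx r b) = s.card := by
    rw [Finset.sum_congr rfl fun b _ => degOm_collBx r b]
    simp
  exact (degB_joinM (E := Fin r → ℝ) s (collBx r) _).trans h

/-! ### The collapse of configurations -/

section alphaOm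

variable {T : Type} [TopologicalSpace T]

theorem alphaOm_eq_join (r : ℕ) (S : Conf Unit T) (hS : S.IsSt r) (t : T)
    (x : OnePoint (Fin r → ℝ)) : (alphaOm r S hS t).1 x =
      join ((fun p : C(T, Bx) × Unit => coll (fun i : Fin r => (p.1 t i).lo)
        (fun i : Fin r => (p.1 t i).hi) x) '' (S.pts : Set (C(T, Bx) × Unit))) := by
  refine (alphaOm_apply r S hS t x).trans ?_
  rw [alphaFun, ← join_image (sub_vals hS t x) (OnePoint.map Prod.snd) rfl]
  congr 1
  ext z
  constructor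
  · rintro ⟨_, ⟨p, hp, rfl⟩, rfl⟩
    refine ⟨p, hp, ?_⟩
    change collB r (p.1 t) x = OnePoint.map Prod.snd (lab p.2 (collB r (p.1 t) x))
    generalize collB r (p.1 t) x = y
    induction y using OnePoint.rec with
    | infty => rfl
    | coe y => rfl
  · rintro ⟨p, hp, rfl⟩
    refine ⟨_, ⟨p, hp, rfl⟩, ?_⟩
    change OnePoint.map Prod.snd (lab p.2 (collB r (p.1 t) x)) = collB r (p.1 t) x
    generalize collB r (p.1 t) x = y
    induction y using OnePoint.rec with
    | infty => rfl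
    | coe y => rfl

/-- **The collapse of a configuration of `n` boxes has degree `n`.** -/
theorem degOm_alphaOm (r : ℕ) (S : Conf Unit T) (hS : S.IsSt r) (t : T) :
    degOm (alphaOm r S hS t) = S.pts.card :=
  degB_eq_card (ι := Fin r) S.pts (alphaOm r S hS t) (fun p i => (p.1 t i).lo)
    (fun p i => (p.1 t i).hi) (fun p _ i => (p.1 t i).lo_nonneg) (fun p _ i => (p.1 t i).lo_lt_hi)
    (fun p _ i => (p.1 t i).hi_le_one) (fun p hp q hq hpq => by
      obtain ⟨i, hi, h⟩ := (S.disj p hp q hq hpq t).exists_lt (hS p hp t) (hS q hq t)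
      exact ⟨⟨i, hi⟩, h⟩) (alphaOm_eq_join r S hS t)

end alphaOm

end Vale.Agent.P263.G2
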