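import Vale.Agent.P263.G2.MixTwo
import Vale.Agent.P263.GB.MixAlpha

/-!
# P263, block G2: the collapse on the telescopes is a homology isomorphism

`mixT_toPt`, **`mix_telAlpha`** : over a field, from (V);
**`mix_telAlpha_two`** : mod 2, no hypothesis.
-/

open Vale.Agent.P263.S Vale.Agent.P263.E Vale.Agent.P263.GB

namespace Vale.Agent.P263.G2

/-- `T(K₊)` has the homology of a point -/
theorem mixT_toPt (k : Type) [Field k] (hV : VStmt k) (K : Type) [Finite K] (n : ℕ) :
    RZ0 (freeMap k (SS.toPt (mixG.T.obj K))).cx n := by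
  cases n with
  | zero => exact (Rd.rz0_toPt_zero (mixG.T_pt.nonempty K))
  | succ n => exact (Rd.rz0_toPt_succ (mixG.T_pt.nonempty K) n).2 (mixT_rh k hV K n)

/-- **the collapse on the telescopes has no relative homology** -/
theorem mix_telAlpha (k : Type) [Field k] (hV : VStmt k) (n : ℕ) :
    RZ0 (freeMap k mixG.telAlpha).cx n :=
  mixG.rz0_telAlpha (mixT_toPt k hV Unit) n

/-- **the collapse on the telescopes has no relative homology mod 2** -/
theorem mix_telAlpha_two (n : ℕ) : RZ0 (freeMap (ZMod 2) mixG.telAlpha).cx n :=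
  mix_telAlpha (ZMod 2) vStmt_two n

end Vale.Agent.P263.G2
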