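import Vale.Agent.P263.GB.QStage

/-!
# P263, block G2: the calculus of based maps, and the maps `(l, y) ↦ (φ l, c (u l, y))`

* `bzero`, `bid`, `bcomp`, `bcomp_apply`, `continuous_bcomp` : composition of based maps;
* `selW : (L → BMap Y W) → BMap (L × Y) W` (`L` finite, discrete): the universal property of the
  wedge, jointly continuous;
* `act c φ u : BMap (L × Y) (J × Y₁)`, `(l, y) ↦ (φ l, c (u l, y))` for a homeomorphism
  `c : ℝ × Y ≃ₜ Y₁`, a partial map `φ : L → Option J` and `u : L → OnePoint ℝ`; jointly
  continuous in `u`; `bcomp_act_push`, `push_bcomp_act`, `act_stK`.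
-/

open OnePoint Topology Vale.Agent.P251.G Vale.Agent.P263.TOP Vale.Agent.P263.GB

set_option linter.unusedSectionVars false

namespace Vale.Agent.P263.G2

/-! ### composition of based maps -/

section comp

variable {X Y Z W : Type} [TopologicalSpace X] [T2Space X] [LocallyCompactSpace X]
  [TopologicalSpace Y] [T2Space Y] [LocallyCompactSpace Y]
  [TopologicalSpace Z] [T2Space Z] [LocallyCompactSpace Z]
  [TopologicalSpace W] [T2Space W] [LocallyCompactSpace W]

/-- based maps are determined by their values on the points of `X` -/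
theorem bext {f g : BMap X Y} (h : ∀ x : X, f.1 (x : OnePoint X) = g.1 (x : OnePoint X)) :
    f = g := by
  refine Subtype.ext (ContinuousMap.ext fun x => ?_)
  induction x using OnePoint.rec with
  | infty => exact f.2.trans g.2.symm
  | coe x => exact h x

theorem continuous_bmk {T : Type*} [TopologicalSpace T] (F : T → BMap X Y)
    (h : Continuous fun p : T × OnePoint X => (F p.1).1 p.2) : Continuous F := by
  refine Continuous.subtype_mk (f := fun t => (F t).1) ?_ (fun t => (F t).2)
  exact ContinuousMap.continuous_of_continuous_uncurry _ h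

variable (X Y) in
/-- the constant map -/
def bzero : BMap X Y := ⟨ContinuousMap.const _ ∞, rfl⟩

@[simp] theorem bzero_apply (x : OnePoint X) : (bzero X Y).1 x = ∞ := rfl

variable (X) in
/-- the identity -/
def bid : BMap X X := ⟨ContinuousMap.id _, rfl⟩

@[simp] theorem bid_apply (x : OnePoint X) : (bid X).1 x = x := rfl

/-- the composite `g ∘ f` -/
def bcomp (g : BMap Y Z) (f : BMap X Y) : BMap X Z :=
  ⟨g.1.comp f.1, by rw [ContinuousMap.comp_apply, f.2, g.2]⟩

@[simp] theorem bcomp_apply (g : BMap Y Z) (f : BMap X Y) (x : OnePoint X) :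
    (bcomp g f).1 x = g.1 (f.1 x) := rfl

@[simp] theorem bcomp_zero (g : BMap Y Z) : bcomp g (bzero X Y) = bzero X Z :=
  bext fun _ => g.2

@[simp] theorem zero_bcomp (f : BMap X Y) : bcomp (bzero Y Z) f = bzero X Z := rfl

@[simp] theorem bid_bcomp (f : BMap X Y) : bcomp (bid Y) f = f := rfl

@[simp] theorem bcomp_bid (f : BMap X Y) : bcomp f (bid X) = f := rfl

theorem bcomp_assoc (h : BMap Z W) (g : BMap Y Z) (f : BMap X Y) :
    bcomp h (bcomp g f) = bcomp (bcomp h g) f := rfl

theorem continuous_bcomp {T : Type*} [TopologicalSpace T] {G : T → BMap Y Z} {F : T → BMap X Y}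
    (hG : Continuous G) (hF : Continuous F) : Continuous fun t => bcomp (G t) (F t) := by
  refine continuous_bmk _ ?_
  have h1 : Continuous fun p : T × OnePoint X => (F p.1).1 p.2 :=
    continuous_bmap (hF.comp continuous_fst) continuous_snd
  exact continuous_bmap (F := fun p : T × OnePoint X => G p.1)
    (x := fun p : T × OnePoint X => (F p.1).1 p.2) (hG.comp continuous_fst) h1

/-- `T × (X⁺ × Z⁺) → T × (X × Z)⁺` is a quotient map -/
theorem isQuotientMap_smash (T : Type*) [TopologicalSpace T] (X Z : Type) [TopologicalSpace X]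
    [T2Space X] [LocallyCompactSpace X] [TopologicalSpace Z] [T2Space Z]
    [LocallyCompactSpace Z] : IsQuotientMap (Prod.map (id : T → T)
      fun p : OnePoint X × OnePoint Z => LC.smash p.1 p.2) :=
  (isProperMap_id.prodMap isProperMap_smash).isClosedMap.isQuotientMap
    (continuous_id.prodMap LC.continuous_smash)
    (Function.surjective_id.prodMap smash_surjective)

end comp

/-! ### wedges -/

section selW

variable {X Y Z W : Type} [TopologicalSpace X] [T2Space X] [LocallyCompactSpace X]
  [TopologicalSpace Y] [T2Space Y] [LocallyCompactSpace Y]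
  [TopologicalSpace Z] [T2Space Z] [LocallyCompactSpace Z]
  [TopologicalSpace W] [T2Space W] [LocallyCompactSpace W]
variable {L M : Type} [TopologicalSpace L] [DiscreteTopology L] [Finite L]
  [TopologicalSpace M] [DiscreteTopology M] [Finite M]

/-- the underlying function of `selW` -/
def selWFun (g : L → BMap Y W) (z : OnePoint (L × Y)) : OnePoint W :=
  z.elim ∞ fun p => (g p.1).1 (p.2 : OnePoint Y)

theorem continuous_selWFun {T : Type*} [TopologicalSpace T] {G : T → L → BMap Y W}
    (hG : ∀ l, Continuous fun t => G t l) :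
    Continuous fun p : T × OnePoint (L × Y) => selWFun (G p.1) p.2 := by
  rw [(isQuotientMap_smash T L Y).continuous_iff]
  have h1 : (fun p : T × OnePoint (L × Y) => selWFun (G p.1) p.2) ∘ (Prod.map (id : T → T)
      fun p : OnePoint L × OnePoint Y => LC.smash p.1 p.2) =
      (fun q : OnePoint L × (T × OnePoint Y) =>
        q.1.elim ∞ fun l => (G q.2.1 l).1 q.2.2) ∘ fun p => (p.2.1, (p.1, p.2.2)) := by
    funext ⟨t, l, y⟩
    induction l using OnePoint.rec with
    | infty => rfl
    | coe l =>
      induction y using OnePoint.rec with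
      | infty => exact (G t l).2.symm
      | coe y => rfl
  rw [h1]
  refine Continuous.comp ?_ (by fun_prop)
  rw [continuous_prod_of_discrete_left]
  intro l
  induction l using OnePoint.rec with
  | infty => exact continuous_const
  | coe l => exact continuous_bmap ((hG l).comp continuous_fst) continuous_snd

/-- the map of the wedge given by its components -/
def selW (g : L → BMap Y W) : BMap (L × Y) W :=
  ⟨⟨selWFun g, (continuous_selWFun (T := Unit) (G := fun _ => g) fun _ => continuous_const).comp
    (Continuous.prodMk continuous_const continuous_id : Continuous fun q => ((), q))⟩, rfl⟩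

@[simp] theorem selW_coe (g : L → BMap Y W) (l : L) (y : Y) :
    (selW g).1 (((l, y) : L × Y) : OnePoint (L × Y)) = (g l).1 (y : OnePoint Y) := rfl

theorem selW_smash (g : L → BMap Y W) (l : L) (y : OnePoint Y) :
    (selW g).1 (LC.smash (l : OnePoint L) y) = (g l).1 y := by
  induction y using OnePoint.rec with
  | infty => exact (g l).2.symm
  | coe y => rfl

theorem continuous_selW {T : Type*} [TopologicalSpace T] {G : T → L → BMap Y W}
    (hG : ∀ l, Continuous fun t => G t l) : Continuous fun t => selW (G t) :=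
  continuous_bmk _ (continuous_selWFun hG)

theorem bcomp_selW (f : BMap W Z) (g : L → BMap Y W) :
    bcomp f (selW g) = selW fun l => bcomp f (g l) := bext fun _ => rfl

/-- composition with a relabelling -/
theorem bcomp_selW_push (f : M → Option L) (g : L → BMap Y W) (q : BMap X (M × Y)) :
    bcomp (selW g) (push f q) = bcomp (selW fun m => (f m).elim (bzero Y W) g) q := by
  refine bext fun x => ?_
  rw [bcomp_apply, bcomp_apply, push_apply]
  generalize q.1 (x : OnePoint X) = z
  induction z using OnePoint.rec with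
  | infty => rfl
  | coe p =>
    obtain ⟨m, y⟩ := p
    rw [pushPt_coe, selW_coe]
    cases f m with
    | none => rfl
    | some l => rfl

end selW

/-! ### the maps `act c φ u` -/

section act

variable {X Y Y₁ : Type} [TopologicalSpace X] [T2Space X] [LocallyCompactSpace X]
  [TopologicalSpace Y] [T2Space Y] [LocallyCompactSpace Y]
  [TopologicalSpace Y₁] [T2Space Y₁] [LocallyCompactSpace Y₁]
variable {J J' L M : Type} [TopologicalSpace J] [DiscreteTopology J] [Finite J]
  [TopologicalSpace J'] [DiscreteTopology J'] [Finite J']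
  [TopologicalSpace L] [DiscreteTopology L] [Finite L]
  [TopologicalSpace M] [DiscreteTopology M] [Finite M]

/-- an element of `Option J` as a point of `J⁺` -/
def opt (o : Option J) : OnePoint J := o

theorem opt_none : opt (Option.none : Option J) = ∞ := rfl

theorem opt_some (j : J) : opt (Option.some j) = (j : OnePoint J) := rfl

/-- the map `y ↦ (o, c (u, y))` -/
def line1 (c : ℝ × Y ≃ₜ Y₁) (o : Option J) (u : OnePoint ℝ) : BMap Y (J × Y₁) :=
  ⟨⟨fun y => LC.smash (opt o) (opH c (LC.smash u y)), LC.continuous_smash.comp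
    (continuous_const.prodMk ((opH c).continuous.comp
      (LC.continuous_smash.comp (continuous_const.prodMk continuous_id))))⟩, by
    show LC.smash (opt o) (opH c (LC.smash u ∞)) = ∞
    rw [LC.smash_infty_right, opH_infty, LC.smash_infty_right]⟩

@[simp] theorem line1_apply (c : ℝ × Y ≃ₜ Y₁) (o : Option J) (u : OnePoint ℝ) (y : OnePoint Y) :
    (line1 c o u).1 y = LC.smash (opt o) (opH c (LC.smash u y)) := rfl

theorem line1_none (c : ℝ × Y ≃ₜ Y₁) (u : OnePoint ℝ) :
    line1 c (Option.none : Option J) u = bzero Y _ := rfl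

theorem line1_infty (c : ℝ × Y ≃ₜ Y₁) (o : Option J) : line1 c o ∞ = bzero Y _ :=
  bext fun y => by
    rw [line1_apply, LC.smash_infty_left, opH_infty, LC.smash_infty_right]; rfl

theorem continuous_line1 {T : Type*} [TopologicalSpace T] (c : ℝ × Y ≃ₜ Y₁) (o : Option J)
    {u : T → OnePoint ℝ} (hu : Continuous u) :
    Continuous fun t => (line1 c o (u t) : BMap Y (J × Y₁)) := by
  refine continuous_bmk _ ?_
  exact LC.continuous_smash.comp (continuous_const.prodMk ((opH c).continuous.comp
    (LC.continuous_smash.comp ((hu.comp continuous_fst).prodMk continuous_snd))))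

/-- the map `(l, y) ↦ (φ l, c (u l, y))` -/
def act (c : ℝ × Y ≃ₜ Y₁) (φ : L → Option J) (u : L → OnePoint ℝ) : BMap (L × Y) (J × Y₁) :=
  selW fun l => line1 c (φ l) (u l)

@[simp] theorem act_coe (c : ℝ × Y ≃ₜ Y₁) (φ : L → Option J) (u : L → OnePoint ℝ) (l : L)
    (y : Y) : (act c φ u).1 (((l, y) : L × Y) : OnePoint (L × Y)) =
      LC.smash (opt (φ l)) (opH c (LC.smash (u l) (y : OnePoint Y))) := rfl

theorem act_smash (c : ℝ × Y ≃ₜ Y₁) (φ : L → Option J) (u : L → OnePoint ℝ) (l : L)
    (y : OnePoint Y) : (act c φ u).1 (LC.smash (l : OnePoint L) y) =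
      LC.smash (opt (φ l)) (opH c (LC.smash (u l) y)) := selW_smash _ l y

theorem continuous_act {T : Type*} [TopologicalSpace T] (c : ℝ × Y ≃ₜ Y₁) (φ : L → Option J)
    {u : T → L → OnePoint ℝ} (hu : ∀ l, Continuous fun t => u t l) :
    Continuous fun t => act c φ (u t) :=
  continuous_selW fun l => continuous_line1 c (φ l) (hu l)

theorem act_infty (c : ℝ × Y ≃ₜ Y₁) (φ : L → Option J) (u : L → OnePoint ℝ)
    (h : ∀ l, u l = ∞) : act c φ u = bzero _ _ := by
  refine bext fun p => ?_
  obtain ⟨l, y⟩ := p
  rw [act_coe, h, LC.smash_infty_left, opH_infty, LC.smash_infty_right]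
  rfl

theorem act_congr (c : ℝ × Y ≃ₜ Y₁) (φ ψ : L → Option J) (u v : L → OnePoint ℝ)
    (h : ∀ l, (φ l = ψ l ∧ u l = v l) ∨ ((φ l = Option.none ∨ u l = ∞) ∧
      (ψ l = Option.none ∨ v l = ∞))) : act c φ u = act c ψ v := by
  have key : ∀ (o : Option J) (w : OnePoint ℝ) (y : OnePoint Y), (o = Option.none ∨ w = ∞) →
      LC.smash (opt o) (opH c (LC.smash w y)) = ∞ := by
    rintro o w y (rfl | rfl)
    · rfl
    · rw [LC.smash_infty_left, opH_infty, LC.smash_infty_right]
  refine bext fun p => ?_
  obtain ⟨l, y⟩ := p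
  rw [act_coe, act_coe]
  rcases h l with ⟨h1, h2⟩ | ⟨h1, h2⟩
  · rw [h1, h2]
  · rw [key _ _ _ h1, key _ _ _ h2]

/-- composition of `act` with a relabelling of the source -/
theorem bcomp_act_push (c : ℝ × Y ≃ₜ Y₁) (f : M → Option L) (φ : L → Option J)
    (u : L → OnePoint ℝ) (q : BMap X (M × Y)) : bcomp (act c φ u) (push f q) =
      bcomp (act c (fun m => (f m).bind φ) fun m => (f m).elim ∞ u) q := by
  rw [act, bcomp_selW_push]
  congr 1
  refine bext fun p => ?_
  obtain ⟨m, y⟩ := p
  rw [selW_coe, act_coe]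
  cases f m with
  | none => rfl
  | some l => rfl

theorem pushPt_smash (f : J → Option J') (o : Option J) (z : OnePoint Y) :
    pushPt f (LC.smash (opt o) z) = LC.smash (opt (o.bind f)) z := by
  cases o with
  | none => rfl
  | some j =>
    induction z using OnePoint.rec with
    | infty => rw [LC.smash_infty_right, LC.smash_infty_right]; rfl
    | coe z =>
      show pushPt f (((j, z) : J × Y) : OnePoint (J × Y)) = LC.smash (opt (f j)) _
      rw [pushPt_coe]
      cases f j with
      | none => rfl
      | some j' => rfl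

/-- relabelling of the target of `act` -/
theorem push_bcomp_act (c : ℝ × Y ≃ₜ Y₁) (f : J → Option J') (φ : L → Option J)
    (u : L → OnePoint ℝ) (q : BMap X (L × Y)) : push f (bcomp (act c φ u) q) =
      bcomp (act c (fun l => (φ l).bind f) u) q := by
  refine bext fun x => ?_
  rw [push_apply, bcomp_apply, bcomp_apply]
  generalize q.1 (x : OnePoint X) = z
  induction z using OnePoint.rec with
  | infty => rfl
  | coe p =>
    obtain ⟨l, y⟩ := p
    rw [act_coe, act_coe, pushPt_smash]

end act

/-! ### stage maps -/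

section stage

variable {X Y X' Y' Y₁ Y₁' : Type} [TopologicalSpace X] [T2Space X] [LocallyCompactSpace X]
  [TopologicalSpace Y] [T2Space Y] [LocallyCompactSpace Y]
  [TopologicalSpace X'] [T2Space X'] [LocallyCompactSpace X']
  [TopologicalSpace Y'] [T2Space Y'] [LocallyCompactSpace Y']
  [TopologicalSpace Y₁] [T2Space Y₁] [LocallyCompactSpace Y₁]
  [TopologicalSpace Y₁'] [T2Space Y₁'] [LocallyCompactSpace Y₁']
variable {J L : Type} [TopologicalSpace J] [DiscreteTopology J] [Finite J]
  [TopologicalSpace L] [DiscreteTopology L] [Finite L]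

theorem opH_kH_smash (e' : Y × ℝ ≃ₜ Y') (o : OnePoint L) (y : OnePoint Y) (t : OnePoint ℝ) :
    opH (kH L e') (LC.smash (LC.smash o y) t) = LC.smash o (opH e' (LC.smash y t)) := by
  induction o using OnePoint.rec with
  | infty => rfl
  | coe o =>
    induction y using OnePoint.rec with
    | infty => rfl
    | coe y =>
      induction t using OnePoint.rec with
      | infty =>
        rw [LC.smash_infty_right, LC.smash_infty_right, opH_infty, opH_infty]
        rfl
      | coe t => rfl

/-- the compatibility of the front coordinate and the last coordinate -/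
def Compat (e' : Y × ℝ ≃ₜ Y') (e₁ : Y₁ × ℝ ≃ₜ Y₁') (c : ℝ × Y ≃ₜ Y₁) (c' : ℝ × Y' ≃ₜ Y₁') :
    Prop := ∀ (a : ℝ) (y : Y) (t : ℝ), c' (a, e' (y, t)) = e₁ (c (a, y), t)

theorem Compat.smash {e' : Y × ℝ ≃ₜ Y'} {e₁ : Y₁ × ℝ ≃ₜ Y₁'} {c : ℝ × Y ≃ₜ Y₁}
    {c' : ℝ × Y' ≃ₜ Y₁'} (h : Compat e' e₁ c c') (a : OnePoint ℝ) (y : OnePoint Y)
    (t : OnePoint ℝ) : opH c' (LC.smash a (opH e' (LC.smash y t))) =
      opH e₁ (LC.smash (opH c (LC.smash a y)) t) := by
  induction a using OnePoint.rec with
  | infty => rfl
  | coe a =>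
    induction y using OnePoint.rec with
    | infty => rfl
    | coe y =>
      induction t using OnePoint.rec with
      | infty =>
        simp only [LC.smash_infty_right, opH_infty]
      | coe t => exact congrArg _ (h a y t)

/-- `act` commutes strictly with the stage maps -/
theorem act_stK (e : X × ℝ ≃ₜ X') {e' : Y × ℝ ≃ₜ Y'} {e₁ : Y₁ × ℝ ≃ₜ Y₁'} {c : ℝ × Y ≃ₜ Y₁}
    {c' : ℝ × Y' ≃ₜ Y₁'} (h : Compat e' e₁ c c') (φ : L → Option J) (u : L → OnePoint ℝ)
    (q : BMap X (L × Y)) :
    bcomp (act c' φ u) (stK L e e' q) = stK J e e₁ (bcomp (act c φ u) q) := by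
  refine ext2' e fun x t => ?_
  rw [bcomp_apply, stK, stC_smash, stK, stC_smash, bcomp_apply]
  generalize q.1 x = z
  induction z using OnePoint.rec with
  | infty => rfl
  | coe p =>
    obtain ⟨l, y⟩ := p
    rw [act_coe, opH_kH_smash]
    show (act c' φ u).1 (opH (kH L e') (LC.smash (LC.smash (l : OnePoint L) (y : OnePoint Y)) t))
      = _
    rw [opH_kH_smash, act_smash, h.smash]

end stage

end Vale.Agent.P263.G2
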