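import Vale.Agent.P263.G2.AlphaSS

/-!
# P263, G2: the collapse with infinitely many coordinates

`al S : T → (ℕ → ℝ) → Option (K × (ℕ → ℝ))` : the collapse of a family of configurations of
boxes, as a plain function of infinitely many coordinates.
-/

open OnePoint Topology Vale.Agent.P251.G Vale.Agent.P263.TOP

namespace Vale.Agent.P263.G2

/-! ### tuples -/

section tupO

variable {ι : Type}

open scoped Classical in
/-- the tuple of the values, if all are defined -/
noncomputable def tupO (v : ι → Option ℝ) : Option (ι → ℝ) :=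
  if ∀ i, v i ≠ none then Option.some fun i => (v i).getD 0 else none

theorem tupO_some (x : ι → ℝ) : tupO (fun i => Option.some (x i)) = Option.some x := by
  unfold tupO
  rw [if_pos fun i => Option.some_ne_none _]
  rfl

theorem tupO_eq_none {v : ι → Option ℝ} : tupO v = none ↔ ∃ i, v i = none := by
  unfold tupO
  by_cases h : ∀ i, v i ≠ none
  · rw [if_pos h]
    constructor
    · intro h'
      exact absurd h' (Option.some_ne_none _)
    · rintro ⟨i, hi⟩
      exact absurd hi (h i)
  · rw [if_neg h]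
    push Not at h
    exact ⟨fun _ => h, fun _ => rfl⟩

theorem tupO_eq_some {v : ι → Option ℝ} {x : ι → ℝ} :
    tupO v = Option.some x ↔ ∀ i, v i = Option.some (x i) := by
  constructor
  · intro h
    have h1 : ∀ i, v i ≠ none := by
      intro i hi
      rw [tupO_eq_none.2 ⟨i, hi⟩] at h
      exact absurd h.symm (Option.some_ne_none _)
    choose y hy using fun i => Option.ne_none_iff_exists'.1 (h1 i)
    have h2 : v = fun i => Option.some (y i) := funext hy
    rw [h2, tupO_some] at h
    have h3 : y = x := Option.some.inj h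
    intro i
    rw [hy, h3]
  · intro h
    have h2 : v = fun i => Option.some (x i) := funext h
    rw [h2, tupO_some]

theorem tupO_eq_tup [Finite ι] (v : ι → OnePoint ℝ) : tupO (ι := ι) v = tup v := by
  by_cases h : ∀ i, v i ≠ ∞
  · choose x hx using fun i => OnePoint.ne_infty_iff_exists.1 (h i)
    have h1 : v = fun i => (x i : OnePoint ℝ) := funext fun i => (hx i).symm
    rw [h1, tup_coe]
    exact tupO_some x
  · push Not at h
    obtain ⟨i, hi⟩ := h
    rw [tup_of_eq_infty hi]
    exact tupO_eq_none.2 ⟨i, hi⟩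

end tupO

/-! ### The collapse -/

section al

variable {K L : Type} {T T' : Type} [TopologicalSpace T] [TopologicalSpace T']

/-- one coordinate of the collapse onto the interval `J` -/
noncomputable def rhoI (J : Iv) (x : ℝ) : Option ℝ := GB.rho J.lo J.hi (x : OnePoint ℝ)

theorem rhoI_full (x : ℝ) : rhoI Iv.full x = Option.some x := GB.rho_zero_one _

theorem mem_of_rhoI {J : Iv} {x : ℝ} (h : rhoI J x ≠ none) :
    J.lo < GB.loopI x ∧ GB.loopI x < J.hi := GB.mem_of_rho_ne_infty J.lo_lt_hi h

/-- the collapse onto the box `b` -/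
noncomputable def collN (b : Bx) (x : ℕ → ℝ) : Option (ℕ → ℝ) := tupO fun i => rhoI (b i) (x i)

theorem collN_disj {b c : Bx} (h : Bx.Disj b c) (x : ℕ → ℝ) :
    collN b x = none ∨ collN c x = none := by
  by_contra hc
  push Not at hc
  have h1 : ∀ i, rhoI (b i) (x i) ≠ none := fun i hi => hc.1 (tupO_eq_none.2 ⟨i, hi⟩)
  have h2 : ∀ i, rhoI (c i) (x i) ≠ none := fun i hi => hc.2 (tupO_eq_none.2 ⟨i, hi⟩)
  obtain ⟨i, hi⟩ := h
  have h3 := mem_of_rhoI (h1 i)
  have h4 := mem_of_rhoI (h2 i)
  rcases hi with hi | hi <;> linarith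

/-- the possible values at `x` -/
def valsN (S : Conf K T) (t : T) (x : ℕ → ℝ) : Set (OnePoint (K × (ℕ → ℝ))) :=
  (fun p : C(T, Bx) × K => lab p.2 (collN (p.1 t) x : OnePoint (ℕ → ℝ))) ''
    (S.pts : Set (C(T, Bx) × K))

theorem sub_valsN (S : Conf K T) (t : T) (x : ℕ → ℝ) : Sub (valsN S t x) := by
  rintro _ ⟨p, hp, rfl⟩ _ ⟨q, hq, rfl⟩ h1 h2
  by_contra hne
  have hpq : p ≠ q := fun h => hne (by rw [h])
  rcases collN_disj (S.disj p hp q hq hpq t) x with h | h
  · exact h1 (lab_eq_infty.2 h)
  · exact h2 (lab_eq_infty.2 h)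

/-- **The collapse** as a function of infinitely many coordinates. -/
noncomputable def al (S : Conf K T) (t : T) (x : ℕ → ℝ) : Option (K × (ℕ → ℝ)) :=
  join (valsN S t x)

/-- the value in a box -/
theorem al_of_mem {S : Conf K T} {c : C(T, Bx)} {k : K} (h : (c, k) ∈ S.pts) {t : T} {x y : ℕ → ℝ}
    (hx : collN (c t) x = Option.some y) : al S t x = Option.some (k, y) := by
  have h1 : lab k (collN (c t) x : OnePoint (ℕ → ℝ)) = Option.some (k, y) := by
    rw [hx]; rfl
  have h2 : join (valsN S t x) = lab k (collN (c t) x : OnePoint (ℕ → ℝ)) :=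
    join_of_mem (sub_valsN S t x) ⟨(c, k), h, rfl⟩ (by rw [h1]; exact OnePoint.coe_ne_infty _)
  exact h2.trans h1

/-- the value outside the boxes -/
theorem al_of_forall {S : Conf K T} {t : T} {x : ℕ → ℝ}
    (hx : ∀ p ∈ S.pts, collN (p.1 t) x = none) : al S t x = none := by
  refine join_of_forall ?_
  rintro _ ⟨p, hp, rfl⟩
  exact lab_eq_infty.2 (hx p hp)

/-- **The values of the collapse.** -/
theorem al_eq_some {S : Conf K T} {t : T} {x y : ℕ → ℝ} {k : K} :
    al S t x = Option.some (k, y) ↔ ∃ c : C(T, Bx), (c, k) ∈ S.pts ∧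
      collN (c t) x = Option.some y := by
  constructor
  · intro h
    by_cases h1 : ∀ p ∈ S.pts, collN (p.1 t) x = none
    · rw [al_of_forall h1] at h
      exact absurd h.symm (Option.some_ne_none _)
    · push Not at h1
      obtain ⟨⟨c, l⟩, hp, h2⟩ := h1
      obtain ⟨z, hz⟩ := Option.ne_none_iff_exists'.1 h2
      rw [al_of_mem hp hz] at h
      have h3 := Option.some.inj h
      have h4 : l = k := congrArg Prod.fst h3
      have h5 : z = y := congrArg Prod.snd h3
      subst h4
      subst h5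
      exact ⟨c, hp, hz⟩
  · rintro ⟨c, hc, h⟩
    exact al_of_mem hc h

theorem al_eq_none {S : Conf K T} {t : T} {x : ℕ → ℝ} :
    al S t x = none ↔ ∀ p ∈ S.pts, collN (p.1 t) x = none := by
  constructor
  · intro h p hp
    by_contra h1
    obtain ⟨z, hz⟩ := Option.ne_none_iff_exists'.1 h1
    rw [al_of_mem (c := p.1) (k := p.2) hp hz] at h
    exact Option.some_ne_none _ h
  · exact al_of_forall

/-- two functions to `Option` with the same values `some` are equal -/
theorem option_ext {α : Type} {a b : Option α} (h : ∀ x, a = Option.some x ↔ b = Option.some x) :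
    a = b := by
  cases a with
  | none =>
    cases b with
    | none => rfl
    | some b => exact absurd ((h b).2 rfl) (Option.some_ne_none b).symm
  | some a => exact ((h a).1 rfl).symm

theorem al_pull (S : Conf K T) (g : C(T', T)) (t : T') (x : ℕ → ℝ) :
    al (S.pull g) t x = al S (g t) x := by
  refine option_ext fun z => ?_
  obtain ⟨k, y⟩ := z
  rw [al_eq_some, al_eq_some]
  constructor
  · rintro ⟨c, hc, h⟩
    obtain ⟨c', hc', h'⟩ := Conf.mem_pull.1 hc
    refine ⟨c', hc', ?_⟩
    have h1 : c' (g t) = c t := DFunLike.congr_fun h' t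
    rw [h1, h]
  · rintro ⟨c, hc, h⟩
    exact ⟨c.comp g, Conf.mem_pull.2 ⟨c, hc, rfl⟩, h⟩

theorem al_map (S : Conf K T) (f : K → Option L) (t : T) (x : ℕ → ℝ) :
    al (S.map f) t x = (al S t x).bind fun p => (f p.1).map fun l => (l, p.2) := by
  refine option_ext fun z => ?_
  obtain ⟨l, y⟩ := z
  rw [al_eq_some, Option.bind_eq_some_iff]
  constructor
  · rintro ⟨c, hc, h⟩
    obtain ⟨k, hk, hf⟩ := Conf.mem_map.1 hc
    refine ⟨(k, y), al_of_mem hk h, ?_⟩
    rw [Option.map_eq_some_iff]
    exact ⟨l, hf, rfl⟩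
  · rintro ⟨⟨k, y'⟩, h, h'⟩
    obtain ⟨c, hc, h2⟩ := al_eq_some.1 h
    obtain ⟨l', hl', h3⟩ := Option.map_eq_some_iff.1 h'
    have h4 : l' = l := congrArg Prod.fst h3
    have h5 : y' = y := congrArg Prod.snd h3
    subst h4
    subst h5
    exact ⟨c, Conf.mem_map.2 ⟨k, hc, hl'⟩, h2⟩

/-! ### Finitely many coordinates -/

/-- the first `r` coordinates -/
def fstN (r : ℕ) (x : ℕ → ℝ) : Fin r → ℝ := fun i => x i

/-- replace the first `r` coordinates of `x` by `y` -/
def mergeN (r : ℕ) (y : Fin r → ℝ) (x : ℕ → ℝ) : ℕ → ℝ :=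
  fun i => if h : i < r then y ⟨i, h⟩ else x i

/-- the extension of a map of `r` coordinates by the identity of the others -/
def extN (r : ℕ) (f : OnePoint (Fin r → ℝ) → OnePoint (K × (Fin r → ℝ))) (x : ℕ → ℝ) :
    Option (K × (ℕ → ℝ)) :=
  (show Option (K × (Fin r → ℝ)) from f (fstN r x : OnePoint (Fin r → ℝ))).map
    fun p => (p.1, mergeN r p.2 x)

theorem mergeN_injective (r : ℕ) (x : ℕ → ℝ) : Function.Injective fun y => mergeN r y x := by
  intro y y' h
  funext i
  have h1 := congrFun h (i : ℕ)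
  simpa [mergeN] using h1

theorem collB_eq_coe {r : ℕ} {b : Bx} {x : Fin r → ℝ} {z : Fin r → ℝ} :
    collB r b (x : OnePoint (Fin r → ℝ)) = (z : OnePoint (Fin r → ℝ)) ↔
      ∀ i : Fin r, rhoI (b i) (x i) = Option.some (z i) := by
  constructor
  · intro h
    have h1 : tupO (fun i : Fin r => rhoI (b i) (x i)) = Option.some z :=
      (tupO_eq_tup (ι := Fin r) fun i => rhoI (b i) (x i)).trans h
    exact tupO_eq_some.1 h1
  · intro h
    exact (tupO_eq_tup (ι := Fin r) fun i => rhoI (b i) (x i)).symm.trans (tupO_eq_some.2 h)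

theorem collN_eq_some_of_St {r : ℕ} {b : Bx} (hb : Bx.St r b) {x : ℕ → ℝ} {y : ℕ → ℝ} :
    collN b x = Option.some y ↔ ∃ z : Fin r → ℝ,
      collB r b (fstN r x : OnePoint (Fin r → ℝ)) = (z : OnePoint (Fin r → ℝ)) ∧
        mergeN r z x = y := by
  rw [collN, tupO_eq_some]
  constructor
  · intro h
    refine ⟨fun i => y i, ?_, ?_⟩
    · exact collB_eq_coe.2 fun i => h i
    · funext i
      unfold mergeN
      split_ifs with hi
      · rfl
      · have h2 := h i
        rw [hb i (not_lt.1 hi), rhoI_full] at h2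
        exact Option.some.inj h2
  · rintro ⟨z, hz, rfl⟩ i
    have h2 := collB_eq_coe.1 hz
    unfold mergeN
    split_ifs with hi
    · exact h2 ⟨i, hi⟩
    · rw [hb i (not_lt.1 hi), rhoI_full]

/-- **The collapse of a configuration of stage `r`.** -/
theorem al_eq_extN {r : ℕ} {S : Conf K T} (hS : S.IsSt r) (t : T) (x : ℕ → ℝ) :
    al S t x = extN r (alphaFun r S t) x := by
  refine option_ext fun z => ?_
  obtain ⟨k, y⟩ := z
  rw [al_eq_some]
  unfold extN
  rw [Option.map_eq_some_iff]
  constructor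
  · rintro ⟨c, hc, h⟩
    obtain ⟨z, hz, rfl⟩ := (collN_eq_some_of_St (hS _ hc t)).1 h
    refine ⟨(k, z), ?_, rfl⟩
    change alphaFun r S t (fstN r x : OnePoint (Fin r → ℝ)) = _
    rw [alphaFun_of_mem hS hc (by rw [hz]; exact OnePoint.coe_ne_infty _), hz]
    rfl
  · rintro ⟨⟨k', z⟩, h, h'⟩
    have h1 : k' = k := congrArg Prod.fst h'
    have h2 : mergeN r z x = y := congrArg Prod.snd h'
    subst h1
    subst h2
    change alphaFun r S t (fstN r x : OnePoint (Fin r → ℝ)) = _ at h
    by_cases h3 : ∀ p ∈ S.pts, collB r (p.1 t) (fstN r x : OnePoint (Fin r → ℝ)) = ∞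
    · rw [alphaFun_of_forall h3] at h
      exact absurd h.symm (Option.some_ne_none _)
    · push Not at h3
      obtain ⟨⟨c, l⟩, hp, h3⟩ := h3
      rw [alphaFun_of_mem hS hp h3] at h
      obtain ⟨w, hw⟩ := OnePoint.ne_infty_iff_exists.1 h3
      rw [← hw] at h
      have h4 := OnePoint.coe_injective h
      have h5 : l = k' := congrArg Prod.fst h4
      have h6 : w = z := congrArg Prod.snd h4
      subst h5
      subst h6
      exact ⟨c, hp, (collN_eq_some_of_St (hS _ hp t)).2 ⟨w, hw.symm, rfl⟩⟩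

end al

end Vale.Agent.P263.G2
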