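import Vale.Agent.P263.G2.Coll
import Vale.Agent.P263.G2.Box
import Vale.Agent.P263.G2.SingSS
import Vale.Agent.P263.GB.QStage

/-!
# P263, block G2: stable families of loops at the function level

* `jn A` : the unique member of a set with at most one member, as an option.
* `PM T` : families over `T` of partial maps of `ℝ^ℕ`; `IsPM r f` : the partial map `f` is given by
  based maps `Sʳ → Sʳ` (continuous family over `T`) in the first `r` coordinates and it is the
  identity in the other coordinates.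
* `bxm b : PM` : the collapse onto the box `b : Bx`.
* `Fn K T = T → (ℕ → ℝ) → Option (K × (ℕ → ℝ))` : families of maps with labels; `IsStQ r g`.
* operations: `Fn.push` (labels), `Fn.pull` (parameters), `Fn.pre` (composition with a partial map
  on the right), `Fn.post` (label-dependent composition on the left), `Fn.uni` (union).
-/

open Topology Vale.Agent.P251.G Vale.Agent.P263.TOP
open scoped OnePoint

namespace Vale.Agent.P263.G2

/-! ### The unique member of a set -/

open scoped Classical in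
/-- the unique member of `A`, if there is one -/
noncomputable def jn {α : Type*} (A : Set α) : Option α :=
  if h : A.Nonempty then some h.choose else none

theorem jn_eq_some {α : Type*} {A : Set α} (hA : A.Subsingleton) {a : α} :
    jn A = some a ↔ a ∈ A := by
  rw [jn]
  split_ifs with h
  · constructor
    · intro h'
      rw [← Option.some.inj h']
      exact h.choose_spec
    · intro ha
      rw [hA h.choose_spec ha]
  · constructor
    · intro h'
      exact absurd h' (by simp)
    · intro ha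
      exact absurd ⟨a, ha⟩ h

/-! ### Partial maps of `ℝ^ℕ` -/

/-- families over `T` of partial maps of `ℝ^ℕ` -/
abbrev PM (T : Type) : Type := T → (ℕ → ℝ) → Option (ℕ → ℝ)

/-- the first `r` coordinates -/
def rs (r : ℕ) (x : ℕ → ℝ) : Fin r → ℝ := fun i => x i

/-- replace the first `r` coordinates -/
def rep (r : ℕ) (x : ℕ → ℝ) (y : Fin r → ℝ) : ℕ → ℝ :=
  fun i => if h : i < r then y ⟨i, h⟩ else x i

theorem rep_of_lt {r : ℕ} {x : ℕ → ℝ} {y : Fin r → ℝ} {i : ℕ} (h : i < r) :
    rep r x y i = y ⟨i, h⟩ := dif_pos h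

theorem rep_of_le {r : ℕ} {x : ℕ → ℝ} {y : Fin r → ℝ} {i : ℕ} (h : r ≤ i) :
    rep r x y i = x i := dif_neg (not_lt.2 h)

@[simp] theorem rs_rep (r : ℕ) (x : ℕ → ℝ) (y : Fin r → ℝ) : rs r (rep r x y) = y :=
  funext fun i => rep_of_lt i.2

@[simp] theorem rep_rs (r : ℕ) (x : ℕ → ℝ) : rep r x (rs r x) = x := by
  funext i
  by_cases h : i < r
  · rw [rep_of_lt h]; rfl
  · rw [rep_of_le (not_lt.1 h)]

@[simp] theorem rep_rep (r : ℕ) (x : ℕ → ℝ) (y z : Fin r → ℝ) :
    rep r (rep r x y) z = rep r x z := by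
  funext i
  by_cases h : i < r
  · rw [rep_of_lt h, rep_of_lt h]
  · rw [rep_of_le (not_lt.1 h), rep_of_le (not_lt.1 h), rep_of_le (not_lt.1 h)]

theorem rep_injective (r : ℕ) (x : ℕ → ℝ) : Function.Injective (rep r x) := by
  intro y z h
  rw [← rs_rep r x y, h, rs_rep]

/-- copy the coordinates `i ≥ r` of `x` -/
def ex (r : ℕ) (x : ℕ → ℝ) (z : OnePoint (Fin r → ℝ)) : Option (ℕ → ℝ) :=
  z.elim none fun y => some (rep r x y)

@[simp] theorem ex_infty (r : ℕ) (x : ℕ → ℝ) : ex r x ∞ = none := rfl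

@[simp] theorem ex_coe (r : ℕ) (x : ℕ → ℝ) (y : Fin r → ℝ) :
    ex r x (y : OnePoint (Fin r → ℝ)) = some (rep r x y) := rfl

theorem ex_eq_some {r : ℕ} {x : ℕ → ℝ} {z : OnePoint (Fin r → ℝ)} {w : ℕ → ℝ} :
    ex r x z = some w ↔ ∃ y : Fin r → ℝ, z = y ∧ rep r x y = w := by
  induction z using OnePoint.rec with
  | infty =>
    constructor
    · intro h; exact absurd h (by simp)
    · rintro ⟨y, h, -⟩; exact absurd h (OnePoint.infty_ne_coe _)
  | coe y =>
    rw [ex_coe]
    constructor
    · intro h; exact ⟨y, rfl, Option.some.inj h⟩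
    · rintro ⟨y', h, rfl⟩
      rw [OnePoint.coe_injective h]

theorem ex_injective (r : ℕ) (x : ℕ → ℝ) : Function.Injective (ex r x) := by
  intro z z' h
  induction z using OnePoint.rec with
  | infty =>
    induction z' using OnePoint.rec with
    | infty => rfl
    | coe y' => exact absurd h (by simp)
  | coe y =>
    have h' : ex r x z' = some (rep r x y) := h.symm
    obtain ⟨y', rfl, h2⟩ := ex_eq_some.1 h'
    rw [rep_injective r x h2]

section PM

variable {T T' : Type} [TopologicalSpace T] [TopologicalSpace T']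

/-- the partial map `f` is given by a continuous family of based maps `Sʳ → Sʳ`, and it is the
identity in the coordinates `i ≥ r` -/
def IsPM (r : ℕ) (f : PM T) : Prop :=
  ∃ φ : C(T × OnePoint (Fin r → ℝ), OnePoint (Fin r → ℝ)), (∀ t, φ (t, ∞) = ∞) ∧
    ∀ t x, f t x = ex r x (φ (t, (rs r x : OnePoint (Fin r → ℝ))))

theorem IsPM.comp {r : ℕ} {f g : PM T} (hf : IsPM r f) (hg : IsPM r g) :
    IsPM r fun t x => (f t x).bind (g t) := by
  obtain ⟨φ, h1, h2⟩ := hf
  obtain ⟨ψ, h3, h4⟩ := hg
  refine ⟨ψ.comp (ContinuousMap.fst.prodMk φ), fun t => ?_, fun t x => ?_⟩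
  · show ψ (t, φ (t, ∞)) = ∞
    rw [h1, h3]
  · show _ = ex r x (ψ (t, φ (t, (rs r x : OnePoint (Fin r → ℝ)))))
    simp only [h2]
    generalize φ (t, (rs r x : OnePoint (Fin r → ℝ))) = z
    induction z using OnePoint.rec with
    | infty => rw [h3]; rfl
    | coe y =>
      rw [ex_coe, Option.bind_some, h4, rs_rep]
      generalize ψ (t, (y : OnePoint (Fin r → ℝ))) = z
      induction z using OnePoint.rec with
      | infty => rfl
      | coe z => rw [ex_coe, ex_coe, rep_rep]

theorem IsPM.pull {r : ℕ} {f : PM T} (hf : IsPM r f) (g : C(T', T)) :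
    IsPM r fun t => f (g t) := by
  obtain ⟨φ, h1, h2⟩ := hf
  refine ⟨φ.comp ((g.comp ContinuousMap.fst).prodMk ContinuousMap.snd), fun t => h1 _,
    fun t x => h2 _ _⟩

theorem isPM_some (r : ℕ) : IsPM r fun (_ : T) x => some x :=
  ⟨ContinuousMap.snd, fun _ => rfl, fun t x => by
    show some x = ex r x (rs r x : OnePoint (Fin r → ℝ))
    rw [ex_coe, rep_rs]⟩

theorem isPM_none (r : ℕ) : IsPM r fun (_ : T) _ => none :=
  ⟨ContinuousMap.const _ ∞, fun _ => rfl, fun _ _ => rfl⟩

/-- **Unions.** -/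
theorem IsPM.of_iff {r : ℕ} {ι : Type*} (s : Finset ι) (f : ι → PM T)
    (hf : ∀ i ∈ s, IsPM r (f i)) (F : PM T)
    (hF : ∀ t x y, F t x = some y ↔ ∃ i ∈ s, f i t x = some y) : IsPM r F := by
  classical
  have hch : ∀ i, ∃ φ : C(T × OnePoint (Fin r → ℝ), OnePoint (Fin r → ℝ)),
      (∀ t, φ (t, ∞) = ∞) ∧ (i ∈ s → ∀ t x, f i t x =
        ex r x (φ (t, (rs r x : OnePoint (Fin r → ℝ))))) := by
    intro i
    by_cases hi : i ∈ s
    · obtain ⟨φ, h1, h2⟩ := hf i hi
      exact ⟨φ, h1, fun _ => h2⟩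
    · exact ⟨ContinuousMap.const _ ∞, fun _ => rfl, fun h => absurd h hi⟩
  choose φ h1 h2 using hch
  have hsub : ∀ z : T × OnePoint (Fin r → ℝ), Sub ((fun i => φ i z) '' (s : Set ι)) := by
    rintro ⟨t, z⟩ _ ⟨i, hi, rfl⟩ _ ⟨j, hj, rfl⟩ hi' hj'
    induction z using OnePoint.rec with
    | infty => exact absurd (h1 i t) hi'
    | coe y =>
      obtain ⟨u, hu⟩ := OnePoint.ne_infty_iff_exists.1 hi'
      obtain ⟨v, hv⟩ := OnePoint.ne_infty_iff_exists.1 hj'
      simp only at hu hv ⊢
      have e1 : F t (rep r 0 y) = some (rep r (rep r 0 y) u) :=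
        (hF _ _ _).2 ⟨i, hi, by rw [h2 i hi, rs_rep, ← hu, ex_coe]⟩
      have e2 : F t (rep r 0 y) = some (rep r (rep r 0 y) v) :=
        (hF _ _ _).2 ⟨j, hj, by rw [h2 j hj, rs_rep, ← hv, ex_coe]⟩
      rw [e1] at e2
      have := rep_injective r _ (Option.some.inj e2)
      rw [← hu, ← hv, this]
  have hc := continuous_join (Z := T × OnePoint (Fin r → ℝ)) s (fun i z => φ i z)
    (fun i _ => (φ i).continuous) hsub
  refine ⟨⟨_, hc⟩, fun t => ?_, fun t x => ?_⟩
  · refine join_of_forall ?_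
    rintro _ ⟨i, -, rfl⟩
    exact h1 i t
  · show _ = ex r x (join ((fun i => φ i (t, (rs r x : OnePoint (Fin r → ℝ)))) '' (s : Set ι)))
    by_cases h : ∀ z ∈ (fun i => φ i (t, (rs r x : OnePoint (Fin r → ℝ)))) '' (s : Set ι), z = ∞
    · rw [join_of_forall h, ex_infty]
      by_contra hne
      obtain ⟨y, hy⟩ := Option.ne_none_iff_exists'.1 hne
      obtain ⟨i, hi, hi'⟩ := (hF _ _ _).1 hy
      have h4 := h _ ⟨i, hi, rfl⟩
      simp only at h4
      rw [h2 i hi, h4] at hi'
      exact absurd hi' (by simp)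
    · push Not at h
      obtain ⟨_, ⟨i, hi, rfl⟩, h3⟩ := h
      rw [join_of_mem (hsub _) ⟨i, hi, rfl⟩ h3]
      obtain ⟨y, hy⟩ := OnePoint.ne_infty_iff_exists.1 h3
      simp only at hy ⊢
      rw [← hy, ex_coe]
      exact (hF _ _ _).2 ⟨i, hi, by rw [h2 i hi, ← hy, ex_coe]⟩

theorem IsPM.succ {r : ℕ} {f : PM T} (hf : IsPM r f) : IsPM (r + 1) f := by
  obtain ⟨φ, h1, h2⟩ := hf
  have hc : Continuous fun q : T × OnePoint ((Fin r → ℝ) × ℝ) =>
      GB.lift2 (fun a b => LC.smash (φ (q.1, a)) b) q.2 := by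
    refine GB.continuous_lift2 (P := T) (G := fun t a b => LC.smash (φ (t, a)) b) ?_ ?_ ?_
    · refine LC.continuous_smash.comp (Continuous.prodMk ?_ (continuous_snd.comp continuous_snd))
      exact φ.continuous.comp (continuous_fst.prodMk (continuous_fst.comp continuous_snd))
    · intro t z
      rw [h1, LC.smash_infty_left]
    · intro t z
      rw [LC.smash_infty_right]
  refine ⟨⟨fun q => opH (snocH r) (GB.lift2 (fun a b => LC.smash (φ (q.1, a)) b)
    ((opH (snocH r)).symm q.2)), ?_⟩, fun t => rfl, fun t x => ?_⟩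
  · exact (opH (snocH r)).continuous.comp (hc.comp (continuous_fst.prodMk
      ((opH (snocH r)).symm.continuous.comp continuous_snd)))
  · show _ = ex (r + 1) x (opH (snocH r) (LC.smash (φ (t, ((Fin.init (rs (r + 1) x) : Fin r → ℝ) :
      OnePoint (Fin r → ℝ)))) ((rs (r + 1) x (Fin.last r) : ℝ) : OnePoint ℝ)))
    have e : (Fin.init (rs (r + 1) x) : Fin r → ℝ) = rs r x := rfl
    rw [h2, e]
    generalize φ (t, (rs r x : OnePoint (Fin r → ℝ))) = z
    induction z using OnePoint.rec with
    | infty => rfl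
    | coe y =>
      rw [ex_coe, LC.smash_coe_coe, opH_coe, ex_coe, snocH_apply]
      congr 1
      funext i
      rcases lt_trichotomy i r with h | h | h
      · rw [rep_of_lt h, rep_of_lt (h.trans (Nat.lt_succ_self r))]
        have : (⟨i, h.trans (Nat.lt_succ_self r)⟩ : Fin (r + 1)) = Fin.castSucc ⟨i, h⟩ := rfl
        rw [this, Fin.snoc_castSucc]
      · subst h
        rw [rep_of_le le_rfl, rep_of_lt (Nat.lt_succ_self i)]
        have : (⟨i, Nat.lt_succ_self i⟩ : Fin (i + 1)) = Fin.last i := rfl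
        rw [this, Fin.snoc_last]
        rfl
      · rw [rep_of_le h.le, rep_of_le h]

theorem IsPM.mono {r s : ℕ} (h : r ≤ s) {f : PM T} (hf : IsPM r f) : IsPM s f := by
  induction h with
  | refl => exact hf
  | step _ ih => exact ih.succ

end PM

/-! ### Intervals and boxes -/

theorem loopI_injective : Function.Injective GB.loopI := by
  intro s t h
  have h1 := GB.loopE_loopI s
  rw [h, GB.loopE_loopI] at h1
  exact (OnePoint.coe_injective h1).symm

theorem exists_loopI {u : ℝ} (h0 : 0 < u) (h1 : u < 1) : ∃ t, GB.loopI t = u :=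
  ⟨_, GB.loopI_tan h0 h1⟩

theorem loopE_eq_coe {u t : ℝ} : GB.loopE u = (t : OnePoint ℝ) ↔ u = GB.loopI t := by
  constructor
  · intro h
    have hne : GB.loopE u ≠ ∞ := by rw [h]; exact OnePoint.coe_ne_infty _
    obtain ⟨h0, h1⟩ := GB.loopE_ne_infty hne
    obtain ⟨s, rfl⟩ := exists_loopI h0 h1
    rw [GB.loopE_loopI] at h
    rw [OnePoint.coe_injective h]
  · rintro rfl
    exact GB.loopE_loopI t

namespace Iv

/-- the interval `I` inside `J` -/
def comp (J I : Iv) : Iv :=
  ⟨(J.lo + (J.hi - J.lo) * I.lo, J.lo + (J.hi - J.lo) * I.hi), by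
    have h1 := J.lo_nonneg
    have h2 := sub_pos.2 J.lo_lt_hi
    have h3 := J.hi_le_one
    have h4 := I.lo_nonneg
    have h5 := I.lo_lt_hi
    have h6 := I.hi_le_one
    refine ⟨by simp only; positivity, ?_, ?_⟩
    · simp only; nlinarith
    · simp only; nlinarith⟩

theorem comp_lo (J I : Iv) : (comp J I).lo = J.lo + (J.hi - J.lo) * I.lo := rfl

theorem comp_hi (J I : Iv) : (comp J I).hi = J.lo + (J.hi - J.lo) * I.hi := rfl

@[simp] theorem comp_full (J : Iv) : comp J full = J := by
  ext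
  · rw [comp_lo, full_lo]; ring
  · rw [comp_hi, full_hi]; ring

@[simp] theorem full_comp (I : Iv) : comp full I = I := by
  ext
  · rw [comp_lo, full_lo, full_hi]; ring
  · rw [comp_hi, full_lo, full_hi]; ring

theorem comp_assoc (J I H : Iv) : comp (comp J I) H = comp J (comp I H) := by
  ext
  · simp only [comp_lo, comp_hi]; ring
  · simp only [comp_lo, comp_hi]; ring

theorem continuous_comp : Continuous fun p : Iv × Iv => comp p.1 p.2 := by
  have h1 : Continuous fun p : Iv × Iv => p.1.lo := continuous_lo.comp continuous_fst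
  have h2 : Continuous fun p : Iv × Iv => p.1.hi := continuous_hi.comp continuous_fst
  have h3 : Continuous fun p : Iv × Iv => p.2.lo := continuous_lo.comp continuous_snd
  have h4 : Continuous fun p : Iv × Iv => p.2.hi := continuous_hi.comp continuous_snd
  rw [continuous_iff]
  exact ⟨h1.add ((h2.sub h1).mul h3), h1.add ((h2.sub h1).mul h4)⟩

theorem _root_.Continuous.ivComp {T : Type*} [TopologicalSpace T] {p q : T → Iv}
    (hp : Continuous p) (hq : Continuous q) : Continuous fun t => comp (p t) (q t) :=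
  continuous_comp.comp (hp.prodMk hq)

/-- `v` is the image of `u` under the expansion of `J` to `(0, 1)` (in the coordinate `loopI`) -/
def Rel (J : Iv) (u v : ℝ) : Prop := J.lo + (J.hi - J.lo) * GB.loopI v = GB.loopI u

theorem Rel.unique {J : Iv} {u v w : ℝ} (h : J.Rel u v) (h' : J.Rel u w) : v = w := by
  apply loopI_injective
  have h1 := sub_pos.2 J.lo_lt_hi
  unfold Rel at h h'
  have h2 : (J.hi - J.lo) * (GB.loopI v - GB.loopI w) = 0 := by linarith
  rcases mul_eq_zero.1 h2 with h3 | h3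
  · exact absurd h3 h1.ne'
  · linarith

theorem rel_full {u v : ℝ} : full.Rel u v ↔ u = v := by
  unfold Rel
  rw [full_lo, full_hi]
  constructor
  · intro h
    apply loopI_injective
    rw [← h]; ring
  · rintro rfl
    ring

theorem rel_comp {J I : Iv} {u w : ℝ} : (comp J I).Rel u w ↔ ∃ v, J.Rel u v ∧ I.Rel v w := by
  constructor
  · intro h
    have h0 := GB.loopI_pos w
    have h1 := GB.loopI_lt_one w
    have h2 := I.lo_nonneg
    have h3 := I.hi_le_one
    have h4 := sub_pos.2 I.lo_lt_hi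
    obtain ⟨v, hv⟩ := exists_loopI (u := I.lo + (I.hi - I.lo) * GB.loopI w) (by positivity)
      (by nlinarith)
    refine ⟨v, ?_, hv.symm⟩
    unfold Rel at h ⊢
    rw [hv, ← h, comp_lo, comp_hi]
    ring
  · rintro ⟨v, h, h'⟩
    unfold Rel at *
    rw [← h, ← h', comp_lo, comp_hi]
    ring

/-- a point with an image lies in the interval -/
theorem Rel.mem {J : Iv} {u v : ℝ} (h : J.Rel u v) :
    J.lo < GB.loopI u ∧ GB.loopI u < J.hi := by
  have h0 := GB.loopI_pos v
  have h1 := GB.loopI_lt_one v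
  have h4 := sub_pos.2 J.lo_lt_hi
  unfold Rel at h
  constructor <;> nlinarith

theorem rho_eq_coe {J : Iv} {u v : ℝ} :
    GB.rho J.lo J.hi (u : OnePoint ℝ) = (v : OnePoint ℝ) ↔ J.Rel u v := by
  rw [GB.rho_coe, loopE_eq_coe, div_eq_iff (sub_pos.2 J.lo_lt_hi).ne']
  unfold Rel
  constructor <;> intro h <;> linarith

/-- the intervals are disjoint -/
def Dj (J I : Iv) : Prop := J.hi ≤ I.lo ∨ I.hi ≤ J.lo

theorem Dj.symm {J I : Iv} (h : J.Dj I) : I.Dj J := Or.symm h

theorem Dj.not_rel {J I : Iv} (h : J.Dj I) {u v w : ℝ} (h1 : J.Rel u v) (h2 : I.Rel u w) :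
    False := by
  have := h1.mem
  have := h2.mem
  rcases h with h | h <;> linarith

end Iv

/-- the collapse onto the box `b` -/
noncomputable def bxm (b : Bx) (x : ℕ → ℝ) : Option (ℕ → ℝ) :=
  jn {y | ∀ i, (b i).Rel (x i) (y i)}

theorem bxm_eq_some {b : Bx} {x y : ℕ → ℝ} : bxm b x = some y ↔ ∀ i, (b i).Rel (x i) (y i) := by
  rw [bxm, jn_eq_some]
  · rfl
  · intro y hy z hz
    exact funext fun i => (hy i).unique (hz i)

theorem bxm_full (x : ℕ → ℝ) : bxm (fun _ => Iv.full) x = some x :=
  bxm_eq_some.2 fun _ => Iv.rel_full.2 rfl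

theorem bxm_bxm (b c : Bx) (x : ℕ → ℝ) :
    (bxm b x).bind (bxm c) = bxm (fun i => Iv.comp (b i) (c i)) x := by
  apply Option.ext
  intro z
  rw [Option.bind_eq_some_iff, bxm_eq_some]
  simp only [bxm_eq_some]
  constructor
  · rintro ⟨y, h1, h2⟩ i
    exact Iv.rel_comp.2 ⟨y i, h1 i, h2 i⟩
  · intro h
    choose y h1 h2 using fun i => Iv.rel_comp.1 (h i)
    exact ⟨y, h1, h2⟩

/-- disjoint boxes have disjoint supports -/
theorem bxm_disj {b c : Bx} (h : Bx.Disj b c) {x y z : ℕ → ℝ} (h1 : bxm b x = some y)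
    (h2 : bxm c x = some z) : False := by
  obtain ⟨i, hi⟩ := h
  exact Iv.Dj.not_rel (J := b i) (I := c i) hi (bxm_eq_some.1 h1 i) (bxm_eq_some.1 h2 i)

theorem bxm_eq_ex {r : ℕ} {b : Bx} (hb : Bx.St r b) (x : ℕ → ℝ) :
    bxm b x = ex r x (coll (fun i : Fin r => (b i).lo) (fun i : Fin r => (b i).hi)
      (rs r x : OnePoint (Fin r → ℝ))) := by
  apply Option.ext
  intro y
  rw [bxm_eq_some, ex_eq_some, coll_coe]
  constructor
  · intro h
    refine ⟨rs r y, ?_, ?_⟩
    · rw [← tup_coe]
      congr 1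
      funext i
      exact Iv.rho_eq_coe.2 (h i)
    · funext i
      by_cases hi : i < r
      · rw [rep_of_lt hi]; rfl
      · rw [rep_of_le (not_lt.1 hi)]
        have := h i
        rw [hb i (not_lt.1 hi), Iv.rel_full] at this
        exact this
  · rintro ⟨y', h1, rfl⟩ i
    by_cases hi : i < r
    · rw [rep_of_lt hi]
      have h2 : ∀ j : Fin r, GB.rho (b j).lo (b j).hi (rs r x j : OnePoint ℝ) ≠ ∞ :=
        tup_ne_infty.1 (by rw [h1]; exact OnePoint.coe_ne_infty _)
      choose y'' h3 using fun j => OnePoint.ne_infty_iff_exists.1 (h2 j)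
      have h4 : (fun j : Fin r => GB.rho (b j).lo (b j).hi (rs r x j : OnePoint ℝ)) =
          fun j => (y'' j : OnePoint ℝ) := funext fun j => (h3 j).symm
      rw [h4, tup_coe] at h1
      rw [← OnePoint.coe_injective h1]
      exact Iv.rho_eq_coe.1 (h3 ⟨i, hi⟩).symm
    · rw [rep_of_le (not_lt.1 hi), hb i (not_lt.1 hi), Iv.rel_full]

section Bx

variable {T : Type} [TopologicalSpace T]

theorem isPM_bxm {r : ℕ} (b : C(T, Bx)) (hb : ∀ t, Bx.St r (b t)) :
    IsPM r fun t x => bxm (b t) x := by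
  have hc := continuous_coll (ι := Fin r) (T := T) (lo := fun t i => (b t i).lo)
    (hi := fun t i => (b t i).hi)
    (fun i => Iv.continuous_lo.comp ((continuous_apply (i : ℕ)).comp b.continuous))
    (fun i => Iv.continuous_hi.comp ((continuous_apply (i : ℕ)).comp b.continuous))
    (fun t i => (b t i).lo_nonneg) (fun t i => (b t i).lo_lt_hi) (fun t i => (b t i).hi_le_one)
  exact ⟨⟨_, hc⟩, fun t => rfl, fun t x => bxm_eq_ex (hb t) x⟩

end Bx

/-- the box which is `J` in the coordinate `n` -/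
def bxc (n : ℕ) (J : Iv) : Bx := fun i => if i = n then J else Iv.full

@[simp] theorem bxc_self (n : ℕ) (J : Iv) : bxc n J n = J := if_pos rfl

theorem bxc_ne {n i : ℕ} (h : i ≠ n) (J : Iv) : bxc n J i = Iv.full := if_neg h

theorem bxc_full (n : ℕ) : bxc n Iv.full = fun _ => Iv.full := by
  funext i
  by_cases h : i = n
  · rw [h, bxc_self]
  · rw [bxc_ne h]

theorem st_bxc {n r : ℕ} (h : n < r) (J : Iv) : Bx.St r (bxc n J) :=
  fun _ hi => bxc_ne (by omega) J

theorem bxm_bxc_eq_some {n : ℕ} {J : Iv} {x y : ℕ → ℝ} : bxm (bxc n J) x = some y ↔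
    J.Rel (x n) (y n) ∧ ∀ i, i ≠ n → x i = y i := by
  rw [bxm_eq_some]
  constructor
  · intro h
    refine ⟨by have := h n; rwa [bxc_self] at this, fun i hi => ?_⟩
    have := h i
    rwa [bxc_ne hi, Iv.rel_full] at this
  · rintro ⟨h1, h2⟩ i
    by_cases hi : i = n
    · subst hi; rwa [bxc_self]
    · rw [bxc_ne hi, Iv.rel_full]; exact h2 i hi

theorem continuous_bxc {T : Type} [TopologicalSpace T] (n : ℕ) {J : T → Iv} (hJ : Continuous J) :
    Continuous fun t => bxc n (J t) := by
  refine continuous_pi fun i => ?_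
  by_cases h : i = n
  · simp only [bxc, h, if_true]; exact hJ
  · simp only [bxc, h, if_false]; exact continuous_const

/-! ### Maps with labels -/

/-- families over `T` of partial maps of `ℝ^ℕ` with labels in `K` -/
abbrev Fn (K T : Type) : Type := T → (ℕ → ℝ) → Option (K × (ℕ → ℝ))

namespace Fn

variable {K L M : Type} {T T' : Type} {ι κ : Type}

/-- relabelling along a pointed map -/
def push (f : K → Option L) (g : Fn K T) : Fn L T :=
  fun t x => (g t x).bind fun p => (f p.1).map fun l => (l, p.2)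

theorem push_eq_some {f : K → Option L} {g : Fn K T} {t : T} {x : ℕ → ℝ} {l : L} {y : ℕ → ℝ} :
    push f g t x = some (l, y) ↔ ∃ k, g t x = some (k, y) ∧ f k = some l := by
  rw [push, Option.bind_eq_some_iff]
  constructor
  · rintro ⟨⟨k, y'⟩, h1, h2⟩
    obtain ⟨l', h3, h4⟩ := Option.map_eq_some_iff.1 h2
    cases h4
    exact ⟨k, h1, h3⟩
  · rintro ⟨k, h1, h2⟩
    exact ⟨(k, y), h1, Option.map_eq_some_iff.2 ⟨l, h2, rfl⟩⟩

/-- extensionality -/
theorem ext' {g h : Fn K T} (H : ∀ t x k y, g t x = some (k, y) ↔ h t x = some (k, y)) :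
    g = h := by
  funext t x
  exact Option.ext fun p => H t x p.1 p.2

@[simp] theorem push_some (g : Fn K T) : push some g = g :=
  ext' fun t x k y => by
    rw [push_eq_some]
    constructor
    · rintro ⟨k', h1, h2⟩
      cases h2
      exact h1
    · intro h
      exact ⟨k, h, rfl⟩

theorem push_push (f : K → Option L) (f' : L → Option M) (g : Fn K T) :
    push f' (push f g) = push (fun k => (f k).bind f') g :=
  ext' fun t x m y => by
    simp only [push_eq_some, Option.bind_eq_some_iff]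
    constructor
    · rintro ⟨l, ⟨k, h1, h2⟩, h3⟩
      exact ⟨k, h1, l, h2, h3⟩
    · rintro ⟨k, h1, l, h2, h3⟩
      exact ⟨l, ⟨k, h1, h2⟩, h3⟩

/-- composition with a partial map on the right -/
def pre (f : PM T) (g : Fn K T) : Fn K T := fun t x => (f t x).bind (g t)

theorem pre_eq_some {f : PM T} {g : Fn K T} {t : T} {x : ℕ → ℝ} {z : K × (ℕ → ℝ)} :
    pre f g t x = some z ↔ ∃ x', f t x = some x' ∧ g t x' = some z := Option.bind_eq_some_iff

/-- composition with partial maps depending on the label on the left -/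
def post (f : K → PM T) (g : Fn K T) : Fn K T :=
  fun t x => (g t x).bind fun p => (f p.1 t p.2).map fun y => (p.1, y)

theorem post_eq_some {f : K → PM T} {g : Fn K T} {t : T} {x : ℕ → ℝ} {k : K} {z : ℕ → ℝ} :
    post f g t x = some (k, z) ↔ ∃ y, g t x = some (k, y) ∧ f k t y = some z := by
  rw [post, Option.bind_eq_some_iff]
  constructor
  · rintro ⟨⟨k', y⟩, h1, h2⟩
    obtain ⟨z', h3, h4⟩ := Option.map_eq_some_iff.1 h2
    cases h4
    exact ⟨y, h1, h3⟩
  · rintro ⟨y, h1, h2⟩
    exact ⟨(k, y), h1, Option.map_eq_some_iff.2 ⟨z, h2, rfl⟩⟩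

/-- the union -/
noncomputable def uni (c : ι → Fn K T) : Fn K T := fun t x => jn {z | ∃ i, c i t x = some z}

/-- the maps have disjoint supports -/
def Dis (c : ι → Fn K T) : Prop := ∀ i j t x y z, c i t x = some y → c j t x = some z → i = j

theorem Dis.subsingleton {c : ι → Fn K T} (hc : Dis c) (t : T) (x : ℕ → ℝ) :
    {z | ∃ i, c i t x = some z}.Subsingleton := by
  rintro y ⟨i, hi⟩ z ⟨j, hj⟩
  obtain rfl := hc i j t x y z hi hj
  rw [hi] at hj
  exact Option.some.inj hj

theorem uni_eq_some {c : ι → Fn K T} (hc : Dis c) {t : T} {x : ℕ → ℝ} {z : K × (ℕ → ℝ)} :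
    uni c t x = some z ↔ ∃ i, c i t x = some z := jn_eq_some (hc.subsingleton t x)

/-- the part with label `k` -/
noncomputable def cmp (k : K) (g : Fn K T) : PM T :=
  open Classical in fun t x => (g t x).bind fun p => if p.1 = k then some p.2 else none

theorem cmp_eq_some {k : K} {g : Fn K T} {t : T} {x y : ℕ → ℝ} :
    cmp k g t x = some y ↔ g t x = some (k, y) := by
  classical
  rw [cmp, Option.bind_eq_some_iff]
  constructor
  · rintro ⟨⟨k', y'⟩, h1, h2⟩
    simp only [Option.ite_none_right_eq_some, Option.some.injEq] at h2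
    obtain ⟨rfl, rfl⟩ := h2
    exact h1
  · intro h
    exact ⟨(k, y), h, by simp⟩

/-- rescaling of the coordinate `n` of the source -/
noncomputable def src (n : ℕ) (J : T → Iv) (g : Fn K T) : Fn K T :=
  pre (fun t x => bxm (bxc n (J t)) x) g

/-- rescaling of the coordinate `n` of the target, depending on the label -/
noncomputable def tg (n : ℕ) (J : K → T → Iv) (g : Fn K T) : Fn K T :=
  post (fun k t y => bxm (bxc n (J k t)) y) g

/-- juxtaposition in the coordinate `0` -/
noncomputable def juxt (J : ι → T → Iv) (c : ι → Fn K T) : Fn K T := uni fun i => src 0 (J i) (c i)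

/-! #### Stages -/

variable [TopologicalSpace T] [TopologicalSpace T']

/-- the family is of stage `r` (for finite `K`) -/
def IsSt (r : ℕ) (g : Fn K T) : Prop := ∀ k, IsPM r (cmp k g)

theorem IsSt.mono {r s : ℕ} (h : r ≤ s) {g : Fn K T} (hg : IsSt r g) : IsSt s g :=
  fun k => (hg k).mono h

theorem IsSt.push [Finite K] {r : ℕ} {g : Fn K T} (hg : IsSt r g) (f : K → Option L) :
    IsSt r (g.push f) := by
  classical
  have := Fintype.ofFinite K
  intro l
  refine IsPM.of_iff (Finset.univ.filter fun k => f k = some l) (fun k => cmp k g)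
    (fun k _ => hg k) _ fun t x y => ?_
  rw [cmp_eq_some, push_eq_some]
  constructor
  · rintro ⟨k, h1, h2⟩
    exact ⟨k, by simpa using h2, cmp_eq_some.2 h1⟩
  · rintro ⟨k, h1, h2⟩
    exact ⟨k, cmp_eq_some.1 h2, by simpa using h1⟩

/-- change of parameters -/
def pull (g : Fn K T) (φ : C(T', T)) : Fn K T' := fun t => g (φ t)

theorem IsSt.pull {r : ℕ} {g : Fn K T} (hg : IsSt r g) (φ : C(T', T)) : IsSt r (g.pull φ) :=
  fun k => (hg k).pull φ

theorem IsSt.pre {r : ℕ} {f : PM T} {g : Fn K T} (hf : IsPM r f) (hg : IsSt r g) :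
    IsSt r (g.pre f) := by
  intro k
  have h : cmp k (g.pre f) = fun t x => (f t x).bind (cmp k g t) := by
    funext t x
    apply Option.ext
    intro y
    rw [cmp_eq_some, pre_eq_some, Option.bind_eq_some_iff]
    simp only [cmp_eq_some]
  rw [h]
  exact hf.comp (hg k)

theorem IsSt.post {r : ℕ} {f : K → PM T} {g : Fn K T} (hf : ∀ k, IsPM r (f k))
    (hg : IsSt r g) : IsSt r (g.post f) := by
  intro k
  have h : cmp k (g.post f) = fun t x => (cmp k g t x).bind (f k t) := by
    funext t x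
    apply Option.ext
    intro y
    rw [cmp_eq_some, post_eq_some, Option.bind_eq_some_iff]
    simp only [cmp_eq_some]
  rw [h]
  exact (hg k).comp (hf k)

theorem IsSt.uni [Finite ι] {r : ℕ} {c : ι → Fn K T} (hc : ∀ i, IsSt r (c i)) (hd : Dis c) :
    IsSt r (uni c) := by
  classical
  have := Fintype.ofFinite ι
  intro k
  refine IsPM.of_iff Finset.univ (fun i => cmp k (c i)) (fun i _ => hc i k) _ fun t x y => ?_
  rw [cmp_eq_some, uni_eq_some hd]
  simp only [Finset.mem_univ, true_and, cmp_eq_some]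

theorem IsSt.src {r n : ℕ} (h : n < r) (J : C(T, Iv)) {g : Fn K T} (hg : IsSt r g) :
    IsSt r (g.src n J) :=
  IsSt.pre (isPM_bxm ⟨fun t => bxc n (J t), continuous_bxc n J.continuous⟩
    fun _ => st_bxc h _) hg

theorem IsSt.tg {r n : ℕ} (h : n < r) (J : K → C(T, Iv)) {g : Fn K T} (hg : IsSt r g) :
    IsSt r (g.tg n fun k => J k) :=
  IsSt.post (fun k => isPM_bxm ⟨fun t => bxc n (J k t), continuous_bxc n (J k).continuous⟩
    fun _ => st_bxc h _) hg

/-- intervals which are pairwise disjoint at every point -/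
def DisJ (J : ι → T → Iv) : Prop := ∀ i j, i ≠ j → ∀ t, (J i t).Dj (J j t)

omit [TopologicalSpace T] in
theorem DisJ.dis {J : ι → T → Iv} (hJ : DisJ J) (n : ℕ) (c : ι → Fn K T) :
    Dis fun i => src n (J i) (c i) := by
  intro i j t x y z h1 h2
  by_contra hne
  obtain ⟨x1, h3, -⟩ := pre_eq_some.1 h1
  obtain ⟨x2, h4, -⟩ := pre_eq_some.1 h2
  exact (hJ i j hne t).not_rel (bxm_bxc_eq_some.1 h3).1 (bxm_bxc_eq_some.1 h4).1

theorem IsSt.juxt [Finite ι] {r : ℕ} (hr : 0 < r) (J : ι → C(T, Iv))
    (hJ : DisJ fun i t => J i t) {c : ι → Fn K T} (hc : ∀ i, IsSt r (c i)) :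
    IsSt r (juxt (fun i => J i) c) :=
  IsSt.uni (fun i => (hc i).src hr (J i)) (hJ.dis 0 c)

omit [TopologicalSpace T] [TopologicalSpace T'] in
theorem push_pull_aux (f : K → Option L) (g : Fn K T) (φ : T' → T) :
    (fun t => push f g (φ t)) = push f fun t => g (φ t) := rfl

theorem push_pull (f : K → Option L) (g : Fn K T) (φ : C(T', T)) :
    (push f g).pull φ = push f (g.pull φ) := rfl

/-- the empty map -/
def emp : Fn K T := fun _ _ => none

theorem isSt_emp (r : ℕ) : IsSt r (emp : Fn K T) := by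
  intro k
  have : cmp k (emp : Fn K T) = fun _ _ => none := by
    funext t x
    apply Option.ext
    intro y
    rw [cmp_eq_some]
    simp [emp]
  rw [this]
  exact isPM_none r

end Fn

/-! ### The simplicial set of stable families -/

open Vale.Agent.P263.S Vale.Agent.P263.E

/-- the simplicial set of all stages: the families over `Δ^p` of some stage -/
noncomputable def QInf (K : Type) : SS where
  obj p := {g : Fn K (Dl p) // ∃ r, Fn.IsSt r g}
  map θ g := ⟨g.1.pull (dmap θ), g.2.imp fun _ h => h.pull _⟩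
  map_id g := Subtype.ext (by rw [dmap_id]; rfl)
  map_comp f g x := Subtype.ext (by rw [dmap_comp]; rfl)

/-- relabelling -/
noncomputable def QInf.push {K L : Type} [Finite K] (f : K → Option L) :
    SS.Map (QInf K) (QInf L) where
  app g := ⟨g.1.push f, g.2.imp fun _ h => h.push f⟩
  nat _ _ := rfl

end Vale.Agent.P263.G2
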