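import Vale.Agent.P263.G2.BoxSegal
import Vale.Agent.P263.G2.QInf

/-!
# P263, block G2-7: rescaling and juxtaposition of configurations of boxes

* `Conf.resc r J S` : rescale the coordinate `r` of all boxes into `J` (outer rescaling).
* `Conf.tg r J S` : shrink the coordinate `r` of the boxes with label `l` by `J l`, inside the box.
* `Conf.iUn c h` : the union of a finite family of pairwise disjoint configurations.
* `Conf.juxt r J hJ c` : the union of the `c i`, rescaled into the pairwise disjoint intervals `J i`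
  in the coordinate `r`.
-/

open Topology

namespace Vale.Agent.P263.G2

namespace Iv

theorem dis_iff_dj {J I : Iv} : J.Dis I ↔ J.Dj I := Iff.rfl

theorem Dj.dis {J I : Iv} (h : J.Dj I) : J.Dis I := h

theorem Dis.dj {J I : Iv} (h : J.Dis I) : J.Dj I := h

theorem lo_le_comp_lo (J I : Iv) : J.lo ≤ (comp J I).lo := by
  rw [comp_lo]
  have := mul_nonneg (sub_nonneg.2 J.lo_lt_hi.le) I.lo_nonneg
  linarith

theorem comp_hi_le_hi (J I : Iv) : (comp J I).hi ≤ J.hi := by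
  rw [comp_hi]
  have h1 := J.lo_lt_hi
  have h2 := I.hi_le_one
  nlinarith

theorem Dis.symm {J I : Iv} (h : J.Dis I) : I.Dis J := Or.symm h

theorem Dis.comp_left (J : Iv) {I I' : Iv} (h : I.Dis I') : (comp J I).Dis (comp J I') := by
  have h1 := J.lo_lt_hi
  rcases h with h | h
  · left
    rw [comp_hi, comp_lo]
    nlinarith
  · right
    rw [comp_hi, comp_lo]
    nlinarith

theorem Dis.comp {J J' : Iv} (h : J.Dis J') (I I' : Iv) : (Iv.comp J I).Dis (Iv.comp J' I') := by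
  rcases h with h | h
  · exact Or.inl ((comp_hi_le_hi J I).trans (h.trans (lo_le_comp_lo J' I')))
  · exact Or.inr ((comp_hi_le_hi J' I').trans (h.trans (lo_le_comp_lo J I)))

theorem mix_comp (s : unitInterval) (J J' I : Iv) :
    comp (mix s J J') I = mix s (comp J I) (comp J' I) := by
  ext <;> simp only [comp_lo, comp_hi, mix_lo, mix_hi] <;> ring

theorem comp_mix (s : unitInterval) (J I I' : Iv) :
    comp J (mix s I I') = mix s (comp J I) (comp J I') := by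
  ext <;> simp only [comp_lo, comp_hi, mix_lo, mix_hi] <;> ring

/-- `J` lies to the left of `J'` -/
def Bf (J J' : Iv) : Prop := J.hi ≤ J'.lo

theorem Bf.dis {J J' : Iv} (h : J.Bf J') : J.Dis J' := Or.inl h

theorem Bf.dis' {J J' : Iv} (h : J.Bf J') : J'.Dis J := Or.inr h

theorem Bf.comp_left (J : Iv) {I I' : Iv} (h : I.Bf I') : (Iv.comp J I).Bf (Iv.comp J I') := by
  have h1 := J.lo_lt_hi
  unfold Bf at *
  rw [comp_hi, comp_lo]
  nlinarith

theorem Bf.comp {J J' : Iv} (h : J.Bf J') (I I' : Iv) : (Iv.comp J I).Bf (Iv.comp J' I') :=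
  (comp_hi_le_hi J I).trans (le_trans h (lo_le_comp_lo J' I'))

theorem Bf.mix {J J' I I' : Iv} (s : unitInterval) (h : J.Bf J') (h' : I.Bf I') :
    (Iv.mix s J I).Bf (Iv.mix s J' I') := by
  unfold Bf at *
  rw [mix_hi, mix_lo]
  have h0 := s.2.1
  have h1 := s.2.2
  nlinarith

theorem part_bf {n : ℕ} {i j : Fin n} (h : i < j) : (part n i).Bf (part n j) := part_hi_le_lo h

/-- the left half -/
noncomputable def left : Iv := part 2 0

/-- the right half -/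
noncomputable def right : Iv := part 2 1

theorem left_bf_right : left.Bf right := part_bf (by decide)

end Iv

open Bx

section

variable {T T' : Type} [TopologicalSpace T] [TopologicalSpace T'] {K L M : Type}

/-- composition of families of intervals -/
def compC (J I : C(T, Iv)) : C(T, Iv) :=
  ⟨fun t => (J t).comp (I t), Iv.continuous_comp.comp (J.continuous.prodMk I.continuous)⟩

@[simp] theorem compC_apply (J I : C(T, Iv)) (t : T) : compC J I t = (J t).comp (I t) := rfl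

theorem compC_comp (J I : C(T, Iv)) (f : C(T', T)) :
    (compC J I).comp f = compC (J.comp f) (I.comp f) := rfl

theorem compC_assoc (J I H : C(T, Iv)) : compC (compC J I) H = compC J (compC I H) := by
  ext1 t
  exact Iv.comp_assoc _ _ _

/-- the constant family with value the full interval -/
def fullC (T : Type) [TopologicalSpace T] : C(T, Iv) := ContinuousMap.const _ Iv.full

@[simp] theorem fullC_apply (t : T) : fullC T t = Iv.full := rfl

@[simp] theorem fullC_comp (f : C(T', T)) : (fullC T).comp f = fullC T' := rfl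

@[simp] theorem compC_full (J : C(T, Iv)) : compC J (fullC T) = J := by
  ext1 t
  exact Iv.comp_full _

@[simp] theorem full_compC (J : C(T, Iv)) : compC (fullC T) J = J := by
  ext1 t
  exact Iv.full_comp _

/-- the coordinate `r` of a family of boxes -/
def coordC (r : ℕ) (c : C(T, Bx)) : C(T, Iv) :=
  ⟨fun t => c t r, (continuous_apply r).comp c.continuous⟩

@[simp] theorem coordC_apply (r : ℕ) (c : C(T, Bx)) (t : T) : coordC r c t = c t r := rfl

theorem coordC_comp (r : ℕ) (c : C(T, Bx)) (f : C(T', T)) :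
    coordC r (c.comp f) = (coordC r c).comp f := rfl

@[simp] theorem coordC_updC (r : ℕ) (c : C(T, Bx)) (j : C(T, Iv)) : coordC r (updC r c j) = j := by
  ext1 t
  exact upd_self r _ _

theorem updC_updC (r : ℕ) (c : C(T, Bx)) (j j' : C(T, Iv)) : updC r (updC r c j) j' = updC r c j' := by
  ext1 t
  funext i
  show Bx.upd r (Bx.upd r (c t) (j t)) (j' t) i = Bx.upd r (c t) (j' t) i
  by_cases h : i = r
  · subst h; rw [upd_self, upd_self]
  · rw [upd_ne h, upd_ne h, upd_ne h]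

theorem updC_comm {r s : ℕ} (h : r ≠ s) (c : C(T, Bx)) (j j' : C(T, Iv)) :
    updC r (updC s c j) j' = updC s (updC r c j') j := by
  ext1 t
  funext i
  show Bx.upd r (Bx.upd s (c t) (j t)) (j' t) i = Bx.upd s (Bx.upd r (c t) (j' t)) (j t) i
  by_cases h1 : i = r
  · subst h1
    rw [upd_self, upd_ne h, upd_self]
  · by_cases h2 : i = s
    · subst h2
      rw [upd_ne h1, upd_self, upd_self]
    · rw [upd_ne h1, upd_ne h2, upd_ne h2, upd_ne h1]

theorem coordC_updC_ne {r s : ℕ} (h : r ≠ s) (c : C(T, Bx)) (j : C(T, Iv)) :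
    coordC r (updC s c j) = coordC r c := by
  ext1 t
  exact upd_ne h _ _

@[simp] theorem updC_coordC (r : ℕ) (c : C(T, Bx)) : updC r c (coordC r c) = c := by
  ext1 t
  funext i
  show Bx.upd r (c t) (c t r) i = c t i
  by_cases h : i = r
  · subst h; rw [upd_self]
  · rw [upd_ne h]

/-- outer rescaling of the coordinate `r` -/
def rescC (r : ℕ) (J : C(T, Iv)) (c : C(T, Bx)) : C(T, Bx) := updC r c (compC J (coordC r c))

/-- inner rescaling of the coordinate `r` -/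
def tgC (r : ℕ) (J : C(T, Iv)) (c : C(T, Bx)) : C(T, Bx) := updC r c (compC (coordC r c) J)

theorem rescC_apply (r : ℕ) (J : C(T, Iv)) (c : C(T, Bx)) (t : T) :
    rescC r J c t = upd r (c t) ((J t).comp (c t r)) := rfl

theorem tgC_apply (r : ℕ) (J : C(T, Iv)) (c : C(T, Bx)) (t : T) :
    tgC r J c t = upd r (c t) ((c t r).comp (J t)) := rfl

theorem rescC_comp (r : ℕ) (J : C(T, Iv)) (c : C(T, Bx)) (f : C(T', T)) :
    (rescC r J c).comp f = rescC r (J.comp f) (c.comp f) := rfl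

theorem tgC_comp (r : ℕ) (J : C(T, Iv)) (c : C(T, Bx)) (f : C(T', T)) :
    (tgC r J c).comp f = tgC r (J.comp f) (c.comp f) := rfl

@[simp] theorem rescC_full (r : ℕ) (c : C(T, Bx)) : rescC r (fullC T) c = c := by
  rw [rescC, full_compC, updC_coordC]

@[simp] theorem tgC_full (r : ℕ) (c : C(T, Bx)) : tgC r (fullC T) c = c := by
  rw [tgC, compC_full, updC_coordC]

theorem rescC_rescC (r : ℕ) (J I : C(T, Iv)) (c : C(T, Bx)) :
    rescC r J (rescC r I c) = rescC r (compC J I) c := by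
  rw [rescC, rescC, rescC, coordC_updC, updC_updC, compC_assoc]

theorem tgC_tgC (r : ℕ) (J I : C(T, Iv)) (c : C(T, Bx)) :
    tgC r J (tgC r I c) = tgC r (compC I J) c := by
  rw [tgC, tgC, tgC, coordC_updC, updC_updC, compC_assoc]

/-- inner and outer rescalings commute -/
theorem tgC_rescC (r s : ℕ) (J I : C(T, Iv)) (c : C(T, Bx)) :
    tgC r J (rescC s I c) = rescC s I (tgC r J c) := by
  by_cases h : r = s
  · subst h
    rw [tgC, rescC, rescC, tgC, coordC_updC, coordC_updC, updC_updC, updC_updC, compC_assoc]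
  · rw [tgC, rescC, rescC, tgC, coordC_updC_ne h, coordC_updC_ne (Ne.symm h), updC_comm h]

theorem tgC_tgC_comm {r s : ℕ} (h : r ≠ s) (J I : C(T, Iv)) (c : C(T, Bx)) :
    tgC r J (tgC s I c) = tgC s I (tgC r J c) := by
  rw [tgC, tgC, tgC, tgC, coordC_updC_ne h, coordC_updC_ne (Ne.symm h), updC_comm h]

theorem rescC_rescC_comm {r s : ℕ} (h : r ≠ s) (J I : C(T, Iv)) (c : C(T, Bx)) :
    rescC r J (rescC s I c) = rescC s I (rescC r J c) := by
  rw [rescC, rescC, rescC, rescC, coordC_updC_ne h, coordC_updC_ne (Ne.symm h), updC_comm h]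

end

namespace Bx

theorem Disj.resc {b c : Bx} (h : Disj b c) (r : ℕ) (J : Iv) :
    Disj (Bx.upd r b (J.comp (b r))) (Bx.upd r c (J.comp (c r))) := by
  obtain ⟨i, hi⟩ := h
  by_cases hr : i = r
  · subst hr
    refine ⟨i, ?_⟩
    rw [upd_self, upd_self]
    exact Iv.Dis.comp_left J hi
  · refine ⟨i, ?_⟩
    rwa [upd_ne hr, upd_ne hr]

theorem Disj.tg {b c : Bx} (h : Disj b c) (r : ℕ) (J J' : Iv) :
    Disj (Bx.upd r b ((b r).comp J)) (Bx.upd r c ((c r).comp J')) := by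
  obtain ⟨i, hi⟩ := h
  by_cases hr : i = r
  · subst hr
    refine ⟨i, ?_⟩
    rw [upd_self, upd_self]
    exact Iv.Dis.comp hi J J'
  · refine ⟨i, ?_⟩
    rwa [upd_ne hr, upd_ne hr]

theorem disj_resc_of_dis (r : ℕ) (b c : Bx) {J J' : Iv} (h : J.Dis J') :
    Disj (upd r b (J.comp (b r))) (upd r c (J'.comp (c r))) :=
  disj_upd r b c (h.comp _ _)

theorem St.upd' {s : ℕ} {b : Bx} (h : St s b) {r : ℕ} (hr : r < s) (j : Iv) : St s (Bx.upd r b j) := by
  intro i hi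
  rw [upd_ne (by omega)]
  exact h i hi

end Bx

section

variable {T T' : Type} [TopologicalSpace T] [TopologicalSpace T'] {K L M : Type}

namespace Conf

theorem ext_iff' {S S' : Conf K T} : S = S' ↔ ∀ x, x ∈ S.pts ↔ x ∈ S'.pts := by
  constructor
  · rintro rfl x
    exact Iff.rfl
  · intro h
    exact Conf.ext (Finset.ext h)

/-! ### outer rescaling -/

open Classical in
/-- rescale the coordinate `r` of all boxes into `J` -/
noncomputable def resc (r : ℕ) (J : C(T, Iv)) (S : Conf K T) : Conf K T where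
  pts := S.pts.image fun x => (rescC r J x.1, x.2)
  stage := by
    obtain ⟨s, hs⟩ := S.stage
    refine ⟨max s (r + 1), ?_⟩
    intro x hx t
    obtain ⟨y, hy, rfl⟩ := Finset.mem_image.1 hx
    exact ((hs y hy t).mono (le_max_left _ _)).upd' (lt_of_lt_of_le r.lt_succ_self
      (le_max_right _ _)) _
  disj := by
    intro x hx y hy hne t
    obtain ⟨x', hx', rfl⟩ := Finset.mem_image.1 hx
    obtain ⟨y', hy', rfl⟩ := Finset.mem_image.1 hy
    exact (S.disj x' hx' y' hy' (fun h => hne (by rw [h])) t).resc r _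

theorem mem_resc {r : ℕ} {J : C(T, Iv)} {S : Conf K T} {x : C(T, Bx) × K} :
    x ∈ (S.resc r J).pts ↔ ∃ c, (c, x.2) ∈ S.pts ∧ rescC r J c = x.1 := by
  classical
  show x ∈ S.pts.image _ ↔ _
  rw [Finset.mem_image]
  constructor
  · rintro ⟨y, hy, rfl⟩
    exact ⟨y.1, hy, rfl⟩
  · rintro ⟨c, hc, h⟩
    exact ⟨_, hc, Prod.ext h rfl⟩

theorem IsSt.resc {s : ℕ} {S : Conf K T} (hS : S.IsSt s) {r : ℕ} (hr : r < s) (J : C(T, Iv)) :
    (S.resc r J).IsSt s := by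
  intro x hx t
  obtain ⟨c, hc, h⟩ := mem_resc.1 hx
  rw [← h]
  exact (hS _ hc t).upd' hr _

theorem IsSt.resc_succ {r : ℕ} {S : Conf K T} (hS : S.IsSt r) (J : C(T, Iv)) :
    (S.resc r J).IsSt (r + 1) :=
  (hS.mono r.le_succ).resc r.lt_succ_self J

@[simp] theorem resc_full (r : ℕ) (S : Conf K T) : S.resc r (fullC T) = S := by
  rw [ext_iff']
  intro x
  rw [mem_resc]
  constructor
  · rintro ⟨c, hc, h⟩
    rw [rescC_full] at h
    subst h
    exact hc
  · intro hx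
    exact ⟨x.1, hx, rescC_full r _⟩

theorem resc_resc (r : ℕ) (J I : C(T, Iv)) (S : Conf K T) :
    (S.resc r I).resc r J = S.resc r (compC J I) := by
  rw [ext_iff']
  intro x
  simp only [mem_resc]
  constructor
  · rintro ⟨c, ⟨c', hc', rfl⟩, h⟩
    exact ⟨c', hc', by rw [← h, rescC_rescC]⟩
  · rintro ⟨c, hc, h⟩
    exact ⟨_, ⟨c, hc, rfl⟩, by rw [rescC_rescC, h]⟩

theorem resc_resc_comm {r s : ℕ} (h : r ≠ s) (J I : C(T, Iv)) (S : Conf K T) :
    (S.resc s I).resc r J = (S.resc r J).resc s I := by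
  rw [ext_iff']
  intro x
  simp only [mem_resc]
  constructor
  · rintro ⟨c, ⟨c', hc', rfl⟩, h'⟩
    exact ⟨_, ⟨c', hc', rfl⟩, by rw [← h', rescC_rescC_comm h]⟩
  · rintro ⟨c, ⟨c', hc', rfl⟩, h'⟩
    exact ⟨_, ⟨c', hc', rfl⟩, by rw [← h', rescC_rescC_comm h]⟩

theorem pull_resc (f : C(T', T)) (r : ℕ) (J : C(T, Iv)) (S : Conf K T) :
    (S.resc r J).pull f = (S.pull f).resc r (J.comp f) := by
  rw [ext_iff']
  intro x
  simp only [mem_resc, mem_pull]
  constructor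
  · rintro ⟨c, ⟨c', hc', rfl⟩, h⟩
    exact ⟨c'.comp f, ⟨c', hc', rfl⟩, h⟩
  · rintro ⟨_, ⟨c', hc', rfl⟩, h⟩
    exact ⟨_, ⟨c', hc', rfl⟩, h⟩

theorem map_resc (f : K → Option L) (r : ℕ) (J : C(T, Iv)) (S : Conf K T) :
    (S.resc r J).map f = (S.map f).resc r J := by
  rw [ext_iff']
  intro x
  simp only [mem_resc, mem_map]
  constructor
  · rintro ⟨k, ⟨c, hc, h⟩, hk⟩
    exact ⟨c, ⟨k, hc, hk⟩, h⟩
  · rintro ⟨c, ⟨k, hc, hk⟩, h⟩
    exact ⟨k, ⟨c, hc, h⟩, hk⟩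

@[simp] theorem resc_empty (r : ℕ) (J : C(T, Iv)) : (empty : Conf K T).resc r J = empty := by
  rw [ext_iff']
  intro x
  simp [mem_resc]

theorem rescC_injective_of (r : ℕ) (J : C(T, Iv)) : Function.Injective (rescC r J) := by
  intro c c' h
  ext1 t
  funext i
  have h1 : rescC r J c t i = rescC r J c' t i := by rw [h]
  rw [rescC_apply, rescC_apply] at h1
  by_cases hi : i = r
  · subst hi
    rw [upd_self, upd_self] at h1
    have h2 := (J t).lo_lt_hi
    have hlo : ((J t).comp (c t i)).lo = ((J t).comp (c' t i)).lo := by rw [h1]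
    have hhi : ((J t).comp (c t i)).hi = ((J t).comp (c' t i)).hi := by rw [h1]
    rw [Iv.comp_lo, Iv.comp_lo] at hlo
    rw [Iv.comp_hi, Iv.comp_hi] at hhi
    have h3 : (J t).hi - (J t).lo ≠ 0 := by linarith
    exact Iv.ext (mul_left_cancel₀ h3 (by linarith)) (mul_left_cancel₀ h3 (by linarith))
  · rwa [upd_ne hi, upd_ne hi] at h1

@[simp] theorem card_resc (r : ℕ) (J : C(T, Iv)) (S : Conf K T) :
    (S.resc r J).pts.card = S.pts.card := by
  classical
  refine Finset.card_image_of_injective _ ?_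
  intro x y h
  rw [Prod.mk.injEq] at h
  exact Prod.ext (rescC_injective_of r J h.1) h.2

/-! ### inner rescaling -/

open Classical in
/-- shrink the coordinate `r` of the boxes with label `l` by `J l`, inside the box -/
noncomputable def tg (r : ℕ) (J : K → C(T, Iv)) (S : Conf K T) : Conf K T where
  pts := S.pts.image fun x => (tgC r (J x.2) x.1, x.2)
  stage := by
    obtain ⟨s, hs⟩ := S.stage
    refine ⟨max s (r + 1), ?_⟩
    intro x hx t
    obtain ⟨y, hy, rfl⟩ := Finset.mem_image.1 hx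
    exact ((hs y hy t).mono (le_max_left _ _)).upd' (lt_of_lt_of_le r.lt_succ_self
      (le_max_right _ _)) _
  disj := by
    intro x hx y hy hne t
    obtain ⟨x', hx', rfl⟩ := Finset.mem_image.1 hx
    obtain ⟨y', hy', rfl⟩ := Finset.mem_image.1 hy
    exact (S.disj x' hx' y' hy' (fun h => hne (by rw [h])) t).tg r _ _

theorem mem_tg {r : ℕ} {J : K → C(T, Iv)} {S : Conf K T} {x : C(T, Bx) × K} :
    x ∈ (S.tg r J).pts ↔ ∃ c, (c, x.2) ∈ S.pts ∧ tgC r (J x.2) c = x.1 := by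
  classical
  show x ∈ S.pts.image _ ↔ _
  rw [Finset.mem_image]
  constructor
  · rintro ⟨y, hy, rfl⟩
    exact ⟨y.1, hy, rfl⟩
  · rintro ⟨c, hc, h⟩
    exact ⟨_, hc, Prod.ext h rfl⟩

theorem IsSt.tg {s : ℕ} {S : Conf K T} (hS : S.IsSt s) {r : ℕ} (hr : r < s) (J : K → C(T, Iv)) :
    (S.tg r J).IsSt s := by
  intro x hx t
  obtain ⟨c, hc, h⟩ := mem_tg.1 hx
  rw [← h]
  exact (hS _ hc t).upd' hr _

theorem IsSt.tg_succ {r : ℕ} {S : Conf K T} (hS : S.IsSt r) (J : K → C(T, Iv)) :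
    (S.tg r J).IsSt (r + 1) :=
  (hS.mono r.le_succ).tg r.lt_succ_self J

/-- on configurations of stage `r` the inner rescaling of the coordinate `r` is `upd` -/
theorem tg_eq_upd {r : ℕ} {S : Conf K T} (hS : S.IsSt r) (J : K → C(T, Iv)) :
    S.tg r J = S.upd r J hS := by
  rw [ext_iff']
  intro x
  rw [mem_tg, mem_upd]
  have key : ∀ (c : C(T, Bx)) (k : K), (c, k) ∈ S.pts → tgC r (J k) c = updC r c (J k) := by
    intro c k hc
    have : coordC r c = fullC T := by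
      ext1 t
      exact hS _ hc t r le_rfl
    rw [tgC, this, full_compC]
  constructor
  · rintro ⟨c, hc, h⟩
    exact ⟨_, hc, Prod.ext (by rw [← h, key c _ hc]) rfl⟩
  · rintro ⟨y, hy, rfl⟩
    exact ⟨y.1, hy, key y.1 _ hy⟩

theorem resc_eq_upd {r : ℕ} {S : Conf K T} (hS : S.IsSt r) (J : C(T, Iv)) :
    S.resc r J = S.upd r (fun _ => J) hS := by
  rw [ext_iff']
  intro x
  rw [mem_resc, mem_upd]
  have key : ∀ (c : C(T, Bx)) (k : K), (c, k) ∈ S.pts → rescC r J c = updC r c J := by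
    intro c k hc
    have : coordC r c = fullC T := by
      ext1 t
      exact hS _ hc t r le_rfl
    rw [rescC, this, compC_full]
  constructor
  · rintro ⟨c, hc, h⟩
    exact ⟨_, hc, Prod.ext (by rw [← h, key c _ hc]) rfl⟩
  · rintro ⟨y, hy, rfl⟩
    exact ⟨y.1, hy, key y.1 _ hy⟩

@[simp] theorem tg_full (r : ℕ) (S : Conf K T) : S.tg r (fun _ => fullC T) = S := by
  rw [ext_iff']
  intro x
  rw [mem_tg]
  constructor
  · rintro ⟨c, hc, h⟩
    rw [tgC_full] at h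
    subst h
    exact hc
  · intro hx
    exact ⟨x.1, hx, tgC_full r _⟩

theorem tg_tg (r : ℕ) (J I : K → C(T, Iv)) (S : Conf K T) :
    (S.tg r I).tg r J = S.tg r (fun k => compC (I k) (J k)) := by
  rw [ext_iff']
  intro x
  simp only [mem_tg]
  constructor
  · rintro ⟨c, ⟨c', hc', rfl⟩, h⟩
    exact ⟨c', hc', by rw [← h, tgC_tgC]⟩
  · rintro ⟨c, hc, h⟩
    exact ⟨_, ⟨c, hc, rfl⟩, by rw [tgC_tgC, h]⟩

theorem tg_tg_comm {r s : ℕ} (h : r ≠ s) (J I : K → C(T, Iv)) (S : Conf K T) :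
    (S.tg s I).tg r J = (S.tg r J).tg s I := by
  rw [ext_iff']
  intro x
  simp only [mem_tg]
  constructor
  · rintro ⟨c, ⟨c', hc', rfl⟩, h'⟩
    exact ⟨_, ⟨c', hc', rfl⟩, by rw [← h', tgC_tgC_comm h]⟩
  · rintro ⟨c, ⟨c', hc', rfl⟩, h'⟩
    exact ⟨_, ⟨c', hc', rfl⟩, by rw [← h', tgC_tgC_comm h]⟩

theorem tg_resc (r s : ℕ) (J : K → C(T, Iv)) (I : C(T, Iv)) (S : Conf K T) :
    (S.resc s I).tg r J = (S.tg r J).resc s I := by
  rw [ext_iff']
  intro x
  simp only [mem_tg, mem_resc]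
  constructor
  · rintro ⟨c, ⟨c', hc', rfl⟩, h'⟩
    exact ⟨_, ⟨c', hc', rfl⟩, by rw [← h', tgC_rescC]⟩
  · rintro ⟨c, ⟨c', hc', rfl⟩, h'⟩
    exact ⟨_, ⟨c', hc', rfl⟩, by rw [← h', tgC_rescC]⟩

theorem pull_tg (f : C(T', T)) (r : ℕ) (J : K → C(T, Iv)) (S : Conf K T) :
    (S.tg r J).pull f = (S.pull f).tg r (fun k => (J k).comp f) := by
  rw [ext_iff']
  intro x
  simp only [mem_tg, mem_pull]
  constructor
  · rintro ⟨c, ⟨c', hc', rfl⟩, h⟩
    exact ⟨c'.comp f, ⟨c', hc', rfl⟩, h⟩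
  · rintro ⟨_, ⟨c', hc', rfl⟩, h⟩
    exact ⟨_, ⟨c', hc', rfl⟩, h⟩

theorem map_tg {f : K → Option L} (r : ℕ) {J : L → C(T, Iv)} {J' : K → C(T, Iv)}
    (h : ∀ k l, f k = some l → J' k = J l) (S : Conf K T) :
    (S.tg r J').map f = (S.map f).tg r J := by
  rw [ext_iff']
  intro x
  simp only [mem_tg, mem_map]
  constructor
  · rintro ⟨k, ⟨c, hc, h'⟩, hk⟩
    exact ⟨c, ⟨k, hc, hk⟩, by rw [← h', h k _ hk]⟩
  · rintro ⟨c, ⟨k, hc, hk⟩, h'⟩
    exact ⟨k, ⟨c, hc, by rw [← h', h k _ hk]⟩, hk⟩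

@[simp] theorem tg_empty (r : ℕ) (J : K → C(T, Iv)) : (empty : Conf K T).tg r J = empty := by
  rw [ext_iff']
  intro x
  simp [mem_tg]

/-! ### unions -/

variable {ι κ : Type}

open Classical in
/-- the union of a finite family of pairwise disjoint configurations -/
noncomputable def iUn [Fintype ι] (c : ι → Conf K T)
    (h : ∀ i j, i ≠ j → ∀ x ∈ (c i).pts, ∀ y ∈ (c j).pts, ∀ t, Disj (x.1 t) (y.1 t)) :
    Conf K T where
  pts := Finset.univ.biUnion fun i => (c i).pts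
  stage := by
    choose s hs using fun i => (c i).stage
    refine ⟨Finset.univ.sup s, ?_⟩
    intro x hx t
    obtain ⟨i, hi, hx⟩ := Finset.mem_biUnion.1 hx
    exact (hs i x hx t).mono (Finset.le_sup hi)
  disj := by
    intro x hx y hy hne t
    obtain ⟨i, -, hx⟩ := Finset.mem_biUnion.1 hx
    obtain ⟨j, -, hy⟩ := Finset.mem_biUnion.1 hy
    by_cases hij : i = j
    · subst hij
      exact (c i).disj x hx y hy hne t
    · exact h i j hij x hx y hy t

theorem mem_iUn [Fintype ι] {c : ι → Conf K T}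
    {h : ∀ i j, i ≠ j → ∀ x ∈ (c i).pts, ∀ y ∈ (c j).pts, ∀ t, Disj (x.1 t) (y.1 t)}
    {x : C(T, Bx) × K} : x ∈ (iUn c h).pts ↔ ∃ i, x ∈ (c i).pts := by
  classical
  show x ∈ Finset.univ.biUnion _ ↔ _
  simp only [Finset.mem_biUnion, Finset.mem_univ, true_and]

theorem isSt_iUn [Fintype ι] {c : ι → Conf K T}
    {h : ∀ i j, i ≠ j → ∀ x ∈ (c i).pts, ∀ y ∈ (c j).pts, ∀ t, Disj (x.1 t) (y.1 t)} {r : ℕ} :
    (iUn c h).IsSt r ↔ ∀ i, (c i).IsSt r := by
  constructor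
  · intro hr i x hx t
    exact hr x (mem_iUn.2 ⟨i, hx⟩) t
  · intro hr x hx t
    obtain ⟨i, hi⟩ := mem_iUn.1 hx
    exact hr i x hi t

theorem pull_iUn [Fintype ι] (f : C(T', T)) {c : ι → Conf K T}
    (h : ∀ i j, i ≠ j → ∀ x ∈ (c i).pts, ∀ y ∈ (c j).pts, ∀ t, Disj (x.1 t) (y.1 t))
    (h' : ∀ i j, i ≠ j → ∀ x ∈ ((c i).pull f).pts, ∀ y ∈ ((c j).pull f).pts, ∀ t,
      Disj (x.1 t) (y.1 t)) :
    (iUn c h).pull f = iUn (fun i => (c i).pull f) h' := by
  rw [ext_iff']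
  intro x
  simp only [mem_iUn, mem_pull]
  constructor
  · rintro ⟨b, ⟨i, hi⟩, hb⟩
    exact ⟨i, b, hi, hb⟩
  · rintro ⟨i, b, hi, hb⟩
    exact ⟨b, ⟨i, hi⟩, hb⟩

theorem map_iUn [Fintype ι] (f : K → Option L) {c : ι → Conf K T}
    (h : ∀ i j, i ≠ j → ∀ x ∈ (c i).pts, ∀ y ∈ (c j).pts, ∀ t, Disj (x.1 t) (y.1 t))
    (h' : ∀ i j, i ≠ j → ∀ x ∈ ((c i).map f).pts, ∀ y ∈ ((c j).map f).pts, ∀ t,
      Disj (x.1 t) (y.1 t)) :
    (iUn c h).map f = iUn (fun i => (c i).map f) h' := by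
  rw [ext_iff']
  intro x
  simp only [mem_iUn, mem_map]
  constructor
  · rintro ⟨k, ⟨i, hi⟩, hb⟩
    exact ⟨i, k, hi, hb⟩
  · rintro ⟨i, k, hi, hb⟩
    exact ⟨k, ⟨i, hi⟩, hb⟩

theorem card_iUn [Fintype ι] [Nonempty T] {c : ι → Conf K T}
    (h : ∀ i j, i ≠ j → ∀ x ∈ (c i).pts, ∀ y ∈ (c j).pts, ∀ t, Disj (x.1 t) (y.1 t)) :
    (iUn c h).pts.card = ∑ i, (c i).pts.card := by
  classical
  refine Finset.card_biUnion ?_
  intro i _ j _ hij
  show Disjoint (c i).pts (c j).pts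
  rw [Finset.disjoint_left]
  intro x hx hy
  obtain ⟨t⟩ := ‹Nonempty T›
  exact (h i j hij x hx x hy t).ne rfl

/-! ### juxtaposition -/

theorem disJ_iff {J : ι → C(T, Iv)} :
    Fn.DisJ (fun i t => J i t) ↔ ∀ i j, i ≠ j → ∀ t, (J i t).Dis (J j t) := Iff.rfl

/-- the union of the `c i`, rescaled in the coordinate `r` into the pairwise disjoint intervals
`J i` -/
noncomputable def juxt [Fintype ι] (r : ℕ) (J : ι → C(T, Iv))
    (hJ : ∀ i j, i ≠ j → ∀ t, (J i t).Dis (J j t)) (c : ι → Conf K T) : Conf K T :=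
  iUn (fun i => (c i).resc r (J i)) (by
    intro i j hij x hx y hy t
    obtain ⟨b, -, h1⟩ := mem_resc.1 hx
    obtain ⟨b', -, h2⟩ := mem_resc.1 hy
    rw [← h1, ← h2]
    exact disj_resc_of_dis r _ _ (hJ i j hij t))

theorem mem_juxt [Fintype ι] {r : ℕ} {J : ι → C(T, Iv)}
    {hJ : ∀ i j, i ≠ j → ∀ t, (J i t).Dis (J j t)} {c : ι → Conf K T} {x : C(T, Bx) × K} :
    x ∈ (juxt r J hJ c).pts ↔ ∃ i b, (b, x.2) ∈ (c i).pts ∧ rescC r (J i) b = x.1 := by
  rw [juxt, mem_iUn]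
  simp only [mem_resc]

theorem isSt_juxt [Fintype ι] {r s : ℕ} (hr : r < s) {J : ι → C(T, Iv)}
    {hJ : ∀ i j, i ≠ j → ∀ t, (J i t).Dis (J j t)} {c : ι → Conf K T} (hc : ∀ i, (c i).IsSt s) :
    (juxt r J hJ c).IsSt s :=
  isSt_iUn.2 fun i => (hc i).resc hr _

theorem isSt_juxt_succ [Fintype ι] {r : ℕ} {J : ι → C(T, Iv)}
    {hJ : ∀ i j, i ≠ j → ∀ t, (J i t).Dis (J j t)} {c : ι → Conf K T} (hc : ∀ i, (c i).IsSt r) :
    (juxt r J hJ c).IsSt (r + 1) :=
  isSt_iUn.2 fun i => (hc i).resc_succ _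

theorem pull_juxt [Fintype ι] (f : C(T', T)) {r : ℕ} {J : ι → C(T, Iv)}
    (hJ : ∀ i j, i ≠ j → ∀ t, (J i t).Dis (J j t)) (c : ι → Conf K T) :
    (juxt r J hJ c).pull f =
      juxt r (fun i => (J i).comp f) (fun i j h t => hJ i j h (f t)) (fun i => (c i).pull f) := by
  rw [ext_iff']
  intro x
  simp only [mem_juxt, mem_pull]
  constructor
  · rintro ⟨_, ⟨i, b, hb, rfl⟩, h2⟩
    exact ⟨i, b.comp f, ⟨b, hb, rfl⟩, h2⟩
  · rintro ⟨i, _, ⟨b, hb, rfl⟩, h⟩
    exact ⟨_, ⟨i, b, hb, rfl⟩, h⟩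

theorem map_juxt [Fintype ι] (f : K → Option L) {r : ℕ} {J : ι → C(T, Iv)}
    (hJ : ∀ i j, i ≠ j → ∀ t, (J i t).Dis (J j t)) (c : ι → Conf K T) :
    (juxt r J hJ c).map f = juxt r J hJ (fun i => (c i).map f) := by
  rw [ext_iff']
  intro x
  simp only [mem_juxt, mem_map]
  constructor
  · rintro ⟨k, ⟨i, b, hb, h⟩, hk⟩
    exact ⟨i, b, ⟨k, hb, hk⟩, h⟩
  · rintro ⟨i, b, ⟨k, hb, hk⟩, h⟩
    exact ⟨k, ⟨i, b, hb, h⟩, hk⟩

theorem tg_juxt [Fintype ι] {r : ℕ} {J : ι → C(T, Iv)}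
    (hJ : ∀ i j, i ≠ j → ∀ t, (J i t).Dis (J j t)) (c : ι → Conf K T) (s : ℕ)
    (I : K → C(T, Iv)) :
    (juxt r J hJ c).tg s I = juxt r J hJ (fun i => (c i).tg s I) := by
  rw [ext_iff']
  intro x
  simp only [mem_juxt, mem_tg]
  constructor
  · rintro ⟨_, ⟨i, b, hb, rfl⟩, h2⟩
    exact ⟨i, _, ⟨b, hb, rfl⟩, by rw [← h2, tgC_rescC]⟩
  · rintro ⟨i, _, ⟨b, hb, rfl⟩, h⟩
    exact ⟨_, ⟨i, b, hb, rfl⟩, by rw [← h, tgC_rescC]⟩

theorem compC_dis {J : ι → C(T, Iv)} (hJ : ∀ i j, i ≠ j → ∀ t, (J i t).Dis (J j t))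
    (I : C(T, Iv)) : ∀ i j, i ≠ j → ∀ t, (compC I (J i) t).Dis (compC I (J j) t) :=
  fun i j h t => (hJ i j h t).comp_left _

theorem resc_juxt [Fintype ι] {r : ℕ} {J : ι → C(T, Iv)}
    (hJ : ∀ i j, i ≠ j → ∀ t, (J i t).Dis (J j t)) (c : ι → Conf K T) (I : C(T, Iv)) :
    (juxt r J hJ c).resc r I =
      juxt r (fun i => compC I (J i)) (compC_dis hJ I) c := by
  rw [ext_iff']
  intro x
  simp only [mem_juxt, mem_resc]
  constructor
  · rintro ⟨_, ⟨i, b, hb, rfl⟩, h2⟩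
    exact ⟨i, b, hb, by rw [← h2, rescC_rescC]⟩
  · rintro ⟨i, b, hb, h⟩
    exact ⟨_, ⟨i, b, hb, rfl⟩, by rw [← h, rescC_rescC]⟩

theorem resc_juxt_ne [Fintype ι] {r s : ℕ} (hsr : s ≠ r) {J : ι → C(T, Iv)}
    (hJ : ∀ i j, i ≠ j → ∀ t, (J i t).Dis (J j t)) (c : ι → Conf K T) (I : C(T, Iv)) :
    (juxt r J hJ c).resc s I = juxt r J hJ (fun i => (c i).resc s I) := by
  rw [ext_iff']
  intro x
  simp only [mem_juxt, mem_resc]
  constructor
  · rintro ⟨_, ⟨i, b, hb, rfl⟩, h2⟩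
    exact ⟨i, _, ⟨b, hb, rfl⟩, by rw [← h2, rescC_rescC_comm hsr]⟩
  · rintro ⟨i, _, ⟨b, hb, rfl⟩, h⟩
    exact ⟨_, ⟨i, b, hb, rfl⟩, by rw [← h, rescC_rescC_comm hsr]⟩

theorem disj_sigma [DecidableEq ι] {κ : ι → Type} {J : ι → C(T, Iv)}
    (hJ : ∀ i j, i ≠ j → ∀ t, (J i t).Dis (J j t)) {I : ∀ i, κ i → C(T, Iv)}
    (hI : ∀ i a b, a ≠ b → ∀ t, (I i a t).Dis (I i b t)) (x y : Σ i, κ i) (hxy : x ≠ y) (t : T) :
    (compC (J x.1) (I x.1 x.2) t).Dis (compC (J y.1) (I y.1 y.2) t) := by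
  obtain ⟨i, a⟩ := x
  obtain ⟨j, b⟩ := y
  by_cases h : i = j
  · subst h
    exact (hI i a b (fun h => hxy (by rw [h])) t).comp_left _
  · exact (hJ i j h t).comp _ _

/-- a juxtaposition of juxtapositions is a juxtaposition -/
theorem juxt_juxt [Fintype ι] [DecidableEq ι] {κ : ι → Type} [∀ i, Fintype (κ i)] {r : ℕ}
    {J : ι → C(T, Iv)} (hJ : ∀ i j, i ≠ j → ∀ t, (J i t).Dis (J j t)) {I : ∀ i, κ i → C(T, Iv)}
    (hI : ∀ i a b, a ≠ b → ∀ t, (I i a t).Dis (I i b t)) (c : ∀ i, κ i → Conf K T) :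
    juxt r J hJ (fun i => juxt r (I i) (hI i) (c i)) =
      juxt r (fun x : Σ i, κ i => compC (J x.1) (I x.1 x.2)) (disj_sigma hJ hI)
        (fun x => c x.1 x.2) := by
  rw [ext_iff']
  intro x
  simp only [mem_juxt]
  constructor
  · rintro ⟨i, _, ⟨a, b, hb, rfl⟩, h2⟩
    exact ⟨⟨i, a⟩, b, hb, by rw [← h2, rescC_rescC]⟩
  · rintro ⟨⟨i, a⟩, b, hb, h⟩
    exact ⟨i, _, ⟨a, b, hb, rfl⟩, by rw [← h, rescC_rescC]⟩

/-- empty members can be dropped -/
theorem juxt_sub [Fintype ι] [Fintype κ] {r : ℕ} {J : ι → C(T, Iv)}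
    (hJ : ∀ i j, i ≠ j → ∀ t, (J i t).Dis (J j t)) (c : ι → Conf K T) (e : κ ↪ ι)
    (he : ∀ i, (∀ a, e a ≠ i) → c i = empty) :
    juxt r J hJ c = juxt r (fun a => J (e a)) (fun _ _ h => hJ _ _ fun h' => h (e.injective h'))
      (fun a => c (e a)) := by
  rw [ext_iff']
  intro x
  simp only [mem_juxt]
  constructor
  · rintro ⟨i, b, hb, h⟩
    by_cases hi : ∃ a, e a = i
    · obtain ⟨a, rfl⟩ := hi
      exact ⟨a, b, hb, h⟩
    · push Not at hi
      rw [he i hi] at hb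
      simp at hb
  · rintro ⟨a, b, hb, h⟩
    exact ⟨e a, b, hb, h⟩

theorem juxt_reindex [Fintype ι] [Fintype κ] {r : ℕ} {J : ι → C(T, Iv)}
    (hJ : ∀ i j, i ≠ j → ∀ t, (J i t).Dis (J j t)) (c : ι → Conf K T) (e : κ ≃ ι) :
    juxt r (fun a => J (e a)) (fun _ _ h => hJ _ _ fun h' => h (e.injective h'))
      (fun a => c (e a)) = juxt r J hJ c :=
  (juxt_sub hJ c e.toEmbedding fun i hi => absurd (e.apply_symm_apply i) (hi _)).symm

theorem juxt_unique [Fintype ι] [Unique ι] {r : ℕ} {J : ι → C(T, Iv)}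
    (hJ : ∀ i j, i ≠ j → ∀ t, (J i t).Dis (J j t)) (c : ι → Conf K T) :
    juxt r J hJ c = (c default).resc r (J default) := by
  rw [ext_iff']
  intro x
  simp only [mem_juxt, mem_resc, Unique.exists_iff]

theorem juxt_congr [Fintype ι] {r : ℕ} {J J' : ι → C(T, Iv)}
    {hJ : ∀ i j, i ≠ j → ∀ t, (J i t).Dis (J j t)} {hJ' : ∀ i j, i ≠ j → ∀ t, (J' i t).Dis (J' j t)}
    {c c' : ι → Conf K T} (h : ∀ i, J i = J' i) (h' : ∀ i, c i = c' i) :
    juxt r J hJ c = juxt r J' hJ' c' := by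
  obtain rfl := funext h
  obtain rfl := funext h'
  rfl

theorem card_juxt [Fintype ι] [Nonempty T] {r : ℕ} {J : ι → C(T, Iv)}
    (hJ : ∀ i j, i ≠ j → ∀ t, (J i t).Dis (J j t)) (c : ι → Conf K T) :
    (juxt r J hJ c).pts.card = ∑ i, (c i).pts.card := by
  rw [juxt, card_iUn]
  simp only [card_resc]

@[simp] theorem juxt_empty [Fintype ι] {r : ℕ} {J : ι → C(T, Iv)}
    (hJ : ∀ i j, i ≠ j → ∀ t, (J i t).Dis (J j t)) :
    juxt r J hJ (fun _ => (empty : Conf K T)) = empty := by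
  rw [ext_iff']
  intro x
  simp [mem_juxt]

end Conf

end

end Vale.Agent.P263.G2
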