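import Vale.Agent.P263.G2.QMul
import Vale.Agent.P263.G2.AlFn
import Vale.Agent.P263.G2.ConfJuxt

/-!
# P263, block G2: the collapse of boxes in terms of `Fn`

`collN_eq_bxm`, `al_eq_some_iff`, `al_push`, `al_pull_eq`, `isSt_al`.
-/

open Topology Vale.Agent.P251.G Vale.Agent.P263.TOP
open scoped OnePoint

namespace Vale.Agent.P263.G2

theorem collN_eq_bxm (b : Bx) (x : ℕ → ℝ) : collN b x = bxm b x := by
  refine option_ext fun y => ?_
  rw [bxm_eq_some, collN, tupO_eq_some]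
  exact forall_congr' fun i => Iv.rho_eq_coe

section

variable {K L : Type} {T T' : Type} [TopologicalSpace T] [TopologicalSpace T']

theorem al_eq_some_iff {S : Conf K T} {t : T} {x : ℕ → ℝ} {k : K} {y : ℕ → ℝ} :
    al S t x = some (k, y) ↔ ∃ c : C(T, Bx), (c, k) ∈ S.pts ∧ bxm (c t) x = some y := by
  rw [al_eq_some]
  simp only [collN_eq_bxm]

theorem al_push (S : Conf K T) (f : K → Option L) : al (S.map f) = Fn.push f (al S) := by
  funext t x
  exact al_map S f t x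

theorem al_pull_eq (S : Conf K T) (g : C(T', T)) : al (S.pull g) = Fn.pull (al S) g := by
  funext t x
  exact al_pull S g t x

theorem isSt_al {r : ℕ} {S : Conf K T} (hS : S.IsSt r) : Fn.IsSt r (al S) := by
  classical
  intro k
  refine IsPM.of_iff (S.pts.filter fun p => p.2 = k) (fun p t x => bxm (p.1 t) x)
    (fun p hp => isPM_bxm p.1 fun t => hS p (Finset.mem_filter.1 hp).1 t) _ fun t x y => ?_
  rw [Fn.cmp_eq_some, al_eq_some_iff]
  constructor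
  · rintro ⟨c, hc, h⟩
    exact ⟨(c, k), Finset.mem_filter.2 ⟨hc, rfl⟩, h⟩
  · rintro ⟨⟨c, l⟩, hp, h⟩
    obtain ⟨h1, rfl⟩ := Finset.mem_filter.1 hp
    exact ⟨c, h1, h⟩

theorem al_empty : al (Conf.empty : Conf K T) = Fn.emp := by
  refine Fn.ext' fun t x k y => ?_
  rw [al_eq_some_iff]
  simp [Fn.emp]

theorem comp_bxc_left (n : ℕ) (J : Iv) (b : Bx) :
    (fun i => Iv.comp (bxc n J i) (b i)) = Bx.upd n b (J.comp (b n)) := by
  funext i
  by_cases h : i = n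
  · subst h
    rw [bxc_self, Bx.upd_self]
  · rw [bxc_ne h, Bx.upd_ne h, Iv.full_comp]

theorem comp_bxc_right (n : ℕ) (J : Iv) (b : Bx) :
    (fun i => Iv.comp (b i) (bxc n J i)) = Bx.upd n b ((b n).comp J) := by
  funext i
  by_cases h : i = n
  · subst h
    rw [bxc_self, Bx.upd_self]
  · rw [bxc_ne h, Bx.upd_ne h, Iv.comp_full]

theorem bxm_rescC {n : ℕ} {J : C(T, Iv)} {c : C(T, Bx)} {t : T} {x y : ℕ → ℝ} :
    bxm (rescC n J c t) x = some y ↔
      ∃ x', bxm (bxc n (J t)) x = some x' ∧ bxm (c t) x' = some y := by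
  rw [← Option.bind_eq_some_iff, bxm_bxm, comp_bxc_left, rescC_apply]

theorem bxm_tgC {n : ℕ} {J : C(T, Iv)} {c : C(T, Bx)} {t : T} {x y : ℕ → ℝ} :
    bxm (tgC n J c t) x = some y ↔
      ∃ x', bxm (c t) x = some x' ∧ bxm (bxc n (J t)) x' = some y := by
  rw [← Option.bind_eq_some_iff, bxm_bxm, comp_bxc_right, tgC_apply]

theorem al_resc (n : ℕ) (J : C(T, Iv)) (S : Conf K T) :
    al (S.resc n J) = Fn.src n (fun t => J t) (al S) := by
  refine Fn.ext' fun t x k y => ?_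
  simp only [al_eq_some_iff, Fn.src, Fn.pre_eq_some, Conf.mem_resc]
  constructor
  · rintro ⟨_, ⟨c, hc, rfl⟩, h⟩
    obtain ⟨x', h1, h2⟩ := bxm_rescC.1 h
    exact ⟨x', h1, c, hc, h2⟩
  · rintro ⟨x', h1, c, hc, h2⟩
    exact ⟨_, ⟨c, hc, rfl⟩, bxm_rescC.2 ⟨x', h1, h2⟩⟩

theorem al_tg (n : ℕ) (J : K → C(T, Iv)) (S : Conf K T) :
    al (S.tg n J) = Fn.tg n (fun k t => J k t) (al S) := by
  refine Fn.ext' fun t x k y => ?_
  simp only [al_eq_some_iff, Fn.tg, Fn.post_eq_some, Conf.mem_tg]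
  constructor
  · rintro ⟨_, ⟨c, hc, rfl⟩, h⟩
    obtain ⟨x', h1, h2⟩ := bxm_tgC.1 h
    exact ⟨x', ⟨c, hc, h1⟩, h2⟩
  · rintro ⟨x', ⟨c, hc, h1⟩, h2⟩
    exact ⟨_, ⟨c, hc, rfl⟩, bxm_tgC.2 ⟨x', h1, h2⟩⟩

theorem dis_al {ι : Type} {c : ι → Conf K T}
    (h : ∀ i j, i ≠ j → ∀ x ∈ (c i).pts, ∀ y ∈ (c j).pts, ∀ t, Bx.Disj (x.1 t) (y.1 t)) :
    Fn.Dis fun i => al (c i) := by
  rintro i j t x ⟨k, y⟩ ⟨l, z⟩ h1 h2
  by_contra hne
  obtain ⟨b, hb, h3⟩ := al_eq_some_iff.1 h1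
  obtain ⟨b', hb', h4⟩ := al_eq_some_iff.1 h2
  exact bxm_disj (h i j hne _ hb _ hb' t) h3 h4

theorem al_iUn {ι : Type} [Fintype ι] {c : ι → Conf K T}
    (h : ∀ i j, i ≠ j → ∀ x ∈ (c i).pts, ∀ y ∈ (c j).pts, ∀ t, Bx.Disj (x.1 t) (y.1 t)) :
    al (Conf.iUn c h) = Fn.uni fun i => al (c i) := by
  refine Fn.ext' fun t x k y => ?_
  rw [Fn.uni_eq_some (dis_al h)]
  simp only [al_eq_some_iff, Conf.mem_iUn]
  constructor
  · rintro ⟨b, ⟨i, hi⟩, hb⟩
    exact ⟨i, b, hi, hb⟩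
  · rintro ⟨i, b, hi, hb⟩
    exact ⟨b, ⟨i, hi⟩, hb⟩

/-- disjoint supports of the collapses give disjoint boxes -/
theorem disj_of_bxm {b c : Bx} (h : ∀ x y z, bxm b x = some y → bxm c x = some z → False) :
    Bx.Disj b c := by
  by_contra hd
  have h1 : ∀ i, (c i).lo < (b i).hi ∧ (b i).lo < (c i).hi := by
    intro i
    constructor
    · by_contra h2
      exact hd ⟨i, Or.inl (not_lt.1 h2)⟩
    · by_contra h2
      exact hd ⟨i, Or.inr (not_lt.1 h2)⟩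
  have h2 : ∀ i, ∃ x y z, (b i).Rel x y ∧ (c i).Rel x z := by
    intro i
    obtain ⟨h3, h4⟩ := h1 i
    have hb := (b i).lo_lt_hi
    have hc := (c i).lo_lt_hi
    obtain ⟨u, hu1, hu2⟩ := exists_between (show max (b i).lo (c i).lo < min (b i).hi (c i).hi by
      rw [max_lt_iff, lt_min_iff, lt_min_iff]; exact ⟨⟨hb, h4⟩, ⟨h3, hc⟩⟩)
    rw [max_lt_iff] at hu1
    rw [lt_min_iff] at hu2
    have h5 := (b i).lo_nonneg
    have h6 := (b i).hi_le_one
    obtain ⟨x, hx⟩ := exists_loopI (u := u) (by linarith) (by linarith)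
    obtain ⟨y, hy⟩ := exists_loopI (u := (u - (b i).lo) / ((b i).hi - (b i).lo))
      (div_pos (by linarith) (by linarith)) ((div_lt_one (by linarith)).2 (by linarith))
    obtain ⟨z, hz⟩ := exists_loopI (u := (u - (c i).lo) / ((c i).hi - (c i).lo))
      (div_pos (by linarith) (by linarith)) ((div_lt_one (by linarith)).2 (by linarith))
    refine ⟨x, y, z, ?_, ?_⟩
    · unfold Iv.Rel
      rw [hy, hx, mul_div_cancel₀ _ (by linarith : (b i).hi - (b i).lo ≠ 0)]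
      ring
    · unfold Iv.Rel
      rw [hz, hx, mul_div_cancel₀ _ (by linarith : (c i).hi - (c i).lo ≠ 0)]
      ring
  choose x y z h3 h4 using h2
  exact h x y z (bxm_eq_some.2 h3) (bxm_eq_some.2 h4)

end

end Vale.Agent.P263.G2
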