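import Vale.Agent.P263.G2.AlphaSS
import Vale.Agent.P263.G2.BoxGam
import Vale.Agent.P263.GB.QGam

/-!
# P263, block G2: the collapse `alpha : F → Q` as a morphism of functors on finite pointed sets

* `alphaFQ K : SS.Map (F K) (FQ (Dsc K))`, `alphaFQ_toF` : on the stage `r` it is
  `FQ.inc (Dsc K) r ∘ alphaSS r (Dsc K)`;
* `alphaG : Gam.Hom gamF Gam.Q`.
-/

open OnePoint Topology Vale.Agent.P251.G Vale.Agent.P263.TOP
open Vale.Agent.P263.S Vale.Agent.P263.E Vale.Agent.P263.GB

namespace Vale.Agent.P263.G2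

section

variable (K : Type) [Finite K]

/-- the collapse of a simplex of stage `r`, in the union -/
noncomputable def alphaSt (r : ℕ) : SS.Map (Fr r K) (FQ (Dsc K)) :=
  (FQ.inc (Dsc K) r).comp (alphaSS r (Dsc K))

theorem alphaSt_succ (r : ℕ) : (alphaSt K (r + 1)).comp (Fr.incl r.le_succ K) = alphaSt K r := by
  have h1 : (alphaSS (r + 1) (Dsc K)).comp (Fr.incl r.le_succ (Dsc K)) =
      (singMap (stB (Dsc K) r)).comp (alphaSS r (Dsc K)) := alphaSS_incl r (Dsc K)
  have h2 : (FQ.inc (Dsc K) (r + 1)).comp (singMap (stB (Dsc K) r)) = FQ.inc (Dsc K) r :=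
    FQ.inc_stB r
  show (FQ.inc (Dsc K) (r + 1)).comp ((alphaSS (r + 1) (Dsc K)).comp
    (Fr.incl r.le_succ (Dsc K))) = (FQ.inc (Dsc K) r).comp (alphaSS r (Dsc K))
  rw [h1, ← h2]
  rfl

theorem alphaSt_incl {r s : ℕ} (h : r ≤ s) :
    (alphaSt K s).comp (Fr.incl h K) = alphaSt K r := by
  induction s, h using Nat.le_induction with
  | base => rfl
  | succ s h ih =>
    rw [← ih, ← alphaSt_succ K s]
    rfl

theorem alphaSt_congr {p : ℕ} {r s : ℕ} (S : (F K).obj p) (hr : Conf.IsSt r S)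
    (hs : Conf.IsSt s S) :
    (alphaSt K r).app (⟨S, hr⟩ : (Fr r K).obj p) = (alphaSt K s).app (⟨S, hs⟩ : (Fr s K).obj p) := by
  rcases le_total r s with h | h
  · rw [← alphaSt_incl K h]; rfl
  · rw [← alphaSt_incl K h]; rfl

/-- **the collapse `F(K₊) → Q(K₊)`** -/
noncomputable def alphaFQ : SS.Map (F K) (FQ (Dsc K)) where
  app {p} S := (alphaSt K (Classical.choose S.stage)).app
    (⟨S, Classical.choose_spec S.stage⟩ : (Fr _ K).obj p)
  nat {p q} θ S := by
    have h := (alphaSt K (Classical.choose S.stage)).nat θ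
      (⟨S, Classical.choose_spec S.stage⟩ : (Fr _ K).obj q)
    refine Eq.trans ?_ h
    exact alphaSt_congr K ((F K).map θ S) _ _

/-- on the stage `r` -/
theorem alphaFQ_toF (r : ℕ) : (alphaFQ K).comp (Fr.toF r K) = alphaSt K r := by
  apply SS.Map.ext
  intro p S
  exact alphaSt_congr K S.1 _ S.2

theorem alphaFQ_apply {p r : ℕ} (S : (F K).obj p) (hS : Conf.IsSt r S) :
    (alphaFQ K).app S = (FQ.inc (Dsc K) r).app ((alphaSS r (Dsc K)).app ⟨S, hS⟩) :=
  alphaSt_congr K S _ hS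

end

/-- naturality in the labels -/
theorem alphaFQ_map {K L : Type} [Finite K] [Finite L] (f : K → Option L) :
    (alphaFQ L).comp (F.map f) = (FQ.map (lbl f)).comp (alphaFQ K) := by
  apply SS.Map.ext
  intro p S
  obtain ⟨r, hr⟩ := S.stage
  show (alphaFQ L).app ((F.map f).app S) = (FQ.map (lbl f)).app ((alphaFQ K).app S)
  have hS : Conf.IsSt r ((F.map f).app S) := ((Fr.map f).app (⟨S, hr⟩ : (Fr r K).obj p)).2
  rw [alphaFQ_apply K S hr, alphaFQ_apply L _ hS, FQ.map_inc_app]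
  refine congrArg (FQ.inc (Dsc L) r).app ?_
  have h := congrArg (fun g : SS.Map (Fr r K) (sing (QS (Dsc L) r)) =>
    g.app (⟨S, hr⟩ : (Fr r K).obj p)) (alphaSS_map (K := Dsc K) (L := Dsc L) r f)
  refine h.trans ?_
  refine ContinuousMap.ext fun t => ?_
  exact (pushB_lbl r f _).symm

/-- **the collapse as a morphism of functors on finite pointed sets** -/
noncomputable def alphaG : Gam.Hom gamF Gam.Q :=
  ⟨fun K => alphaFQ K, fun f _ x => congrArg (fun g : SS.Map _ _ => g.app x) (alphaFQ_map f)⟩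

end Vale.Agent.P263.G2
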