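import Vale.Agent.P263.G2.Alpha
import Vale.Agent.P263.T0.Based

/-!
# P263, G2: the collapse into `Ωʳ Sʳ` and `QS⁰`

* `alphaOm r S : C(T, Om r)` for `S : Conf Unit T` of stage `r`; `alphaOm_stage`, `alphaOm_pull`;
* `alphaQ S : C(T, QS0)` for every `S : Conf Unit T`; `alphaQ_eq`, `alphaQ_pull`.
-/

open OnePoint Topology Vale.Agent.P251.G Vale.Agent.P263.TOP CategoryTheory

namespace Vale.Agent.P263.G2

/-- based maps with one label -/
def omH (r : ℕ) : BMap (Fin r → ℝ) (Unit × (Fin r → ℝ)) ≃ₜ T0.Om r :=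
  BMap.conj (Homeomorph.refl (Fin r → ℝ)) (Homeomorph.punitProd (Fin r → ℝ))

theorem omH_apply (r : ℕ) (f : BMap (Fin r → ℝ) (Unit × (Fin r → ℝ))) (x : T0.Sph r) :
    omH r f x = (f.1 x).map Prod.snd := by
  change opH (Homeomorph.punitProd (Fin r → ℝ))
    (f.1 ((opH (Homeomorph.refl (Fin r → ℝ))).symm x)) = _
  have h1 : (opH (Homeomorph.refl (Fin r → ℝ))).symm x = x := by
    rw [Homeomorph.symm_apply_eq]
    induction x using OnePoint.rec with
    | infty => rfl
    | coe x => rfl
  rw [h1]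
  rfl

variable {T T' : Type} [TopologicalSpace T] [TopologicalSpace T']

/-- the collapse `F_r → Ωʳ Sʳ` on families over `T` -/
noncomputable def alphaOm (r : ℕ) (S : Conf Unit T) (hS : S.IsSt r) : C(T, T0.Om r) :=
  (omH r : C(BMap (Fin r → ℝ) (Unit × (Fin r → ℝ)), T0.Om r)).comp (alpha r S hS)

theorem alphaOm_apply (r : ℕ) (S : Conf Unit T) (hS : S.IsSt r) (t : T) (x : T0.Sph r) :
    alphaOm r S hS t x = (alphaFun r S t x).map Prod.snd := omH_apply r _ x

/-- the value in a box -/
theorem alphaOm_of_mem {r : ℕ} {S : Conf Unit T} (hS : S.IsSt r) {c : C(T, Bx)} {k : Unit}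
    (h : (c, k) ∈ S.pts) {t : T} {x : T0.Sph r} (hx : collB r (c t) x ≠ ∞) :
    alphaOm r S hS t x = collB r (c t) x := by
  rw [alphaOm_apply, alphaFun_of_mem hS h hx]
  generalize collB r (c t) x = y
  induction y using OnePoint.rec with
  | infty => rfl
  | coe y => rfl

/-- the value outside the boxes -/
theorem alphaOm_of_forall {r : ℕ} {S : Conf Unit T} (hS : S.IsSt r) {t : T} {x : T0.Sph r}
    (hx : ∀ p ∈ S.pts, collB r (p.1 t) x = ∞) : alphaOm r S hS t x = ∞ := by
  rw [alphaOm_apply, alphaFun_of_forall hx]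
  rfl

theorem alphaOm_pull (r : ℕ) (S : Conf Unit T) (hS : S.IsSt r) (g : C(T', T)) :
    alphaOm r (S.pull g) (hS.pull g) = (alphaOm r S hS).comp g := by
  unfold alphaOm
  rw [alpha_pull r S hS]
  rfl

/-- stability -/
theorem alphaOm_stage (r : ℕ) (S : Conf Unit T) (hS : S.IsSt r) :
    alphaOm (r + 1) S (hS.mono (Nat.le_succ r)) = (T0.stab r).comp (alphaOm r S hS) := by
  refine ContinuousMap.ext fun t => ?_
  apply Subtype.ext
  refine ContinuousMap.ext fun z => ?_
  obtain ⟨⟨x, u⟩, rfl⟩ := T0.toSmash_surjective r z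
  have h1 : T0.toSmash r (x, u) = sm r x u := by
    change (T0.snocHomeo r).onePointCongr (LC.smash x u) = opH (snocH r) (LC.smash x u)
    generalize LC.smash x u = w
    induction w using OnePoint.rec with
    | infty => rfl
    | coe w => rfl
  have h2 : (T0.stab r (alphaOm r S hS t)) (T0.toSmash r (x, u)) =
      T0.toSmash r ((alphaOm r S hS t) x, u) :=
    T0.stabFun_toSmash _ (alphaOm r S hS t).2 (x, u)
  change (alphaOm (r + 1) S _ t) (T0.toSmash r (x, u)) =
    (T0.stab r (alphaOm r S hS t)) (T0.toSmash r (x, u))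
  rw [h2, h1, alphaOm_apply, alphaFun_sm hS, alphaOm_apply]
  generalize alphaFun r S t x = y
  induction y using OnePoint.rec with
  | infty => rfl
  | coe y =>
    induction u using OnePoint.rec with
    | infty =>
      rw [smK_infty_right]
      exact (T0.toSmash_infty_right r _).symm
    | coe u => rfl

/-- the collapse into `QS⁰` -/
noncomputable def alphaQ (S : Conf Unit T) : C(T, T0.QS0) :=
  (T0.toQ S.exists_isSt.choose).hom.comp
    (alphaOm S.exists_isSt.choose S S.exists_isSt.choose_spec)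

theorem toQ_alphaOm_mono {r s : ℕ} (h : r ≤ s) (S : Conf Unit T) (hS : S.IsSt r) (t : T) :
    T0.toQ s (alphaOm s S (hS.mono h) t) = T0.toQ r (alphaOm r S hS t) := by
  induction s, h using Nat.le_induction with
  | base => rfl
  | succ s h ih =>
    rw [← ih, ← T0.toQ_stab s]
    have h1 := DFunLike.congr_fun (alphaOm_stage s S (hS.mono h)) t
    exact congrArg (T0.toQ (s + 1)) h1

theorem alphaQ_eq {r : ℕ} (S : Conf Unit T) (hS : S.IsSt r) (t : T) :
    alphaQ S t = T0.toQ r (alphaOm r S hS t) := by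
  change T0.toQ S.exists_isSt.choose (alphaOm S.exists_isSt.choose S
    S.exists_isSt.choose_spec t) = _
  rw [← toQ_alphaOm_mono (le_max_left r _) S hS,
    ← toQ_alphaOm_mono (le_max_right r _) S S.exists_isSt.choose_spec]

theorem alphaQ_pull (S : Conf Unit T) (g : C(T', T)) : alphaQ (S.pull g) = (alphaQ S).comp g := by
  obtain ⟨r, hr⟩ := S.exists_isSt
  refine ContinuousMap.ext fun t => ?_
  rw [ContinuousMap.comp_apply, alphaQ_eq S hr, alphaQ_eq (S.pull g) (Conf.IsSt.pull hr g),
    alphaOm_pull r S hr]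
  rfl

end Vale.Agent.P263.G2
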