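import Vale.Agent.P263.G2.QUnit
import Vale.Agent.P263.GB.QT

/-!
# P263, block G2: the collapse in the target-tower form

* `alphaT : Gam.Hom gamF (Gam.QT TSeq.zero)`, `alphaT_apply` ;
* `ftQS : SS.Map (FT TSeq.zero Unit) (sing QS0)`, `ftQS_inc_app`, **`ftQS_bijective`**,
  `ftQS_alphaT : ftQS ∘ alphaT = alphaQSS`.
-/

open OnePoint Topology Vale.Agent.P251.G Vale.Agent.P263.TOP CategoryTheory
open Vale.Agent.P263.S Vale.Agent.P263.E Vale.Agent.P263.GB

namespace Vale.Agent.P263.G2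

/-- **the collapse `F → Q`**, as a morphism of functors on finite pointed sets -/
noncomputable def alphaT : Gam.Hom gamF (Gam.QT TSeq.zero) := Gam.qToQT.comp alphaG

theorem alphaT_apply (K : Type) [Finite K] {p r : ℕ} (S : (F K).obj p) (hS : Conf.IsSt r S) :
    (alphaT.app K).app S =
      (FT.inc TSeq.zero K r).app ((alphaSS r (Dsc K)).app (⟨S, hS⟩ : (Fr r (Dsc K)).obj p)) := by
  show (Gam.qToQT.app K).app ((alphaFQ K).app S) = _
  rw [alphaFQ_apply K S hS]
  rfl

/-- on the stage `r` -/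
theorem alphaT_toF (K : Type) [Finite K] (r : ℕ) : (alphaT.app K).comp (Fr.toF r K) =
    (FT.inc TSeq.zero K r).comp (alphaSS r (Dsc K)) := by
  apply SS.Map.ext
  intro p S
  exact alphaT_apply K S.1 S.2

/-- `Q` at one label, in `sing QS⁰` -/
noncomputable def ftQS : SS.Map (FT TSeq.zero Unit) (sing T0.QS0) :=
  fqQS.comp (Gam.qtToQ.app Unit)

theorem ftQS_inc_app (r : ℕ) {p : ℕ} (σ : (sing (QT TSeq.zero Unit r)).obj p) (t : Dl p) :
    toC (ftQS.app ((FT.inc TSeq.zero Unit r).app σ)) t = T0.toQ r (omD r (toC σ t)) :=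
  fqQS_inc_app r σ t

theorem ftQS_inc (r : ℕ) : ftQS.comp (FT.inc TSeq.zero Unit r) =
    singMap ((T0.toQ r).hom.comp (omD r : C(QS (Dsc Unit) r, T0.Om r))) := by
  apply SS.Map.ext
  intro p σ
  exact ContinuousMap.ext fun t => ftQS_inc_app r σ t

theorem qtToQ_bijective (K : Type) [Finite K] (p : ℕ) :
    Function.Bijective ((Gam.qtToQ.app K).app (p := p)) := by
  refine Function.bijective_iff_has_inverse.2 ⟨(Gam.qToQT.app K).app, fun x => ?_, fun x => ?_⟩
  · obtain ⟨r, x, rfl⟩ := FT.exists_inc TSeq.zero K x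
    rfl
  · obtain ⟨r, x, rfl⟩ := FQ.exists_inc x
    rfl

/-- **`FT TSeq.zero Unit ≃ sing QS⁰`** -/
theorem ftQS_bijective (p : ℕ) : Function.Bijective (ftQS.app (p := p)) :=
  (fqQS_bijective p).comp (qtToQ_bijective Unit p)

/-- the collapse into `QS⁰` -/
theorem ftQS_alphaT : ftQS.comp (alphaT.app Unit) = alphaQSS := by
  apply SS.Map.ext
  intro p S
  obtain ⟨r, hr⟩ := S.stage
  refine ContinuousMap.ext fun t => ?_
  show toC (ftQS.app ((alphaT.app Unit).app S)) t = toC (alphaQSS.app S) t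
  rw [alphaT_apply Unit S hr]
  refine (ftQS_inc_app r _ t).trans ?_
  exact (alphaQ_eq (T := Dl p) S hr t).symm

end Vale.Agent.P263.G2
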