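import Vale.Agent.P263.G2.DegOm
import Vale.Agent.P263.T0.Compact
import Vale.Agent.P251.M.PiZero
import Vale.Agent.P251.H.Exists

/-!
# P263, literal mapping spaces: maps of the same degree are stably homotopic

* `exists_homotopic_of_deg` : self maps `f`, `g` of `ℝʳ` in `LC` with the same degree become
  homotopic after the product with some `ℝⁿ`.
* `exists_joined_of_degOm` : points of `Om r` with the same degree are joined in `Om s`, for some
  `s ≥ r`.
-/

open CategoryTheory MonoidalCategory OnePoint Topology Filter Limits Pretriangulated ZeroObject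
open Vale.Agent.P251 Vale.Agent.P251.G Vale.Agent.P251.G.LC Vale.Agent.P251.I Vale.Agent.P251.T
  Vale.Agent.P251.M
open Vale.Agent.P205.TI.Deg

universe v u

set_option linter.unusedSectionVars false

namespace Vale.Agent.P263.G2

section model

variable {T : Type u} [Category.{v} T] [Preadditive T] [HasZeroObject T]
    [HasShift T ℤ] [∀ n : ℤ, (shiftFunctor T n).Additive] [Pretriangulated T]
    [MonoidalCategory T] [SymmetricCategory T] [TensorTriangulated T]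
variable (F : SpaceFunctor T)

/-- the degree `k` map of the second coordinate -/
noncomputable def fk (n k : ℕ) : SphE n ⟶ SphE n :=
  (RRF ◁ (FCat.hom (mfold k) : RRF ⟶ RRF)) ▷ SphF n

theorem S_fk (n k : ℕ) : F.S.map (fk n k) = (k : ℤ) • 𝟙 (F.S.obj (SphE n)) := by
  have h1 : F.S.map (RRF ◁ (FCat.hom (mfold k) : RRF ⟶ RRF)) =
      (k : ℤ) • 𝟙 (F.S.obj (RRF ⊗ RRF)) := by
    rw [S_whiskerLeft, S_mfold]
    have h2 : F.S.obj RRF ◁ ((k : ℤ) • 𝟙 (F.S.obj RRF)) =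
        (k : ℤ) • 𝟙 (F.S.obj RRF ⊗ F.S.obj RRF) := by
      have := ((tensoringLeft T).obj (F.S.obj RRF)).map_zsmul (f := 𝟙 (F.S.obj RRF)) (r := (k : ℤ))
      rw [CategoryTheory.Functor.map_id] at this
      exact this
    rw [h2, Preadditive.zsmul_comp, Category.id_comp, Preadditive.comp_zsmul, Iso.inv_hom_id]
  rw [fk, S_whiskerRight, h1]
  have h3 : ((k : ℤ) • 𝟙 (F.S.obj (RRF ⊗ RRF))) ▷ F.S.obj (SphF n) =
      (k : ℤ) • 𝟙 (F.S.obj (RRF ⊗ RRF) ⊗ F.S.obj (SphF n)) := by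
    have := ((tensoringRight T).obj (F.S.obj (SphF n))).map_zsmul
      (f := 𝟙 (F.S.obj (RRF ⊗ RRF))) (r := (k : ℤ))
    rw [CategoryTheory.Functor.map_id] at this
    exact this
  rw [h3, Preadditive.zsmul_comp, Category.id_comp, Preadditive.comp_zsmul, Iso.inv_hom_id]
  rfl

theorem deg_fk (n k : ℕ) : deg (E := EE n) (fk n k).hom = k := by
  refine (deg_whiskerRight (E := ℝ × ℝ) (F := Fin n → ℝ) (LC.of ℝ ◁ mfold k)).trans ?_
  refine (deg_whiskerLeft (E := ℝ) (F := ℝ) (mfold k)).trans ?_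
  exact deg_mfold k

/-- the reflection in the first coordinate -/
noncomputable def negE (n : ℕ) : EE n ≃L[ℝ] EE n :=
  ((ContinuousLinearEquiv.neg ℝ (M := ℝ)).prodCongr (ContinuousLinearEquiv.refl ℝ ℝ)).prodCongr
    (ContinuousLinearEquiv.refl ℝ (Fin n → ℝ))

theorem det_negE (n : ℕ) : (negE n : EE n →L[ℝ] EE n).det = -1 := by
  have h1 : ((negE n : EE n →L[ℝ] EE n) : EE n →ₗ[ℝ] EE n) =
      ((-LinearMap.id : ℝ →ₗ[ℝ] ℝ).prodMap (LinearMap.id : ℝ →ₗ[ℝ] ℝ)).prodMap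
        (LinearMap.id : (Fin n → ℝ) →ₗ[ℝ] (Fin n → ℝ)) := by
    ext x <;> simp [negE]
  rw [ContinuousLinearMap.det, h1, LinearMap.det_prodMap, LinearMap.det_prodMap, LinearMap.det_id,
    LinearMap.det_id, mul_one, mul_one]
  simp

theorem S_negE (n : ℕ) :
    F.S.map (FCat.hom (lin (negE n)) : SphE n ⟶ SphE n) = -𝟙 (F.S.obj (SphE n)) := by
  rw [← S_lin_swapE]
  refine F.map_eq _ _ (homotopic_lin_of_det (negE n) (swapE n) ?_)
  rw [det_swapE, det_negE]
  norm_num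

theorem negE_fk (n k : ℕ) : lin (negE n) ≫ (fk n k).hom =
    ((ofHomeo (X := LC.of ℝ) (Y := LC.of ℝ) (Homeomorph.neg ℝ)).hom ⊗ₘ mfold k) ▷
      LC.of (Fin n → ℝ) := by
  apply hom_ext
  rintro ⟨⟨x, y⟩, z⟩
  rw [app_comp, app_lin_coe]
  change app ((LC.of ℝ ◁ mfold k) ▷ LC.of (Fin n → ℝ))
    (smash (X := LC.of (ℝ × ℝ)) (Y := LC.of (Fin n → ℝ))
      (smash (X := LC.of ℝ) (Y := LC.of ℝ) ((-x : ℝ) : OnePoint ℝ) (y : OnePoint ℝ))
        (z : OnePoint (Fin n → ℝ))) =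
    app (((ofHomeo (X := LC.of ℝ) (Y := LC.of ℝ) (Homeomorph.neg ℝ)).hom ⊗ₘ mfold k) ▷
      LC.of (Fin n → ℝ)) (smash (X := LC.of (ℝ × ℝ)) (Y := LC.of (Fin n → ℝ))
      (smash (X := LC.of ℝ) (Y := LC.of ℝ) ((x : ℝ) : OnePoint ℝ) (y : OnePoint ℝ))
        (z : OnePoint (Fin n → ℝ)))
  rw [app_whiskerRight_smash, app_whiskerRight_smash, app_whiskerLeft_smash,
    app_tensorHom_smash]
  rfl

theorem deg_negE_fk (n k : ℕ) : deg (E := EE n) (lin (negE n) ≫ (fk n k).hom) = -k := by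
  rw [negE_fk]
  refine (deg_whiskerRight (E := ℝ × ℝ) (F := Fin n → ℝ) _).trans ?_
  rw [deg_tensor, deg_neg, deg_mfold]
  ring

/-- Models for all integers. -/
theorem exists_model (n : ℕ) (m : ℤ) : ∃ h : SphE n ⟶ SphE n,
    F.S.map h = m • 𝟙 (F.S.obj (SphE n)) ∧ deg (E := EE n) h.hom = m := by
  obtain ⟨k, rfl | rfl⟩ := m.eq_nat_or_neg
  · exact ⟨fk n k, S_fk F n k, by rw [deg_fk]; rfl⟩
  · refine ⟨(FCat.hom (lin (negE n)) : SphE n ⟶ SphE n) ≫ fk n k, ?_, ?_⟩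
    · rw [Functor.map_comp, S_negE, S_fk, Preadditive.neg_comp, Category.id_comp, neg_smul]
    · refine (deg_negE_fk n k).trans ?_
      push_cast
      rfl

theorem S_map_eq_deg (n : ℕ) (f : SphE n ⟶ SphE n) {m : ℤ}
    (hm : F.S.map f = m • 𝟙 (F.S.obj (SphE n))) : deg (E := EE n) f.hom = m := by
  obtain ⟨h, h1, h2⟩ := exists_model F n m
  obtain ⟨s, hs⟩ := F.faithful f h (hm.trans h1.symm)
  have h3 : deg (E := EE n × (Fin s → ℝ)) (f.hom ▷ LC.of (Fin s → ℝ)) =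
      deg (E := EE n × (Fin s → ℝ)) (h.hom ▷ LC.of (Fin s → ℝ)) := deg_homotopic hs
  have h4 := deg_whiskerRight (E := EE n) (F := Fin s → ℝ) f.hom
  have h5 := deg_whiskerRight (E := EE n) (F := Fin s → ℝ) h.hom
  rw [← h4, h3, h5, h2]

include F in
theorem exists_homotopic_aux (n : ℕ) (f g : SphE n ⟶ SphE n)
    (h : deg (E := EE n) f.hom = deg (E := EE n) g.hom) :
    ∃ s : ℕ, Homotopic (f.hom ▷ Sph s) (g.hom ▷ Sph s) := by
  obtain ⟨m, hm⟩ := S_int F n f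
  obtain ⟨k, hk⟩ := S_int F n g
  have h1 := S_map_eq_deg F n f hm
  have h2 := S_map_eq_deg F n g hk
  have h3 : m = k := by
    rw [h1, h2] at h
    exact_mod_cast h
  exact F.faithful f g (by rw [hm, hk, h3])

end model

theorem exists_homotopic_EE (n : ℕ) (f g : LC.of (EE n) ⟶ LC.of (EE n))
    (h : deg (E := EE n) f = deg (E := EE n) g) :
    ∃ s : ℕ, Homotopic (f ▷ Sph s) (g ▷ Sph s) := by
  obtain ⟨T, ⟨F⟩, -⟩ := H.exists_stable
  exact exists_homotopic_aux F n (FCat.hom f) (FCat.hom g) h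

/-- **Hopf's theorem, stable form**: self maps of a sphere with the same degree are stably
homotopic. -/
theorem exists_homotopic_of_deg (r : ℕ) (f g : LC.of (Fin r → ℝ) ⟶ LC.of (Fin r → ℝ))
    (h : deg (E := Fin r → ℝ) f = deg (E := Fin r → ℝ) g) :
    ∃ s : ℕ, Homotopic (f ▷ Sph s) (g ▷ Sph s) := by
  have h1 : deg (E := EE r) (LC.of (ℝ × ℝ) ◁ f) = deg (E := EE r) (LC.of (ℝ × ℝ) ◁ g) := by
    have e1 := deg_whiskerLeft (E := Fin r → ℝ) (F := ℝ × ℝ) f
    have e2 := deg_whiskerLeft (E := Fin r → ℝ) (F := ℝ × ℝ) g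
    exact e1.trans (h.trans e2.symm)
  obtain ⟨s, hs⟩ := exists_homotopic_EE r (LC.of (ℝ × ℝ) ◁ f) (LC.of (ℝ × ℝ) ◁ g) h1
  -- the space `ℝ² × ℝˢ`
  let e0 : LC.of (ℝ × ℝ) ≅ Sph 2 := ofHomeo (X := LC.of (ℝ × ℝ)) (Y := Sph 2)
    (ContinuousLinearEquiv.finTwoArrow ℝ ℝ).symm.toHomeomorph
  let e : LC.of (ℝ × ℝ) ⊗ Sph s ≅ Sph (2 + s) := whiskerRightIso e0 (Sph s) ≪≫ sphTensor 2 s
  have key : ∀ k : LC.of (Fin r → ℝ) ⟶ LC.of (Fin r → ℝ),
      k ▷ Sph (2 + s) = (LC.of (Fin r → ℝ) ◁ e.inv) ≫ (α_ _ _ _).inv ≫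
        ((β_ (LC.of (Fin r → ℝ)) (LC.of (ℝ × ℝ))).hom ▷ Sph s) ≫
        ((LC.of (ℝ × ℝ) ◁ k) ▷ Sph s) ≫
        ((β_ (LC.of (ℝ × ℝ)) (LC.of (Fin r → ℝ))).hom ▷ Sph s) ≫ (α_ _ _ _).hom ≫
        (LC.of (Fin r → ℝ) ◁ e.hom) := by
    intro k
    rw [← comp_whiskerRight_assoc, ← comp_whiskerRight_assoc, Category.assoc,
      BraidedCategory.braiding_naturality_right, SymmetricCategory.symmetry_assoc,
      associator_naturality_left_assoc, Iso.inv_hom_id_assoc, whisker_exchange_assoc,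
      ← MonoidalCategory.whiskerLeft_comp, Iso.inv_hom_id, MonoidalCategory.whiskerLeft_id,
      Category.comp_id]
  refine ⟨2 + s, ?_⟩
  rw [key f, key g]
  exact ((((hs.comp_right _).comp_left _).comp_left _).comp_left _)

/-! ### The spaces `Om r` -/

theorem bhom_stab' {r : ℕ} (f : T0.Om r) :
    bhom (X := Fin (r + 1) → ℝ) (Y := Fin (r + 1) → ℝ) (T0.stab r f) =
      (T0.snocIso r).inv ≫ (bhom (X := Fin r → ℝ) (Y := Fin r → ℝ) f ▷ LC.of ℝ) ≫
        (T0.snocIso r).hom := bhom_stab f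

/-- the iterated stabilization -/
def stabN {r : ℕ} : (s : ℕ) → T0.Om r → T0.Om (r + s)
  | 0, f => f
  | s + 1, f => T0.stab (r + s) (stabN s f)

theorem omSeq_map_stabN {r : ℕ} (s : ℕ) (f : T0.Om r) :
    T0.omSeq.map (homOfLE (Nat.le_add_right r s)) f = stabN s f := by
  induction s with
  | zero =>
    have : homOfLE (Nat.le_add_right r 0) = 𝟙 r := rfl
    rw [this, CategoryTheory.Functor.map_id]
    rfl
  | succ s ih =>
    have h1 : homOfLE (Nat.le_add_right r (s + 1)) =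
        homOfLE (Nat.le_add_right r s) ≫ homOfLE (Nat.le_succ (r + s)) := rfl
    rw [h1, Functor.map_comp]
    change T0.omSeq.map (homOfLE (Nat.le_succ (r + s)))
      (T0.omSeq.map (homOfLE (Nat.le_add_right r s)) f) = _
    rw [ih, T0.omSeq_map_succ]
    rfl

theorem exists_bhom_stabN (r s : ℕ) :
    ∃ e : LC.of (Fin r → ℝ) ⊗ LC.Sph s ≅ LC.of (Fin (r + s) → ℝ), ∀ f : T0.Om r,
      bhom (X := Fin (r + s) → ℝ) (Y := Fin (r + s) → ℝ) (stabN s f) =
        e.inv ≫ (bhom (X := Fin r → ℝ) (Y := Fin r → ℝ) f ▷ LC.Sph s) ≫ e.hom := by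
  induction s with
  | zero =>
    refine ⟨LC.sphTensor r 0, fun f => ?_⟩
    rw [Iso.eq_inv_comp]
    refine LC.tensor_ext (X := LC.of (Fin r → ℝ)) (Y := LC.Sph 0) fun v t => ?_
    rw [LC.app_comp, LC.app_comp, LC.app_whiskerRight_smash]
    have h1 : ∀ w : OnePoint (Fin r → ℝ), LC.app (LC.sphTensor r 0).hom
        (LC.smash w (t : OnePoint (Fin 0 → ℝ))) = w := by
      intro w
      induction w using OnePoint.rec with
      | infty =>
        rw [LC.smash_infty_left]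
        exact LC.app_infty _
      | coe w =>
        change ((Fin.append w t : Fin (r + 0) → ℝ) : OnePoint (Fin (r + 0) → ℝ)) = _
        congr 1
        exact Fin.append_right_nil w t rfl
    rw [h1, h1]
    rfl
  | succ s ih =>
    obtain ⟨e, he⟩ := ih
    refine ⟨whiskerLeftIso _ (T0.snocIso s).symm ≪≫ (α_ _ _ _).symm ≪≫
      whiskerRightIso e (LC.of ℝ) ≪≫ T0.snocIso (r + s), fun f => ?_⟩
    change bhom (X := Fin (r + s + 1) → ℝ) (Y := Fin (r + s + 1) → ℝ)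
      (T0.stab (r + s) (stabN s f)) = _
    rw [bhom_stab', he]
    simp only [Iso.trans_inv, Iso.trans_hom, whiskerLeftIso_inv, whiskerLeftIso_hom,
      whiskerRightIso_inv, whiskerRightIso_hom, Iso.symm_inv, Iso.symm_hom, Category.assoc,
      comp_whiskerRight]
    congr 2
    rw [whisker_exchange_assoc]
    rw [← MonoidalCategory.whiskerLeft_comp_assoc, Iso.hom_inv_id,
      MonoidalCategory.whiskerLeft_id, Category.id_comp, ← associator_naturality_left_assoc,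
      Iso.hom_inv_id_assoc]

/-- **Hopf's theorem, stable form**: points of `Om r` with the same degree are joined by a path
after stabilization. -/
theorem exists_joined_of_degOm {r : ℕ} (f g : T0.Om r) (h : degOm f = degOm g) :
    ∃ s : ℕ, Joined (stabN s f) (stabN s g) := by
  obtain ⟨s, hs⟩ := exists_homotopic_of_deg r (bhom (X := Fin r → ℝ) (Y := Fin r → ℝ) f)
    (bhom (X := Fin r → ℝ) (Y := Fin r → ℝ) g) (degB_eq_iff.1 h)
  obtain ⟨e, he⟩ := exists_bhom_stabN r s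
  refine ⟨s, (joined_iff (X := Fin (r + s) → ℝ) (Y := Fin (r + s) → ℝ) _ _).2 ?_⟩
  rw [he f, he g]
  exact (hs.comp_right _).comp_left _

theorem joined_stabN {r : ℕ} {f g : T0.Om r} (h : Joined f g) (s : ℕ) :
    Joined (stabN s f) (stabN s g) := by
  induction s with
  | zero => exact h
  | succ s ih => exact ih.map (T0.stab (r + s)).continuous

theorem degOm_stabN {r : ℕ} (s : ℕ) (f : T0.Om r) : degOm (stabN s f) = degOm f := by
  induction s with
  | zero => rfl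
  | succ s ih => rw [← ih]; exact degOm_stab (stabN s f)

/-- points of `Om r` are joined in some `Om (r + s)` if and only if they have the same degree -/
theorem exists_joined_iff {r : ℕ} (f g : T0.Om r) :
    (∃ s : ℕ, Joined (stabN s f) (stabN s g)) ↔ degOm f = degOm g := by
  refine ⟨?_, exists_joined_of_degOm f g⟩
  rintro ⟨s, hs⟩
  rw [← degOm_stabN s f, ← degOm_stabN s g]
  exact degOm_joined hs

/-! ### All degrees occur -/

theorem exists_deg_EE (n : ℕ) (m : ℤ) : ∃ h : LC.of (EE n) ⟶ LC.of (EE n),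
    deg (E := EE n) h = m := by
  obtain ⟨k, rfl | rfl⟩ := m.eq_nat_or_neg
  · exact ⟨(fk n k).hom, by rw [deg_fk]; rfl⟩
  · refine ⟨lin (negE n) ≫ (fk n k).hom, ?_⟩
    rw [deg_negE_fk]
    push_cast
    rfl

/-- `ℝ² × ℝⁿ = ℝ^(n+2)` -/
theorem exists_equiv_EE (n : ℕ) : Nonempty (EE n ≃L[ℝ] (Fin (n + 2) → ℝ)) := by
  refine ⟨ContinuousLinearEquiv.ofFinrankEq ?_⟩
  rw [Module.finrank_prod, Module.finrank_prod, Module.finrank_self, Module.finrank_fin_fun,
    Module.finrank_fin_fun]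
  omega

theorem exists_degOm' (n : ℕ) (m : ℤ) : ∃ f : T0.Om (n + 2), degOm f = m := by
  obtain ⟨h, hh⟩ := exists_deg_EE n m
  obtain ⟨e⟩ := exists_equiv_EE n
  refine ⟨bof (X := Fin (n + 2) → ℝ) (Y := Fin (n + 2) → ℝ)
    ((ofHomeo (X := LC.of (EE n)) (Y := LC.of (Fin (n + 2) → ℝ)) e.toHomeomorph).inv ≫ h ≫
      (ofHomeo (X := LC.of (EE n)) (Y := LC.of (Fin (n + 2) → ℝ)) e.toHomeomorph).hom),
    degB_eq_of_cast (E := Fin (n + 2) → ℝ) ?_⟩
  rw [bhom_bof]
  exact (LC.deg_conj (E := EE n) (F := Fin (n + 2) → ℝ) e h).trans hh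

/-- Every integer is a degree. -/
theorem exists_degOm {r : ℕ} (hr : 2 ≤ r) (m : ℤ) : ∃ f : T0.Om r, degOm f = m := by
  obtain ⟨n, rfl⟩ := Nat.exists_eq_add_of_le' hr
  exact exists_degOm' n m

end Vale.Agent.P263.G2
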