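import Vale.Agent.P263.G2.QInf
import Vale.Agent.P263.G2.BoxEdge
import Vale.Agent.P263.G2.Hopf

/-!
# P263, block G2: vertices of the simplicial set of stable families

* `fnOf r f` : the stable family given by a family `f` of points of `Om r`; every family of
  stage `r` with one label is of this form (`exists_fnOf`); `fnOf_stab`, `fnOf_stabN`.
* `exists_edge_of_degOm` : two vertices of `QInf Unit` given by points of `Om r` of the same degree
  are joined by an edge.
-/

open Topology Vale.Agent.P251.G Vale.Agent.P263.TOP Vale.Agent.P263.S Vale.Agent.P263.E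
open scoped OnePoint

namespace Vale.Agent.P263.G2

section

variable {T : Type}

/-- the stable family given by a family of points of `Om r` -/
noncomputable def fnOf (r : ℕ) (f : T → T0.Om r) : Fn Unit T := fun t x =>
  (ex r x ((f t).1 (rs r x : OnePoint (Fin r → ℝ)))).map fun y => ((), y)

theorem cmp_fnOf (r : ℕ) (f : T → T0.Om r) (t : T) (x : ℕ → ℝ) :
    Fn.cmp () (fnOf r f) t x = ex r x ((f t).1 (rs r x : OnePoint (Fin r → ℝ))) := by
  apply Option.ext
  intro y
  rw [Fn.cmp_eq_some, fnOf, Option.map_eq_some_iff]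
  constructor
  · rintro ⟨y', h1, h2⟩
    rw [h1, (Prod.mk.inj h2).2]
  · intro h
    exact ⟨y, h, rfl⟩

theorem fnOf_injective (r : ℕ) {f g : T → T0.Om r} (h : fnOf r f = fnOf r g) : f = g := by
  funext t
  refine bmap_ext (X := Fin r → ℝ) (Y := Fin r → ℝ) fun z => ?_
  induction z using OnePoint.rec with
  | infty => exact ((f t).2).trans ((g t).2).symm
  | coe y =>
    have h1 := cmp_fnOf r f t (rep r 0 y)
    rw [h, cmp_fnOf r g t (rep r 0 y), rs_rep] at h1
    exact (ex_injective r _ h1).symm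

theorem fnOf_stab (r : ℕ) (f : T → T0.Om r) :
    fnOf (r + 1) (fun t => T0.stab r (f t)) = fnOf r f := by
  funext t x
  rw [fnOf, fnOf]
  congr 1
  have h1 : (rs (r + 1) x : OnePoint (Fin (r + 1) → ℝ)) =
      T0.toSmash r ((rs r x : OnePoint (Fin r → ℝ)), ((x r : ℝ) : OnePoint ℝ)) := by
    rw [T0.toSmash_coe]
    congr 1
    funext i
    refine Fin.lastCases ?_ (fun j => ?_) i
    · rw [Fin.snoc_last]; rfl
    · rw [Fin.snoc_castSucc]; rfl
  have h2 : (T0.stab r (f t)).1 (rs (r + 1) x : OnePoint (Fin (r + 1) → ℝ)) =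
      T0.toSmash r ((f t).1 (rs r x : OnePoint (Fin r → ℝ)), ((x r : ℝ) : OnePoint ℝ)) := by
    rw [h1]
    exact T0.stab_toSmash r (f t) _ _
  rw [h2]
  generalize (f t).1 (rs r x : OnePoint (Fin r → ℝ)) = z
  induction z using OnePoint.rec with
  | infty => rfl
  | coe y =>
    rw [ex_coe]
    refine (congrArg (ex (r + 1) x) (T0.toSmash_coe r y (x r))).trans ?_
    rw [ex_coe]
    congr 1
    funext i
    rcases lt_trichotomy i r with h | h | h
    · rw [rep_of_lt h, rep_of_lt (h.trans (Nat.lt_succ_self r))]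
      have : (⟨i, h.trans (Nat.lt_succ_self r)⟩ : Fin (r + 1)) = Fin.castSucc ⟨i, h⟩ := rfl
      rw [this, Fin.snoc_castSucc]
    · subst h
      rw [rep_of_le le_rfl, rep_of_lt (Nat.lt_succ_self i)]
      have : (⟨i, Nat.lt_succ_self i⟩ : Fin (i + 1)) = Fin.last i := rfl
      rw [this, Fin.snoc_last]
    · rw [rep_of_le h.le, rep_of_le h]

theorem fnOf_stabN (r s : ℕ) (f : T → T0.Om r) :
    fnOf (r + s) (fun t => stabN s (f t)) = fnOf r f := by
  induction s with
  | zero => rfl
  | succ s ih => exact (fnOf_stab (r + s) fun t => stabN s (f t)).trans ih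

variable [TopologicalSpace T]

theorem isSt_fnOf (r : ℕ) {f : T → T0.Om r} (hf : Continuous f) : Fn.IsSt r (fnOf r f) := by
  intro k
  refine ⟨⟨fun p => (f p.1).1 p.2, ?_⟩, fun t => (f t).2, fun t x => cmp_fnOf r f t x⟩
  exact continuous_bmap_uncurry (X := Fin r → ℝ) (Y := Fin r → ℝ) hf

theorem exists_fnOf {r : ℕ} {g : Fn Unit T} (hg : Fn.IsSt r g) :
    ∃ f : T → T0.Om r, Continuous f ∧ g = fnOf r f := by
  obtain ⟨φ, h1, h2⟩ := hg ()
  obtain ⟨f, hf⟩ : ∃ f : T → BMap (Fin r → ℝ) (Fin r → ℝ), ∀ t z, (f t).1 z = φ (t, z) :=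
    ⟨fun t => ⟨⟨fun z => φ (t, z), by fun_prop⟩, h1 t⟩, fun t z => rfl⟩
  refine ⟨f, continuous_bmap_of_uncurry (X := Fin r → ℝ) (Y := Fin r → ℝ) ?_, ?_⟩
  · have : (fun p : T × OnePoint (Fin r → ℝ) => (f p.1).1 p.2) = φ := funext fun p => hf p.1 p.2
    rw [this]
    exact φ.continuous
  · refine Fn.ext' fun t x k y => ?_
    obtain rfl : k = () := rfl
    rw [← Fn.cmp_eq_some, ← Fn.cmp_eq_some, h2, ← hf]
    exact (congrArg (fun z => z = some y) (cmp_fnOf r f t x).symm).to_iff

end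

/-- every vertex of `QInf Unit` is given by a point of some `Om r` -/
theorem exists_vertex (x : (QInf Unit).obj 0) :
    ∃ (r : ℕ) (f : T0.Om r), x.1 = fnOf r fun _ => f := by
  obtain ⟨r, hr⟩ := x.2
  obtain ⟨f, -, h⟩ := exists_fnOf hr
  refine ⟨r, f default, h.trans ?_⟩
  congr 1
  funext t
  rw [Subsingleton.elim t default]

/-- two vertices of `QInf Unit` are given by points of one `Om r` -/
theorem exists_vertex₂ (x y : (QInf Unit).obj 0) :
    ∃ (r : ℕ) (f g : T0.Om r), x.1 = (fnOf r fun _ => f) ∧ y.1 = fnOf r fun _ => g := by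
  obtain ⟨r, f, hf⟩ := exists_vertex x
  obtain ⟨s, g, hg⟩ := exists_vertex y
  have h1 : x.1 = fnOf (r + s) fun _ => stabN s f := by
    rw [hf, fnOf_stabN r s fun _ => f]
  have h2 : y.1 = fnOf (s + r) fun _ => stabN r g := by
    rw [hg, fnOf_stabN s r fun _ => g]
  have h3 : ∀ (n m : ℕ) (h : n = m) (g : T0.Om n),
      ∃ g' : T0.Om m, (fnOf n fun _ => g : Fn Unit (Dl 0)) = fnOf m fun _ => g' := by
    rintro n _ rfl g
    exact ⟨g, rfl⟩
  obtain ⟨g', hg'⟩ := h3 (s + r) (r + s) (Nat.add_comm s r) (stabN r g)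
  exact ⟨r + s, stabN s f, g', h1, h2.trans hg'⟩

/-- **Edges.** Two vertices of `QInf Unit` given by points of the same degree are joined by an
edge. -/
theorem exists_edge_of_degOm {r : ℕ} {f g : T0.Om r} (h : degOm f = degOm g)
    {x y : (QInf Unit).obj 0} (hx : x.1 = fnOf r fun _ => f) (hy : y.1 = fnOf r fun _ => g) :
    ∃ w : (QInf Unit).obj 1,
      (QInf Unit).map (dl 0 0) w = x ∧ (QInf Unit).map (dl 0 1) w = y := by
  obtain ⟨s, ⟨γ⟩⟩ := exists_joined_of_degOm g f h.symm
  refine ⟨⟨fnOf (r + s) (edgeOf γ), r + s, isSt_fnOf _ (edgeOf γ).continuous⟩, ?_, ?_⟩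
  · apply Subtype.ext
    have h1 : (fnOf (r + s) fun t : Dl 0 => edgeOf γ (dmap (dl 0 0) t)) =
        fnOf (r + s) fun _ => stabN s f := by
      congr 1
      funext t
      exact edgeOf_dl_zero γ t
    exact h1.trans ((fnOf_stabN r s fun _ => f).trans hx.symm)
  · apply Subtype.ext
    have h1 : (fnOf (r + s) fun t : Dl 0 => edgeOf γ (dmap (dl 0 1) t)) =
        fnOf (r + s) fun _ => stabN s g := by
      congr 1
      funext t
      exact edgeOf_dl_one γ t
    exact h1.trans ((fnOf_stabN r s fun _ => g).trans hy.symm)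

end Vale.Agent.P263.G2
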