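import Vale.Agent.P263.G2.QMul
import Vale.Agent.P263.G2.AlFn
import Vale.Agent.P263.G2.BoxEdge
import Vale.Agent.P263.G2.CollDeg
import Vale.Agent.P263.G2.Hopf

/-!
# P263, G2: the degree of the stable families of loops

* `RepP r f φ` : the partial map `f` of `ℝ^ℕ` is given by `φ : Ωʳ Sʳ` in the first `r` coordinates;
* `degP f : ℤ` : the degree; `RepP.degP_eq`, `degP_const`, `degP_union`, `degP_bxm`,
  `degP_bind_bxm`;
* `degQ : (QInf Unit).obj p → ℤ`, `degQ_map`, `degQ_emp`, `degQ_mul`, `degQ_id`, `degQ_al`, `connQ`.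
-/

open Topology Vale.Agent.P251.G Vale.Agent.P263.TOP
open scoped OnePoint
open Vale.Agent.P263.S Vale.Agent.P263.E

namespace Vale.Agent.P263.G2

/-- the partial map `f` is given by `φ` in the first `r` coordinates, and it is the identity in
the other coordinates -/
def RepP (r : ℕ) (f : (ℕ → ℝ) → Option (ℕ → ℝ)) (φ : T0.Om r) : Prop :=
  ∀ x, f x = ex r x (φ.1 (rs r x : OnePoint (Fin r → ℝ)))

theorem RepP.unique {r : ℕ} {f : (ℕ → ℝ) → Option (ℕ → ℝ)} {φ ψ : T0.Om r} (h : RepP r f φ)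
    (h' : RepP r f ψ) : φ = ψ := by
  refine Subtype.ext (ContinuousMap.ext fun z => ?_)
  induction z using OnePoint.rec with
  | infty => exact φ.2.trans ψ.2.symm
  | coe y =>
    have h1 := (h (rep r 0 y)).symm.trans (h' (rep r 0 y))
    rw [rs_rep] at h1
    exact ex_injective _ _ h1

theorem ex_succ (r : ℕ) (x : ℕ → ℝ) (z : OnePoint (Fin r → ℝ)) :
    ex (r + 1) x (T0.toSmash r (z, (x r : OnePoint ℝ))) = ex r x z := by
  induction z using OnePoint.rec with
  | infty => rfl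
  | coe y =>
    rw [T0.toSmash_coe, ex_coe, ex_coe]
    congr 1
    funext i
    rcases lt_trichotomy i r with h | h | h
    · rw [rep_of_lt h, rep_of_lt (h.trans (Nat.lt_succ_self r))]
      have : (⟨i, h.trans (Nat.lt_succ_self r)⟩ : Fin (r + 1)) = Fin.castSucc ⟨i, h⟩ := rfl
      rw [this, Fin.snoc_castSucc]
    · subst h
      rw [rep_of_le le_rfl, rep_of_lt (Nat.lt_succ_self i)]
      have : (⟨i, Nat.lt_succ_self i⟩ : Fin (i + 1)) = Fin.last i := rfl
      rw [this, Fin.snoc_last]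
    · rw [rep_of_le h.le, rep_of_le h]

theorem rs_succ (r : ℕ) (x : ℕ → ℝ) :
    ((rs (r + 1) x : Fin (r + 1) → ℝ) : OnePoint (Fin (r + 1) → ℝ)) =
      T0.toSmash r ((rs r x : Fin r → ℝ), (x r : OnePoint ℝ)) := by
  rw [T0.toSmash_coe]
  congr 1
  funext i
  refine Fin.lastCases ?_ (fun j => ?_) i
  · rw [Fin.snoc_last]; rfl
  · rw [Fin.snoc_castSucc]; rfl

theorem RepP.succ {r : ℕ} {f : (ℕ → ℝ) → Option (ℕ → ℝ)} {φ : T0.Om r} (h : RepP r f φ) :
    RepP (r + 1) f (T0.stab r φ) := by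
  intro x
  have h1 : (T0.stab r φ).1 (T0.toSmash r ((rs r x : Fin r → ℝ), (x r : OnePoint ℝ))) =
      T0.toSmash r (φ.1 (rs r x : OnePoint (Fin r → ℝ)), (x r : OnePoint ℝ)) :=
    T0.stabFun_toSmash φ.1 φ.2 ((rs r x : Fin r → ℝ), (x r : OnePoint ℝ))
  rw [rs_succ, h1, ex_succ]
  exact h x

theorem RepP.mono {r s : ℕ} (hrs : r ≤ s) {f : (ℕ → ℝ) → Option (ℕ → ℝ)} {φ : T0.Om r}
    (h : RepP r f φ) : ∃ ψ : T0.Om s, RepP s f ψ ∧ degOm ψ = degOm φ := by
  induction s, hrs using Nat.le_induction with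
  | base => exact ⟨φ, h, rfl⟩
  | succ s _ ih =>
    obtain ⟨ψ, h1, h2⟩ := ih
    exact ⟨T0.stab s ψ, h1.succ, (degOm_stab ψ).trans h2⟩

open scoped Classical in
/-- the degree of a partial map of `ℝ^ℕ` of a finite stage (`0` otherwise) -/
noncomputable def degP (f : (ℕ → ℝ) → Option (ℕ → ℝ)) : ℤ :=
  if h : ∃ (r : ℕ) (φ : T0.Om r), RepP r f φ then degOm h.choose_spec.choose else 0

theorem RepP.degP_eq {r : ℕ} {f : (ℕ → ℝ) → Option (ℕ → ℝ)} {φ : T0.Om r} (h : RepP r f φ) :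
    degP f = degOm φ := by
  have h1 : ∃ (r : ℕ) (φ : T0.Om r), RepP r f φ := ⟨r, φ, h⟩
  rw [degP, dif_pos h1]
  obtain ⟨ψ, h2, h3⟩ := h.mono (le_max_left r h1.choose)
  obtain ⟨ψ', h4, h5⟩ := h1.choose_spec.choose_spec.mono (le_max_right r h1.choose)
  rw [← h3, ← h5, h2.unique h4]

theorem repP_none (r : ℕ) : RepP r (fun _ => none) (T0.Om.const r) := fun _ => rfl

theorem repP_some (r : ℕ) : RepP r some (omId r) := fun x => by
  show some x = ex r x (rs r x : OnePoint (Fin r → ℝ))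
  rw [ex_coe, rep_rs]

theorem degP_none : degP (fun _ => none) = 0 := by
  rw [(repP_none 0).degP_eq, degOm_const]

theorem degP_some : degP some = 1 := by
  rw [(repP_some 0).degP_eq, degOm_id]

theorem repP_bxm {r : ℕ} {b : Bx} (hb : Bx.St r b) : RepP r (bxm b) (collBx r b) :=
  fun x => bxm_eq_ex hb x

theorem degP_bxm {r : ℕ} {b : Bx} (hb : Bx.St r b) : degP (bxm b) = 1 := by
  rw [(repP_bxm hb).degP_eq, degOm_collBx]

section families

variable {T : Type} [TopologicalSpace T]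

/-- the families of partial maps of stage `r` are the maps to `Om r` -/
theorem IsPM.exists_rep {r : ℕ} {f : PM T} (hf : IsPM r f) :
    ∃ Φ : C(T, T0.Om r), ∀ t, RepP r (f t) (Φ t) := by
  obtain ⟨φ, h1, h2⟩ := hf
  refine ⟨⟨fun t => ⟨⟨fun z => φ (t, z), by fun_prop⟩, h1 t⟩, ?_⟩, fun t x => h2 t x⟩
  exact continuous_bmap_of_uncurry (X := Fin r → ℝ) (Y := Fin r → ℝ) φ.continuous

theorem isPM_of_rep {r : ℕ} {f : PM T} (Φ : C(T, T0.Om r)) (h : ∀ t, RepP r (f t) (Φ t)) :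
    IsPM r f :=
  ⟨⟨fun p => (Φ p.1).1 p.2, continuous_bmap_uncurry (X := Fin r → ℝ) (Y := Fin r → ℝ)
    Φ.continuous⟩, fun t => (Φ t).2, fun t x => h t x⟩

/-- the degree is locally constant -/
theorem isLocallyConstant_degP {r : ℕ} {f : PM T} (hf : IsPM r f) :
    IsLocallyConstant fun t => degP (f t) := by
  obtain ⟨Φ, h⟩ := hf.exists_rep
  have h1 : (fun t => degP (f t)) = fun t => degOm (Φ t) := funext fun t => (h t).degP_eq
  rw [h1]
  exact isLocallyConstant_degOm.comp_continuous Φ.continuous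

theorem degP_const [PreconnectedSpace T] {r : ℕ} {f : PM T} (hf : IsPM r f) (t t' : T) :
    degP (f t) = degP (f t') :=
  (isLocallyConstant_degP hf).apply_eq_of_preconnectedSpace t t'

end families

/-- a single partial map of stage `r` -/
theorem IsPM.rep_unit {r : ℕ} {f : (ℕ → ℝ) → Option (ℕ → ℝ)} (hf : IsPM (T := Unit) r fun _ => f) :
    ∃ φ : T0.Om r, RepP r f φ := by
  obtain ⟨Φ, h⟩ := hf.exists_rep
  exact ⟨Φ (), h ()⟩

/-- **Additivity.** -/
theorem degP_union {r : ℕ} {ι : Type*} (s : Finset ι) (f : ι → (ℕ → ℝ) → Option (ℕ → ℝ))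
    (F : (ℕ → ℝ) → Option (ℕ → ℝ)) (hf : ∀ i ∈ s, ∃ φ : T0.Om r, RepP r (f i) φ)
    (hd : ∀ i ∈ s, ∀ j ∈ s, i ≠ j → ∀ x, f i x = none ∨ f j x = none)
    (hF : ∀ x y, F x = some y ↔ ∃ i ∈ s, f i x = some y) : degP F = ∑ i ∈ s, degP (f i) := by
  classical
  have hch : ∀ i, ∃ φ : T0.Om r, i ∈ s → RepP r (f i) φ := by
    intro i
    by_cases hi : i ∈ s
    · obtain ⟨φ, h⟩ := hf i hi
      exact ⟨φ, fun _ => h⟩
    · exact ⟨T0.Om.const r, fun h => absurd h hi⟩
  choose φ hφ using hch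
  have hd' : ∀ i ∈ s, ∀ j ∈ s, i ≠ j → ∀ z, (φ i).1 z = ∞ ∨ (φ j).1 z = ∞ := by
    intro i hi j hj hij z
    induction z using OnePoint.rec with
    | infty => exact Or.inl (φ i).2
    | coe y =>
      have h1 := hd i hi j hj hij (rep r 0 y)
      rw [hφ i hi, hφ j hj, rs_rep] at h1
      rcases h1 with h1 | h1
      · left
        by_contra h2
        obtain ⟨u, hu⟩ := OnePoint.ne_infty_iff_exists.1 h2
        rw [← hu, ex_coe] at h1
        exact absurd h1 (by simp)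
      · right
        by_contra h2
        obtain ⟨u, hu⟩ := OnePoint.ne_infty_iff_exists.1 h2
        rw [← hu, ex_coe] at h1
        exact absurd h1 (by simp)
  have hrep : RepP r F (joinM (X := Fin r → ℝ) (Y := Fin r → ℝ) s φ hd') := by
    intro x
    show F x = ex r x (join ((fun i => (φ i).1 (rs r x : OnePoint (Fin r → ℝ))) '' (s : Set ι)))
    have hsub : Sub ((fun i => (φ i).1 (rs r x : OnePoint (Fin r → ℝ))) '' (s : Set ι)) := by
      rintro _ ⟨i, hi, rfl⟩ _ ⟨j, hj, rfl⟩ h1 h2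
      by_contra h3
      have h4 : i ≠ j := fun h => h3 (by rw [h])
      rcases hd' i hi j hj h4 (rs r x : OnePoint (Fin r → ℝ)) with h5 | h5
      · exact h1 h5
      · exact h2 h5
    by_cases h : ∀ z ∈ (fun i => (φ i).1 (rs r x : OnePoint (Fin r → ℝ))) '' (s : Set ι), z = ∞
    · rw [join_of_forall h, ex_infty]
      by_contra hne
      obtain ⟨y, hy⟩ := Option.ne_none_iff_exists'.1 hne
      obtain ⟨i, hi, hi'⟩ := (hF _ _).1 hy
      have h4 := h _ ⟨i, hi, rfl⟩
      simp only at h4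
      rw [hφ i hi, h4] at hi'
      exact absurd hi' (by simp)
    · push Not at h
      obtain ⟨_, ⟨i, hi, rfl⟩, h3⟩ := h
      rw [join_of_mem hsub ⟨i, hi, rfl⟩ h3]
      obtain ⟨y, hy⟩ := OnePoint.ne_infty_iff_exists.1 h3
      simp only at hy ⊢
      rw [← hy, ex_coe]
      exact (hF _ _).2 ⟨i, hi, by rw [hφ i hi, ← hy, ex_coe]⟩
  rw [hrep.degP_eq, Finset.sum_congr rfl fun i hi => (hφ i hi).degP_eq]
  exact degB_joinM (E := Fin r → ℝ) s φ hd'

/-- Rescaling the source does not change the degree. -/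
theorem degP_bind_bxm {r : ℕ} {b : Bx} (hb : Bx.St r b) {f : (ℕ → ℝ) → Option (ℕ → ℝ)}
    (hf : ∃ φ : T0.Om r, RepP r f φ) : degP (fun x => (bxm b x).bind f) = degP f := by
  obtain ⟨φ, hφ⟩ := hf
  have h1 : IsPM (T := unitInterval) r fun t x => bxm (fun i => Iv.mix t (b i) Iv.full) x := by
    refine isPM_bxm ⟨fun t i => Iv.mix t (b i) Iv.full, ?_⟩ fun t i hi => ?_
    · exact continuous_pi fun i => Continuous.ivMix continuous_id continuous_const continuous_const
    · show Iv.mix t (b i) Iv.full = Iv.full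
      rw [hb i hi, Iv.mix_self]
  have h2 : IsPM (T := unitInterval) r fun _ => f :=
    isPM_of_rep (ContinuousMap.const _ φ) fun _ => hφ
  have h3 := degP_const (h1.comp h2) 0 1
  have h4 : (fun i => Iv.mix 0 (b i) Iv.full) = b := funext fun i => Iv.mix_zero _ _
  have h5 : (fun i => Iv.mix 1 (b i) Iv.full) = fun _ => Iv.full := funext fun i => Iv.mix_one _ _
  simp only [h4, h5] at h3
  rw [h3]
  congr 1
  funext x
  rw [bxm_full, Option.bind_some]

/-! ### The degree on `QInf Unit` -/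

/-- the label is always `()` -/
theorem cmp_unit_eq {T : Type} (g : Fn Unit T) (t : T) (x : ℕ → ℝ) :
    Fn.cmp () g t x = (g t x).map Prod.snd := by
  apply Option.ext
  intro y
  rw [Fn.cmp_eq_some, Option.map_eq_some_iff]
  constructor
  · intro h; exact ⟨((), y), h, rfl⟩
  · rintro ⟨⟨k, y'⟩, h, rfl⟩; exact h

/-- the degree of a stable family of loops over a simplex -/
noncomputable def degQ {p : ℕ} (g : (QInf Unit).obj p) : ℤ :=
  degP (Fn.cmp () g.1 (Classical.arbitrary (Dl p)))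

/-- the degree can be computed at any point -/
theorem degQ_eq {p : ℕ} (g : (QInf Unit).obj p) (t : Dl p) :
    degP (Fn.cmp () g.1 t) = degQ g := by
  obtain ⟨r, hr⟩ := g.2
  exact degP_const (hr ()) t _

theorem degQ_map {p q : ℕ} (θ : Op p q) (x : (QInf Unit).obj q) :
    degQ ((QInf Unit).map θ x) = degQ x :=
  degQ_eq x (dmap θ (Classical.arbitrary (Dl p)))

theorem degQ_emp {p : ℕ} (x : (QInf Unit).obj p) (h : x.1 = Fn.emp) : degQ x = 0 := by
  rw [degQ, h]
  have h1 : Fn.cmp () (Fn.emp : Fn Unit (Dl p)) (Classical.arbitrary (Dl p)) =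
      fun _ => none := by
    funext v
    rw [cmp_unit_eq]
    rfl
  rw [h1, degP_none]

theorem degQ_id {p : ℕ} (x : (QInf Unit).obj p) (h : x.1 = fun _ v => some ((), v)) :
    degQ x = 1 := by
  rw [degQ, h]
  have h1 : Fn.cmp () (fun (_ : Dl p) v => some ((), v)) (Classical.arbitrary (Dl p)) =
      fun v => some v := by
    funext v
    rw [cmp_unit_eq]
    rfl
  rw [h1]
  exact degP_some

/-- **The degree of a product.** -/
theorem degQ_mul {p : ℕ} (x y z : (QInf Unit).obj p) (h : z.1 = Fn.mul x.1 y.1) :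
    degQ z = degQ x + degQ y := by
  obtain ⟨r, hr⟩ := x.2
  obtain ⟨s, hs⟩ := y.2
  let t : Dl p := Classical.arbitrary (Dl p)
  let R := max r s + 1
  obtain ⟨Φ, hΦ⟩ := ((hr.mono (show r ≤ R by omega)) ()).exists_rep
  obtain ⟨Ψ, hΨ⟩ := ((hs.mono (show s ≤ R by omega)) ()).exists_rep
  have hxy : ∀ b : Bool, ∃ φ : T0.Om R, RepP R (Fn.cmp () (Fn.two x.1 y.1 b) t) φ := by
    intro b
    cases b
    · exact ⟨Φ t, hΦ t⟩
    · exact ⟨Ψ t, hΨ t⟩
  have hst : ∀ b : Bool, Bx.St R (bxc 0 (Iv.half b)) := fun b => st_bxc (by omega) _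
  have hrep : ∀ b ∈ (Finset.univ : Finset Bool), ∃ φ : T0.Om R,
      RepP R (fun v => (bxm (bxc 0 (Iv.half b)) v).bind (Fn.cmp () (Fn.two x.1 y.1 b) t)) φ := by
    intro b _
    obtain ⟨φ, hφ⟩ := hxy b
    have h1 : IsPM (T := Unit) R fun _ v => bxm (bxc 0 (Iv.half b)) v :=
      isPM_bxm (ContinuousMap.const Unit (bxc 0 (Iv.half b))) fun _ => hst b
    have h2 : IsPM (T := Unit) R fun _ => Fn.cmp () (Fn.two x.1 y.1 b) t :=
      isPM_of_rep (ContinuousMap.const _ φ) fun _ => hφ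
    exact (h1.comp h2).rep_unit
  have key := degP_union (r := R) (Finset.univ : Finset Bool)
    (fun b v => (bxm (bxc 0 (Iv.half b)) v).bind (Fn.cmp () (Fn.two x.1 y.1 b) t))
    (Fn.cmp () z.1 t) hrep (by
      intro b _ c _ hbc v
      by_contra hcon
      push Not at hcon
      obtain ⟨h1, h2⟩ := hcon
      obtain ⟨y1, h1⟩ := Option.ne_none_iff_exists'.1 h1
      obtain ⟨y2, h2⟩ := Option.ne_none_iff_exists'.1 h2
      obtain ⟨v1, h3, -⟩ := Option.bind_eq_some_iff.1 h1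
      obtain ⟨v2, h4, -⟩ := Option.bind_eq_some_iff.1 h2
      exact (Iv.half_dj hbc).not_rel (bxm_bxc_eq_some.1 h3).1 (bxm_bxc_eq_some.1 h4).1) (by
      intro v w
      rw [Fn.cmp_eq_some, h, Fn.mul_eq_some]
      simp only [Finset.mem_univ, true_and, Bool.exists_bool, Option.bind_eq_some_iff,
        Fn.cmp_eq_some, Iv.half_false, Iv.half_true, Fn.two_false, Fn.two_true])
  rw [← degQ_eq z t, ← degQ_eq x t, ← degQ_eq y t, key, Fintype.sum_bool,
    degP_bind_bxm (hst true) (hxy true), degP_bind_bxm (hst false) (hxy false)]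
  exact add_comm _ _

/-! ### Configurations of boxes -/

theorem collN_eq_bxm' (b : Bx) (x : ℕ → ℝ) : collN b x = bxm b x := by
  apply Option.ext
  intro y
  rw [bxm_eq_some, collN, tupO_eq_some]
  exact forall_congr' fun i => Iv.rho_eq_coe

/-- **The degree of the collapse of a configuration is the number of boxes.** -/
theorem degQ_al {p : ℕ} (x : (QInf Unit).obj p) (S : Conf Unit (Dl p)) (h : x.1 = al S) :
    degQ x = S.pts.card := by
  obtain ⟨r, hr⟩ := S.exists_isSt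
  let t : Dl p := Classical.arbitrary (Dl p)
  have key := degP_union (r := r) S.pts (fun q => bxm (q.1 t)) (Fn.cmp () x.1 t)
    (fun q hq => ⟨_, repP_bxm (hr q hq t)⟩) (by
      intro q hq q' hq' hqq v
      by_contra hcon
      push Not at hcon
      obtain ⟨h1, h2⟩ := hcon
      obtain ⟨y1, h1⟩ := Option.ne_none_iff_exists'.1 h1
      obtain ⟨y2, h2⟩ := Option.ne_none_iff_exists'.1 h2
      exact bxm_disj (S.disj q hq q' hq' hqq t) h1 h2) (by
      intro v w
      rw [Fn.cmp_eq_some, h, al_eq_some]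
      constructor
      · rintro ⟨c, hc, h1⟩
        exact ⟨(c, ()), hc, by rw [← collN_eq_bxm']; exact h1⟩
      · rintro ⟨⟨c, u⟩, hc, h1⟩
        exact ⟨c, hc, by rw [collN_eq_bxm']; exact h1⟩)
  rw [← degQ_eq x t, key, Finset.sum_congr rfl fun q hq => degP_bxm (hr q hq t)]
  simp

/-! ### Components -/

theorem RepP.stabN {r : ℕ} {f : (ℕ → ℝ) → Option (ℕ → ℝ)} {φ : T0.Om r} (h : RepP r f φ)
    (m : ℕ) : RepP (r + m) f (G2.stabN m φ) := by
  induction m with
  | zero => exact h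
  | succ m ih => exact ih.succ

/-- the family of loops over a simplex given by a map to `Om r` -/
noncomputable def qOf {p r : ℕ} (Φ : C(Dl p, T0.Om r)) : (QInf Unit).obj p :=
  ⟨fun t v => (ex r v ((Φ t).1 (rs r v : OnePoint (Fin r → ℝ)))).map fun u => ((), u), r, by
    intro k
    refine isPM_of_rep Φ fun t v => ?_
    apply Option.ext
    intro y
    rw [Fn.cmp_eq_some, Option.map_eq_some_iff]
    constructor
    · rintro ⟨u, h, h'⟩
      rw [h, (Prod.mk.inj h').2]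
    · intro h
      exact ⟨y, h, rfl⟩⟩

theorem qOf_val {p r : ℕ} (Φ : C(Dl p, T0.Om r)) (t : Dl p) (v : ℕ → ℝ) :
    (qOf Φ).1 t v = (ex r v ((Φ t).1 (rs r v : OnePoint (Fin r → ℝ)))).map fun u => ((), u) := rfl

theorem repP_qOf {p r : ℕ} (Φ : C(Dl p, T0.Om r)) (t : Dl p) :
    RepP r (Fn.cmp () (qOf Φ).1 t) (Φ t) := by
  intro v
  rw [cmp_unit_eq, qOf_val]
  generalize ex r v ((Φ t).1 (rs r v : OnePoint (Fin r → ℝ))) = o
  cases o <;> rfl

theorem degQ_qOf {p r : ℕ} (Φ : C(Dl p, T0.Om r)) (t : Dl p) : degQ (qOf Φ) = degOm (Φ t) := by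
  rw [← degQ_eq _ t, (repP_qOf Φ t).degP_eq]

/-- every simplex of `QInf Unit` is of this form -/
theorem exists_qOf {p : ℕ} (x : (QInf Unit).obj p) :
    ∃ (r : ℕ) (Φ : C(Dl p, T0.Om r)), qOf Φ = x := by
  obtain ⟨r, hr⟩ := x.2
  obtain ⟨Φ, hΦ⟩ := (hr ()).exists_rep
  refine ⟨r, Φ, Subtype.ext (funext fun t => funext fun v => ?_)⟩
  rw [qOf_val, ← hΦ t v, cmp_unit_eq]
  generalize x.1 t v = o
  cases o <;> rfl

/-- **Loops of the same degree are joined by an edge.** -/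
theorem connQ (x y : (QInf Unit).obj 0) (h : degQ x = degQ y) :
    ∃ w : (QInf Unit).obj 1, (QInf Unit).map (dl 0 0) w = x ∧ (QInf Unit).map (dl 0 1) w = y := by
  obtain ⟨r, hr⟩ := x.2
  obtain ⟨s, hs⟩ := y.2
  let t : Dl 0 := Classical.arbitrary (Dl 0)
  obtain ⟨Φ, hΦ⟩ := ((hr.mono (le_max_left r s)) ()).exists_rep
  obtain ⟨Ψ, hΨ⟩ := ((hs.mono (le_max_right r s)) ()).exists_rep
  have h1 : degOm (Φ t) = degOm (Ψ t) := by
    rw [← (hΦ t).degP_eq, ← (hΨ t).degP_eq, degQ_eq, degQ_eq, h]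
  obtain ⟨m, hm⟩ := exists_joined_of_degOm (Φ t) (Ψ t) h1
  obtain ⟨γ⟩ := hm.symm
  refine ⟨qOf (edgeOf γ), ?_, ?_⟩
  · refine Subtype.ext (funext fun u => funext fun v => ?_)
    obtain rfl : t = u := Subsingleton.elim _ _
    show (qOf (edgeOf γ)).1 (dmap (dl 0 0) t) v = x.1 t v
    rw [qOf_val, edgeOf_dl_zero, ← (hΦ t).stabN m v, cmp_unit_eq]
    generalize x.1 t v = o
    cases o <;> rfl
  · refine Subtype.ext (funext fun u => funext fun v => ?_)
    obtain rfl : t = u := Subsingleton.elim _ _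
    show (qOf (edgeOf γ)).1 (dmap (dl 0 1) t) v = y.1 t v
    rw [qOf_val, edgeOf_dl_one, ← (hΨ t).stabN m v, cmp_unit_eq]
    generalize y.1 t v = o
    cases o <;> rfl

end Vale.Agent.P263.G2
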