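import Vale.Agent.P263.G2.AlQ
import Vale.Agent.P263.G2.AlphaGam

/-!
# P263, block G2: the bridge between `Q` (unions of mapping spaces) and `QInf` (stable families)

* `extB r q : Fn K T` for `q : C(T, BMap ℝ^r (K × ℝ^r))` : the same maps in infinitely many
  coordinates; `extB_injective`, `extB_stB`, `isSt_extB`, `exists_extB`, `extB_alpha`, `extB_push`;
* `toQI K : SS.Map (FQ (Dsc K)) (QInf K)`, bijective in every degree (`toQI_bijective`), natural in
  the labels (`toQI_map`); `toQI_alpha` : the collapse corresponds to `al`;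
* `gamQI : Gam`, `toQIG : Gam.Hom Gam.Q gamQI`, `alG : Gam.Hom gamF gamQI`.
-/

open Topology Vale.Agent.P251.G Vale.Agent.P263.TOP
open Vale.Agent.P263.S Vale.Agent.P263.E Vale.Agent.P263.GB
open scoped OnePoint

set_option linter.unusedSectionVars false

namespace Vale.Agent.P263.G2

section ext

variable {K L : Type} {T T' : Type} [TopologicalSpace T] [TopologicalSpace T']

/-- copy the coordinates `i ≥ r` of `x`, with labels -/
def exK (r : ℕ) (x : ℕ → ℝ) (z : OnePoint (K × (Fin r → ℝ))) : Option (K × (ℕ → ℝ)) :=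
  z.elim none fun p => some (p.1, rep r x p.2)

@[simp] theorem exK_infty (r : ℕ) (x : ℕ → ℝ) :
    exK r x (∞ : OnePoint (K × (Fin r → ℝ))) = none := rfl

@[simp] theorem exK_coe (r : ℕ) (x : ℕ → ℝ) (p : K × (Fin r → ℝ)) :
    exK r x (p : OnePoint (K × (Fin r → ℝ))) = some (p.1, rep r x p.2) := rfl

theorem exK_eq_some {r : ℕ} {x : ℕ → ℝ} {z : OnePoint (K × (Fin r → ℝ))} {k : K} {w : ℕ → ℝ} :
    exK r x z = some (k, w) ↔
      ∃ y : Fin r → ℝ, z = (((k, y) : K × (Fin r → ℝ)) : OnePoint (K × (Fin r → ℝ))) ∧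
        rep r x y = w := by
  induction z using OnePoint.rec with
  | infty =>
    constructor
    · intro h; exact absurd h (by simp)
    · rintro ⟨y, h, -⟩; exact absurd h (OnePoint.infty_ne_coe _)
  | coe p =>
    obtain ⟨l, y⟩ := p
    rw [exK_coe]
    constructor
    · intro h
      have h1 := Option.some.inj h
      have h2 : l = k := congrArg Prod.fst h1
      have h3 : rep r x y = w := congrArg Prod.snd h1
      subst h2
      exact ⟨y, rfl, h3⟩
    · rintro ⟨y', h, rfl⟩
      have h1 := OnePoint.coe_injective h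
      have h2 : l = k := congrArg Prod.fst h1
      have h3 : y = y' := congrArg Prod.snd h1
      rw [h2, h3]

theorem exK_injective (r : ℕ) (x : ℕ → ℝ) :
    Function.Injective (exK (K := K) r x) := by
  intro z z' h
  induction z using OnePoint.rec with
  | infty =>
    induction z' using OnePoint.rec with
    | infty => rfl
    | coe y' => exact absurd h (by simp)
  | coe p =>
    have h' : exK r x z' = some (p.1, rep r x p.2) := h.symm
    obtain ⟨y', rfl, h2⟩ := exK_eq_some.1 h'
    rw [rep_injective r x h2]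

variable [TopologicalSpace K] [DiscreteTopology K] [Finite K]
  [TopologicalSpace L] [DiscreteTopology L] [Finite L]

/-- the same family of maps in infinitely many coordinates -/
def extB (r : ℕ) (q : C(T, BMap (Fin r → ℝ) (K × (Fin r → ℝ)))) : Fn K T :=
  fun t x => exK r x ((q t).1 (rs r x : OnePoint (Fin r → ℝ)))

theorem extB_eq_some {r : ℕ} {q : C(T, BMap (Fin r → ℝ) (K × (Fin r → ℝ)))} {t : T} {x : ℕ → ℝ}
    {k : K} {w : ℕ → ℝ} : extB r q t x = some (k, w) ↔
      ∃ y : Fin r → ℝ, (q t).1 (rs r x : OnePoint (Fin r → ℝ)) =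
        (((k, y) : K × (Fin r → ℝ)) : OnePoint (K × (Fin r → ℝ))) ∧ rep r x y = w := exK_eq_some

theorem extB_injective (r : ℕ) :
    Function.Injective (extB (K := K) (T := T) r) := by
  intro q q' h
  refine ContinuousMap.ext fun t => Subtype.ext (ContinuousMap.ext fun z => ?_)
  induction z using OnePoint.rec with
  | infty => rw [(q t).2, (q' t).2]
  | coe y =>
    have h1 := congrFun (congrFun h t) (rep r 0 y)
    have h2 := exK_injective r _ h1
    rwa [rs_rep] at h2

theorem extB_comp (r : ℕ) (q : C(T, BMap (Fin r → ℝ) (K × (Fin r → ℝ)))) (g : C(T', T)) :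
    extB r (q.comp g) = (extB r q).pull g := rfl

/-- stabilisation does not change the family -/
theorem extB_stage (r : ℕ) (q : C(T, BMap (Fin r → ℝ) (K × (Fin r → ℝ)))) :
    extB (r + 1) ((GB.stK K (snocH r) (snocH r)).comp q) = extB r q := by
  funext t x
  have h1 : (rs (r + 1) x : OnePoint (Fin (r + 1) → ℝ)) =
      opH (snocH r) (LC.smash (rs r x : OnePoint (Fin r → ℝ)) (x r : OnePoint ℝ)) := by
    rw [LC.smash_coe_coe, opH_coe, snocH_apply]
    congr 1
    exact (Fin.snoc_init_self (rs (r + 1) x)).symm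
  show exK (r + 1) x ((GB.stC (snocH r) (GB.kH K (snocH r)) (q t)).1
    (rs (r + 1) x : OnePoint (Fin (r + 1) → ℝ))) = exK r x ((q t).1 (rs r x : OnePoint _))
  rw [h1, GB.stC_smash]
  generalize (q t).1 (rs r x : OnePoint (Fin r → ℝ)) = z
  induction z using OnePoint.rec with
  | infty => rfl
  | coe p =>
    obtain ⟨k, y⟩ := p
    rw [LC.smash_coe_coe, opH_coe, exK_coe, exK_coe]
    show some (k, rep (r + 1) x (Fin.snoc y (x r) : Fin (r + 1) → ℝ)) = some (k, rep r x y)
    congr 2
    funext i
    rcases lt_trichotomy i r with h | h | h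
    · rw [rep_of_lt h, rep_of_lt (h.trans (Nat.lt_succ_self r))]
      have : (⟨i, h.trans (Nat.lt_succ_self r)⟩ : Fin (r + 1)) = Fin.castSucc ⟨i, h⟩ := rfl
      rw [this, Fin.snoc_castSucc]
    · subst h
      rw [rep_of_le le_rfl, rep_of_lt (Nat.lt_succ_self i)]
      have : (⟨i, Nat.lt_succ_self i⟩ : Fin (i + 1)) = Fin.last i := rfl
      rw [this, Fin.snoc_last]
    · rw [rep_of_le h.le, rep_of_le h]

/-- the family is of stage `r` -/
theorem isSt_extB (r : ℕ) (q : C(T, BMap (Fin r → ℝ) (K × (Fin r → ℝ)))) :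
    Fn.IsSt r (extB r q) := by
  intro k
  have hc : Continuous fun z : T × OnePoint (Fin r → ℝ) => prK k ((q z.1).1 z.2) := by
    refine (GB.continuous_prK k).comp ?_
    have h : Continuous fun z : T × OnePoint (Fin r → ℝ) =>
        ((q z.1).1 : C(OnePoint (Fin r → ℝ), OnePoint (K × (Fin r → ℝ)))) z.2 :=
      ((continuous_subtype_val.comp (q.continuous.comp continuous_fst))).eval continuous_snd
    exact h
  refine ⟨⟨_, hc⟩, fun t => ?_, fun t x => ?_⟩
  · show prK k ((q t).1 ∞) = ∞
    rw [(q t).2]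
    rfl
  · apply Option.ext
    intro w
    rw [Fn.cmp_eq_some, extB_eq_some, ex_eq_some]
    show (∃ y : Fin r → ℝ, _ ∧ _) ↔ ∃ y : Fin r → ℝ,
      prK k ((q t).1 (rs r x : OnePoint (Fin r → ℝ))) = y ∧ _
    generalize (q t).1 (rs r x : OnePoint (Fin r → ℝ)) = z
    refine exists_congr fun y => and_congr_left fun _ => ?_
    constructor
    · rintro rfl
      exact prK_self k y
    · intro h
      induction z using OnePoint.rec with
      | infty => exact absurd h (OnePoint.infty_ne_coe _)
      | coe p =>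
        obtain ⟨l, y'⟩ := p
        by_cases hl : l = k
        · subst hl
          rw [prK_self] at h
          rw [OnePoint.coe_injective h]
        · rw [prK_of_ne hl] at h
          exact absurd h (OnePoint.infty_ne_coe _)

/-- every family of stage `r` is of this form -/
theorem exists_extB {r : ℕ} {g : Fn K T} (hg : Fn.IsSt r g) :
    ∃ q : C(T, BMap (Fin r → ℝ) (K × (Fin r → ℝ))), extB r q = g := by
  classical
  have := Fintype.ofFinite K
  choose φ h1 h2 using hg
  have hval : ∀ k t x w, g t x = some (k, w) ↔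
      ∃ y : Fin r → ℝ, φ k (t, (rs r x : OnePoint (Fin r → ℝ))) = y ∧ rep r x y = w := by
    intro k t x w
    rw [← Fn.cmp_eq_some, h2, ex_eq_some]
  have hsub : ∀ z : T × OnePoint (Fin r → ℝ),
      Sub ((fun k => lab k (φ k z)) '' ((Finset.univ : Finset K) : Set K)) := by
    rintro ⟨t, z⟩ _ ⟨k, -, rfl⟩ _ ⟨l, -, rfl⟩ hk hl
    simp only at hk hl ⊢
    induction z using OnePoint.rec with
    | infty => exact absurd (lab_eq_infty.2 (h1 k t)) hk
    | coe y =>
      obtain ⟨u, hu⟩ := OnePoint.ne_infty_iff_exists.1 fun h => hk (lab_eq_infty.2 h)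
      obtain ⟨v, hv⟩ := OnePoint.ne_infty_iff_exists.1 fun h => hl (lab_eq_infty.2 h)
      have e1 : g t (rep r 0 y) = some (k, rep r (rep r 0 y) u) :=
        (hval _ _ _ _).2 ⟨u, by rw [rs_rep, hu], rfl⟩
      have e2 : g t (rep r 0 y) = some (l, rep r (rep r 0 y) v) :=
        (hval _ _ _ _).2 ⟨v, by rw [rs_rep, hv], rfl⟩
      rw [e1] at e2
      have h3 := Option.some.inj e2
      have h4 : k = l := congrArg Prod.fst h3
      subst h4
      rfl
  have hc := continuous_join (Z := T × OnePoint (Fin r → ℝ)) Finset.univ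
    (fun k z => lab k (φ k z)) (fun k _ => (continuous_lab k).comp (φ k).continuous) hsub
  let F : T → OnePoint (Fin r → ℝ) → OnePoint (K × (Fin r → ℝ)) := fun t z =>
    join ((fun k => lab k (φ k (t, z))) '' ((Finset.univ : Finset K) : Set K))
  have hF : Continuous fun p : T × OnePoint (Fin r → ℝ) => F p.1 p.2 := hc
  have hF0 : ∀ t, F t ∞ = ∞ := by
    intro t
    refine join_of_forall ?_
    rintro _ ⟨k, -, rfl⟩
    exact lab_eq_infty.2 (h1 k t)
  refine ⟨⟨fun t => ⟨⟨F t, hF.comp (Continuous.prodMk_right t)⟩, hF0 t⟩,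
    Continuous.subtype_mk (ContinuousMap.continuous_of_continuous_uncurry _ hF) _⟩, ?_⟩
  refine Fn.ext' fun t x k w => ?_
  rw [extB_eq_some, hval]
  show (∃ y : Fin r → ℝ, F t (rs r x : OnePoint (Fin r → ℝ)) = _ ∧ _) ↔ _
  refine exists_congr fun y => and_congr_left fun _ => ?_
  constructor
  · intro h
    have hne : F t (rs r x : OnePoint (Fin r → ℝ)) ≠ ∞ := by
      rw [h]; exact OnePoint.coe_ne_infty _
    have hex : ∃ l, lab l (φ l (t, (rs r x : OnePoint (Fin r → ℝ)))) ≠ ∞ := by
      by_contra hall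
      push Not at hall
      refine hne (join_of_forall ?_)
      rintro _ ⟨l, -, rfl⟩
      exact hall l
    obtain ⟨l, hl⟩ := hex
    have h3 : F t (rs r x : OnePoint (Fin r → ℝ)) =
        lab l (φ l (t, (rs r x : OnePoint (Fin r → ℝ)))) :=
      join_of_mem (hsub _) ⟨l, Finset.mem_coe.2 (Finset.mem_univ l), rfl⟩ hl
    rw [h] at h3
    obtain ⟨u, hu⟩ := OnePoint.ne_infty_iff_exists.1 fun h => hl (lab_eq_infty.2 h)
    rw [← hu, lab_coe] at h3
    have h4 := OnePoint.coe_injective h3
    have h5 : k = l := congrArg Prod.fst h4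
    have h6 : y = u := congrArg Prod.snd h4
    subst h5
    rw [← hu, h6]
  · intro h
    have h3 : F t (rs r x : OnePoint (Fin r → ℝ)) =
        lab k (φ k (t, (rs r x : OnePoint (Fin r → ℝ)))) :=
      join_of_mem (hsub _) ⟨k, Finset.mem_coe.2 (Finset.mem_univ k), rfl⟩
        (by rw [h, lab_coe]; exact OnePoint.coe_ne_infty _)
    rw [h3, h, lab_coe]

/-- relabelling -/
theorem extB_push (r : ℕ) (f : K → Option L) (q : C(T, BMap (Fin r → ℝ) (K × (Fin r → ℝ)))) :
    extB r ((GB.push f).comp q) = Fn.push f (extB r q) := by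
  refine Fn.ext' fun t x l w => ?_
  rw [extB_eq_some, Fn.push_eq_some]
  simp only [extB_eq_some]
  show (∃ y : Fin r → ℝ, GB.pushPt f ((q t).1 (rs r x : OnePoint (Fin r → ℝ))) = _ ∧ _) ↔ _
  generalize (q t).1 (rs r x : OnePoint (Fin r → ℝ)) = z
  induction z using OnePoint.rec with
  | infty =>
    constructor
    · rintro ⟨y, h, -⟩
      exact absurd h (OnePoint.infty_ne_coe _)
    · rintro ⟨k, ⟨y, h, -⟩, -⟩
      exact absurd h (OnePoint.infty_ne_coe _)
  | coe p =>
    obtain ⟨k, y⟩ := p
    rw [GB.pushPt_coe]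
    constructor
    · rintro ⟨y', h, h'⟩
      rcases hf : f k with _ | l'
      · rw [hf] at h
        exact absurd h (OnePoint.infty_ne_coe _)
      · rw [hf] at h
        have h1 := OnePoint.coe_injective h
        have h2 : l' = l := congrArg Prod.fst h1
        have h3 : y = y' := congrArg Prod.snd h1
        subst h2
        subst h3
        exact ⟨k, ⟨y, rfl, h'⟩, hf⟩
    · rintro ⟨k', ⟨y', h, h'⟩, hf⟩
      have h1 := OnePoint.coe_injective h
      have h2 : k = k' := congrArg Prod.fst h1
      have h3 : y = y' := congrArg Prod.snd h1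
      subst h2
      subst h3
      exact ⟨y, by rw [hf]; rfl, h'⟩

/-- the collapse -/
theorem extB_alpha (r : ℕ) (S : Conf K T) (hS : S.IsSt r) : extB r (alpha r S hS) = al S := by
  funext t x
  rw [al_eq_extN hS]
  show exK r x (alphaFun r S t (rs r x : OnePoint (Fin r → ℝ))) =
    extN r (alphaFun r S t) x
  unfold extN
  show _ = (show Option (K × (Fin r → ℝ)) from
    alphaFun r S t (rs r x : OnePoint (Fin r → ℝ))).map fun p => (p.1, mergeN r p.2 x)
  generalize alphaFun r S t (rs r x : OnePoint (Fin r → ℝ)) = z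
  cases z <;> rfl

end ext

/-! ### The map of simplicial sets -/

section ss

variable (K : Type) [Finite K]

/-- one stage -/
noncomputable def toQIr (r : ℕ) : SS.Map (sing (QS (Dsc K) r)) (QInf K) where
  app σ := ⟨extB (K := Dsc K) r (toC σ), r, isSt_extB (K := Dsc K) r (toC σ)⟩
  nat _ _ := rfl

theorem toQIr_val {r p : ℕ} (σ : (sing (QS (Dsc K) r)).obj p) :
    ((toQIr K r).app σ).1 = extB (K := Dsc K) r (toC σ) := rfl

theorem toQIr_stB (r : ℕ) : (toQIr K (r + 1)).comp (singMap (stB (Dsc K) r)) = toQIr K r := by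
  apply SS.Map.ext
  intro p σ
  exact Subtype.ext (extB_stage (K := Dsc K) r (toC σ))

/-- **the bridge** -/
noncomputable def toQI : SS.Map (FQ (Dsc K)) (QInf K) :=
  (QSeq (Dsc K)).desc (toQIr K) (toQIr_stB K)

theorem toQI_inc (r : ℕ) : (toQI K).comp (FQ.inc (Dsc K) r) = toQIr K r :=
  Seq.desc_inc _ _ _

theorem toQI_inc_app {r p : ℕ} (σ : (sing (QS (Dsc K) r)).obj p) :
    (toQI K).app ((FQ.inc (Dsc K) r).app σ) = (toQIr K r).app σ :=
  congrArg (fun f : SS.Map (sing (QS (Dsc K) r)) (QInf K) => f.app σ) (toQI_inc K r)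

theorem toQIr_injective (r p : ℕ) : Function.Injective ((toQIr K r).app (p := p)) := by
  intro σ τ h
  exact extB_injective (K := Dsc K) r (congrArg Subtype.val h)

theorem exists_toQIr {p : ℕ} (x : (QInf K).obj p) : ∃ r σ, (toQIr K r).app σ = x := by
  obtain ⟨g, r, hg⟩ := x
  obtain ⟨q, hq⟩ := exists_extB (K := Dsc K) hg
  exact ⟨r, ofC q, Subtype.ext hq⟩

/-- **The bridge is bijective in every degree.** -/
theorem toQI_bijective (p : ℕ) : Function.Bijective ((toQI K).app (p := p)) := by
  constructor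
  · intro x y h
    obtain ⟨r, σ, rfl⟩ := FQ.exists_inc x
    obtain ⟨s, τ, rfl⟩ := FQ.exists_inc y
    have key : ∀ (r s : ℕ) (σ : (sing (QS (Dsc K) r)).obj p) (τ : (sing (QS (Dsc K) s)).obj p),
        r ≤ s → (toQI K).app ((FQ.inc (Dsc K) r).app σ) = (toQI K).app ((FQ.inc (Dsc K) s).app τ) →
          (FQ.inc (Dsc K) r).app σ = (FQ.inc (Dsc K) s).app τ := by
      intro r s σ τ hrs h
      have h1 : (FQ.inc (Dsc K) r).app σ =
          (FQ.inc (Dsc K) s).app (((QSeq (Dsc K)).up hrs).app σ) :=
        (congrArg (fun f : SS.Map (sing (QS (Dsc K) r)) (FQ (Dsc K)) => f.app σ)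
          ((QSeq (Dsc K)).inc_up hrs)).symm
      have h2 : (toQIr K s).app (show (sing (QS (Dsc K) s)).obj p from
          ((QSeq (Dsc K)).up hrs).app σ) = (toQIr K s).app τ := by
        refine (toQI_inc_app K _).symm.trans (Eq.trans ?_ (toQI_inc_app K τ))
        exact (congrArg (toQI K).app h1).symm.trans h
      exact h1.trans (congrArg (FQ.inc (Dsc K) s).app (toQIr_injective K s p h2))
    rcases le_total r s with hrs | hrs
    · exact key r s σ τ hrs h
    · exact (key s r τ σ hrs h.symm).symm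
  · intro x
    obtain ⟨r, σ, rfl⟩ := exists_toQIr K x
    exact ⟨(FQ.inc (Dsc K) r).app σ, toQI_inc_app K σ⟩

variable {K} {L : Type} [Finite L]

/-- naturality in the labels -/
theorem toQI_map (f : K → Option L) :
    (toQI L).comp (FQ.map (lbl f)) = (QInf.push f).comp (toQI K) := by
  refine FQ.hom_ext fun r => ?_
  apply SS.Map.ext
  intro p σ
  show (toQI L).app ((FQ.inc (Dsc L) r).app ((singMap (pushB r (lbl f))).app σ)) =
    (QInf.push f).app ((toQI K).app ((FQ.inc (Dsc K) r).app σ))
  rw [toQI_inc_app, toQI_inc_app]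
  refine Subtype.ext ?_
  show extB (K := Dsc L) r ((pushB r (lbl f)).comp (toC σ)) =
    Fn.push f (extB (K := Dsc K) r (toC σ))
  refine Eq.trans (congrArg (extB (K := Dsc L) r) ?_)
    (extB_push (K := Dsc K) (L := Dsc L) r f (toC σ))
  exact ContinuousMap.ext fun t => pushB_lbl r f _

/-- the collapse -/
noncomputable def alI (K : Type) : SS.Map (F K) (QInf K) where
  app S := ⟨al S, S.stage.imp fun _ h => isSt_al h⟩
  nat θ S := Subtype.ext (al_pull_eq S (dmap θ))

theorem alI_val {p : ℕ} (S : (F K).obj p) : ((alI K).app S).1 = al S := rfl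

/-- **The collapse through the bridge.** -/
theorem toQI_alpha (K : Type) [Finite K] : (toQI K).comp (alphaFQ K) = alI K := by
  apply SS.Map.ext
  intro p S
  obtain ⟨r, hr⟩ := S.stage
  show (toQI K).app ((alphaFQ K).app S) = _
  rw [alphaFQ_apply K S hr, toQI_inc_app]
  exact Subtype.ext (extB_alpha (K := Dsc K) r S hr)

end ss

/-- the functor `K₊ ↦ QInf K` -/
noncomputable def gamQI : Gam where
  obj K := QInf K
  map f := QInf.push f
  map_some x := Subtype.ext (Fn.push_some x.1)
  map_bind f g _ x := Subtype.ext (Fn.push_push f g x.1).symm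

/-- the bridge as a morphism of functors on finite pointed sets -/
noncomputable def toQIG : Gam.Hom Gam.Q gamQI :=
  ⟨fun K => toQI K, fun f _ x => congrArg (fun g : SS.Map _ _ => g.app x) (toQI_map f)⟩

/-- the collapse as a morphism of functors on finite pointed sets -/
noncomputable def alG : Gam.Hom gamF gamQI :=
  ⟨fun K => alI K, fun f _ S => Subtype.ext (al_push S f)⟩

theorem toQIG_alphaG (K : Type) [Finite K] :
    (toQIG.app K).comp (alphaG.app K) = alG.app K := toQI_alpha K

end Vale.Agent.P263.G2
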