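import Vale.Agent.P263.G2.MixDeg
import Vale.Agent.P263.GB.MixInv

/-!
# P263, block G2-7: the instance of `MixG`

`mixGOf h : MixG` : the simplicial sets `MixSS K L`, given the splitting theorem `h`;
`mixInvOf h` : the further structure of `MixG.Inv`.
-/

namespace Vale.Agent.P263.G2

open Vale.Agent.P263.S Vale.Agent.P263.E Vale.Agent.P263.GB

/-- the statement of the splitting theorem -/
def SplitStmt : Prop :=
  ∀ (R : Type) [CommRing R] (K₁ K₂ L₁ L₂ : Type) [Finite K₁] [Finite K₂] [Finite L₁]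
    [Finite L₂] (n : ℕ),
    RZ0 (freeMap R (SS.pair
      (MixSS.map (K := K₁ ⊕ K₂) (L := L₁ ⊕ L₂) (K' := K₁) (L' := L₁) (Sum.elim some (fun _ => none))
        (Sum.elim (fun l => some (Sum.inr l)) (fun _ => none)))
      (MixSS.map (K := K₁ ⊕ K₂) (L := L₁ ⊕ L₂) (K' := K₂) (L' := L₂) (Sum.elim (fun _ => none) some)
        (Sum.elim (fun _ => none) (fun l => some (Sum.inr l)))))).cx n

/-- the simplicial sets `MixSS K L` with all their structure -/
noncomputable def mixGOf (h : SplitStmt) : MixG where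
  obj K L := MixSS K L
  map f g := MixSS.map f g
  map_id x := Mix.map_id x
  map_comp f g f' g' _ x := Mix.map_map f g f' g' x
  emp K L _ _ p := MixSS.emp K L p
  emp_map K L _ _ _ _ α := MixSS.emp_map K L α
  map_emp f g p := MixSS.map_emp f g p
  eq_emp x := MixSS.eq_emp_of_isEmpty x
  mul K L := MixSS.mul K L
  map_mul f g _ x y := MixSS.map_mul f g x y
  hR K L := MixSS.hR K L
  hR_c0 K L _ _ _ x := MixSS.hR_c0 K L x
  hR_c1 K L _ _ _ x := MixSS.hR_c1 K L x
  map_hR f g _ θ x := MixSS.map_hR f g θ x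
  hL K L := MixSS.hL K L
  hL_c0 K L _ _ _ x := MixSS.hL_c0 K L x
  hL_c1 K L _ _ _ x := MixSS.hL_c1 K L x
  map_hL f g _ θ x := MixSS.map_hL f g θ x
  box p := MixSS.box p
  box_map α := MixSS.box_map α
  deg x := MixSS.deg x
  deg_map α x := MixSS.deg_map α x
  deg_emp p := MixSS.deg_emp p
  deg_mul x y := MixSS.deg_mul x y
  deg_box p := MixSS.deg_box p
  conn x y h := MixSS.conn x y h
  degB x := MixSS.degB x
  connB x y h := MixSS.connB x y h
  split := h

/-- associativity up to homotopy and a loop of degree `-1` -/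
noncomputable def mixInvOf (h : SplitStmt) : (mixGOf h).Inv where
  hA := MixSS.hA Unit Empty
  hA_c0 x y z := MixSS.hA_c0 Unit Empty x y z
  hA_c1 x y z := MixSS.hA_c1 Unit Empty x y z
  neg := (MixSS.exists_deg (-1)).choose
  deg_neg := (MixSS.exists_deg (-1)).choose_spec

end Vale.Agent.P263.G2
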