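import Vale.Agent.P263.G2.QInfSing
import Vale.Agent.P263.G2.DegQI
import Vale.Agent.P263.G2.SingIso

/-!
# P263, block G2: the degree on `QInf Unit`, the part of degree `0` is `sing Q₀S⁰`

* `degQ_singToQI` : `degQ` is the degree `QS⁰ → ℤ`;
* `qLC : GB.LC (QInf Unit)`, `q0 : SS.Map (sing Q0S0) (qLC.fib 0).sub`, bijective in every degree;
* `q0' : SS.Map (G.sing Q0S0) (qLC.fib 0).sub`, bijective in every degree (Mathlib's singular
  simplices).
-/

open Topology CategoryTheory Limits
open scoped OnePoint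
open Vale.Agent.P263.S Vale.Agent.P263.E

namespace Vale.Agent.P263.G2

open T0 (Om QS0 Q0S0 toQ omSeq)

theorem degP_pv (q : QS0) : degP (pv q) = GB.deg q := by
  obtain ⟨r, y, rfl⟩ := T0.toQ_surj q
  have h : RepP r (pv (toQ r y)) y := fun x => pv_toQ r y x
  rw [h.degP_eq, GB.deg_toQ]

theorem degQ_singToQI {p : ℕ} (σ : (sing QS0).obj p) (t : Dl p) :
    degQ (singToQI.app σ) = GB.deg (toC σ t) := by
  rw [← degQ_eq _ t, singToQI_coe, cmp_pvF]
  exact degP_pv _

/-- the degree on `QInf Unit` -/
noncomputable def qLC : GB.LC (QInf Unit) where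
  deg x := degQ x
  deg_map f x := degQ_map f x

theorem qLC_singToQI {p : ℕ} (σ : (sing QS0).obj p) : qLC.deg (singToQI.app σ) = degLC.deg σ :=
  degQ_singToQI σ _

/-- `singToQI` on the parts of degree `0` -/
noncomputable def sq0 : SS.Map (degLC.fib 0).sub (qLC.fib 0).sub :=
  (degLC.fib 0).map (qLC.fib 0) singToQI fun x hx => (qLC_singToQI x).trans hx

theorem sq0_bijective (p : ℕ) : Function.Bijective (sq0.app (p := p)) := by
  constructor
  · intro x y h
    exact Subtype.ext (singToQI_injective p (congrArg Subtype.val h))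
  · rintro ⟨y, hy⟩
    obtain ⟨x, rfl⟩ := singToQI_surjective p y
    exact ⟨⟨x, (qLC_singToQI x).symm.trans hy⟩, rfl⟩

/-- simplices of `Q₀S⁰` are the families of degree `0` -/
noncomputable def q0 : SS.Map (sing Q0S0) (qLC.fib 0).sub := sq0.comp sing0

theorem q0_bijective (p : ℕ) : Function.Bijective (q0.app (p := p)) :=
  (sq0_bijective p).comp (sing0_bijective p)

theorem q0_coe {p : ℕ} (σ : (sing Q0S0).obj p) :
    (q0.app σ).1 = singToQI.app (ofC ((GB.Q0incl).hom.comp (toC σ))) := rfl

theorem ofSing_bijective (X : Type) [TopologicalSpace X] (p : ℕ) :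
    Function.Bijective ((ofSing X).app (p := p)) := (singEquiv X p).symm.bijective

/-- the same with Mathlib's singular simplices -/
noncomputable def q0' : SS.Map (G.sing Q0S0) (qLC.fib 0).sub := q0.comp (ofSing Q0S0)

theorem q0'_bijective (p : ℕ) : Function.Bijective (q0'.app (p := p)) :=
  (q0_bijective p).comp (ofSing_bijective Q0S0 p)

end Vale.Agent.P263.G2
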