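import Vale.Agent.P263.G2.Mix

/-!
# P263, block G2-7: the product on `Mix`, homotopies, the simplicial sets `MixSS K L`

* `Mix.jx J hJ c` : juxtaposition in the coordinate `0`; `Mix.mul`;
* `MixSS K L`, `MixSS.map`, `MixSS.mul`, `MixSS.hR`, `MixSS.hL`, `MixSS.hA`;
* `MixSS.box`, `MixSS.ofQ`, `MixSS.toQ`, `MixSS.ofF`, `MixSS.toF`.
-/

open Topology Vale.Agent.P251.G Vale.Agent.P263.TOP
open scoped OnePoint

namespace Vale.Agent.P263.G2

section

variable {K L K' L' : Type} {T T' : Type} [TopologicalSpace T] [TopologicalSpace T'] {ι κ : Type}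

theorem bxm_bxc_comp {n : ℕ} {J I : Iv} {x z : ℕ → ℝ} :
    bxm (bxc n (J.comp I)) x = some z ↔
      ∃ y, bxm (bxc n J) x = some y ∧ bxm (bxc n I) y = some z := by
  rw [← Option.bind_eq_some_iff, bxm_bxm]
  have : bxc n (J.comp I) = fun i => Iv.comp (bxc n J i) (bxc n I i) := by
    rw [comp_bxc_left, bxc_self]
    funext i
    by_cases h : i = n
    · subst h
      rw [bxc_self, Bx.upd_self]
    · rw [bxc_ne h, Bx.upd_ne h, bxc_ne h]
  rw [this]

/-- the intervals are pairwise disjoint at every point -/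
abbrev DjC (J : ι → C(T, Iv)) : Prop := ∀ i j, i ≠ j → ∀ t, (J i t).Dj (J j t)

theorem DjC.comp {J : ι → C(T, Iv)} (hJ : DjC J) (g : C(T', T)) :
    DjC fun i => (J i).comp g := fun i j h t => hJ i j h (g t)

theorem djC_half : DjC fun b : Bool => ContinuousMap.const T (Iv.half b) :=
  fun _ _ h _ => Iv.half_dj h

namespace Mix

theorem resc_resc (n : ℕ) (J I : C(T, Iv)) (x : Mix K L T) :
    (x.resc n I).resc n J = x.resc n (compC J I) := by
  refine Mix.ext (Fn.ext' fun t v k w => ?_) (Conf.resc_resc n J I x.S)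
  simp only [resc_q_eq_some, compC_apply, bxm_bxc_comp]
  constructor
  · rintro ⟨v', h1, v'', h2, h3⟩
    exact ⟨v'', ⟨v', h1, h2⟩, h3⟩
  · rintro ⟨v'', ⟨v', h1, h2⟩, h3⟩
    exact ⟨v', h1, v'', h2, h3⟩

theorem resc_emp (n : ℕ) (J : C(T, Iv)) : (emp : Mix K L T).resc n J = emp := by
  refine Mix.ext (Fn.ext' fun t v k w => ?_) (Conf.resc_empty n J)
  rw [resc_q_eq_some]
  simp [Fn.emp]

/-- juxtaposed families have disjoint supports -/
theorem dis_resc {J : ι → C(T, Iv)} (hJ : DjC J) (n : ℕ)
    (c : ι → Mix K L T) : Dis fun i => (c i).resc n (J i) :=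
  Fn.DisJ.dis (J := fun i t => J i t) hJ n fun i => (c i).q

/-- juxtaposition in the coordinate `0` -/
noncomputable def jx [Fintype ι] (J : ι → C(T, Iv)) (hJ : DjC J)
    (c : ι → Mix K L T) : Mix K L T := un (fun i => (c i).resc 0 (J i)) (dis_resc hJ 0 c)

theorem jx_q [Fintype ι] {J : ι → C(T, Iv)} {hJ : DjC J}
    {c : ι → Mix K L T} {t : T} {v : ℕ → ℝ} {w : (K ⊕ L) × (ℕ → ℝ)} :
    (jx J hJ c).q t v = some w ↔
      ∃ i v', bxm (bxc 0 (J i t)) v = some v' ∧ (c i).q t v' = some w := by
  rw [jx, un_q]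
  simp only [resc_q_eq_some]

theorem mem_jx_S [Fintype ι] {J : ι → C(T, Iv)} {hJ : DjC J}
    {c : ι → Mix K L T} {z : C(T, Bx) × L} :
    z ∈ (jx J hJ c).S.pts ↔ ∃ i b, (b, z.2) ∈ (c i).S.pts ∧ rescC 0 (J i) b = z.1 := by
  rw [jx, mem_un_S]
  exact exists_congr fun i => Conf.mem_resc

theorem isSt_jx [Fintype ι] {r : ℕ} (hr : 0 < r) {J : ι → C(T, Iv)}
    {hJ : DjC J} {c : ι → Mix K L T} (hc : ∀ i, (c i).IsSt r) :
    (jx J hJ c).IsSt r := isSt_un fun i => (hc i).resc hr (J i)

theorem pull_jx [Fintype ι] {J : ι → C(T, Iv)} (hJ : DjC J)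
    (c : ι → Mix K L T) (g : C(T', T)) :
    (jx J hJ c).pull g = jx (fun i => (J i).comp g) (hJ.comp g)
      fun i => (c i).pull g := by
  refine Mix.ext' (fun t v k w => ?_) fun z => ?_
  · rw [jx_q]
    exact jx_q (hJ := hJ)
  · exact Conf.ext_iff'.1 ((Conf.pull_iUn g (dis_resc hJ 0 c).box
      (fun i j h x hx y hy t => by
        obtain ⟨b, hb, h1⟩ := Conf.mem_pull.1 hx
        obtain ⟨b', hb', h2⟩ := Conf.mem_pull.1 hy
        rw [← h1, ← h2]
        exact (dis_resc hJ 0 c).box i j h _ hb _ hb' _)).trans (by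
      rw [Conf.ext_iff']
      intro z
      rw [Conf.mem_iUn]
      show _ ↔ z ∈ (jx _ _ _).S.pts
      rw [mem_jx_S]
      refine exists_congr fun i => ?_
      show z ∈ (((c i).S.resc 0 (J i)).pull g).pts ↔ _
      rw [Conf.pull_resc, Conf.mem_resc]
      exact Iff.rfl)) z

theorem map_jx [Fintype ι] [Finite K] [Finite L] {J : ι → C(T, Iv)}
    (hJ : DjC J) (c : ι → Mix K L T) (f : K → Option K')
    (g : L → Option (K' ⊕ L')) :
    (jx J hJ c).map f g = jx J hJ fun i => (c i).map f g := by
  rw [jx, map_un]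
  simp only [map_resc]
  rfl

/-- `x` in the first half, `y` in the second half of the coordinate `0` -/
noncomputable def mul (x y : Mix K L T) : Mix K L T :=
  jx (fun b => ContinuousMap.const T (Iv.half b)) djC_half (Fn.two x y)

theorem mul_q (x y : Mix K L T) : (x.mul y).q = Fn.mul x.q y.q := by
  refine Fn.ext' fun t v k w => ?_
  rw [mul, jx_q, Fn.mul_eq_some]
  simp only [Bool.exists_bool]
  exact Iff.rfl

theorem mem_mul_S {x y : Mix K L T} {z : C(T, Bx) × L} : z ∈ (x.mul y).S.pts ↔
    (∃ b, (b, z.2) ∈ x.S.pts ∧ rescC 0 (ContinuousMap.const T Iv.lh) b = z.1) ∨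
      ∃ b, (b, z.2) ∈ y.S.pts ∧ rescC 0 (ContinuousMap.const T Iv.rh) b = z.1 := by
  rw [mul, mem_jx_S, Bool.exists_bool]
  exact Iff.rfl

theorem pull_mul (x y : Mix K L T) (g : C(T', T)) :
    (x.mul y).pull g = (x.pull g).mul (y.pull g) := by
  rw [mul, pull_jx]
  refine Mix.ext' (fun t v k w => ?_) fun z => ?_
  · rw [mul_q, jx_q, Fn.mul_eq_some, Bool.exists_bool]
    exact Iff.rfl
  · rw [mem_mul_S, mem_jx_S, Bool.exists_bool]
    exact Iff.rfl

theorem map_mul [Finite K] [Finite L] (f : K → Option K') (g : L → Option (K' ⊕ L'))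
    (x y : Mix K L T) : (x.mul y).map f g = (x.map f g).mul (y.map f g) := by
  rw [mul, map_jx, mul]
  congr 1
  funext b
  cases b <;> rfl

theorem mul_emp (x : Mix K L T) : x.mul emp = x.resc 0 (ContinuousMap.const T Iv.lh) := by
  refine Mix.ext' (fun t v k w => ?_) fun z => ?_
  · rw [mul_q, Fn.mul_eq_some, resc_q_eq_some]
    simp [Fn.emp]
  · rw [mem_mul_S]
    show _ ↔ z ∈ (x.S.resc 0 _).pts
    rw [Conf.mem_resc]
    simp

theorem emp_mul (x : Mix K L T) : emp.mul x = x.resc 0 (ContinuousMap.const T Iv.rh) := by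
  refine Mix.ext' (fun t v k w => ?_) fun z => ?_
  · rw [mul_q, Fn.mul_eq_some, resc_q_eq_some]
    simp [Fn.emp]
  · rw [mem_mul_S]
    show _ ↔ z ∈ (x.S.resc 0 _).pts
    rw [Conf.mem_resc]
    simp

/-- the unit box with the label `l` together with its collapse -/
noncomputable def box (l : L) : Mix K L T where
  q := fun _ v => some (Sum.inr l, v)
  S := Conf.unit T l
  st := by
    classical
    refine ⟨0, fun k => ?_⟩
    by_cases h : k = Sum.inr l
    · subst h
      have : Fn.cmp (Sum.inr l) (fun (_ : T) v => some ((Sum.inr l : K ⊕ L), v)) =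
          fun _ v => some v := by
        funext t v
        apply Option.ext
        intro w
        rw [Fn.cmp_eq_some]
        simp
      rw [this]
      exact isPM_some 0
    · have : Fn.cmp k (fun (_ : T) v => some ((Sum.inr l : K ⊕ L), v)) =
          fun _ _ => none := by
        funext t v
        apply Option.ext
        intro w
        rw [Fn.cmp_eq_some]
        simp [Ne.symm h]
      rw [this]
      exact isPM_none 0
  eq := by
    refine Fn.ext' fun t v k w => ?_
    rw [Fn.push_eq_some, al_eq_some_iff]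
    constructor
    · rintro ⟨x, h1, h2⟩
      have h3 := Option.some.inj h1
      obtain ⟨rfl, rfl⟩ := Prod.mk.inj h3
      cases h2
      exact ⟨_, Conf.mem_unit.2 rfl, bxm_full v⟩
    · rintro ⟨c, h1, h2⟩
      obtain ⟨rfl, rfl⟩ := Prod.mk.inj (Conf.mem_unit.1 h1)
      have h3 : bxm (fun _ => Iv.full) v = some w := h2
      rw [bxm_full] at h3
      cases h3
      exact ⟨_, rfl, rfl⟩

theorem pull_box (g : C(T', T)) (l : L) : (box l : Mix K L T).pull g = box l :=
  Mix.ext rfl (Conf.pull_unit g l)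

/-- loops without boxes -/
noncomputable def inQ (g : Fn K T) (hg : ∃ r, Fn.IsSt r g) [Finite K] : Mix K L T where
  q := Fn.push (fun k => some (Sum.inl k)) g
  S := Conf.empty
  st := hg.imp fun _ h => h.push _
  eq := by
    rw [al_empty, Fn.push_push]
    refine Fn.ext' fun t v k w => ?_
    rw [Fn.push_eq_some]
    simp [Fn.emp]

/-- boxes with the collapses only -/
noncomputable def inF (S : Conf L T) : Mix K L T where
  q := Fn.push (fun l => some (Sum.inr l)) (al S)
  S := S
  st := by
    classical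
    obtain ⟨r, hr⟩ := S.stage
    refine ⟨r, fun k => ?_⟩
    cases k with
    | inl k =>
      have : Fn.cmp (Sum.inl k : K ⊕ L) (Fn.push (fun l => some (Sum.inr l)) (al S)) =
          fun _ _ => none := by
        funext t v
        apply Option.ext
        intro w
        rw [Fn.cmp_eq_some, Fn.push_eq_some]
        simp
      rw [this]
      exact isPM_none r
    | inr l =>
      have : Fn.cmp (Sum.inr l : K ⊕ L) (Fn.push (fun l => some (Sum.inr l)) (al S)) =
          Fn.cmp l (al S) := by
        funext t v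
        apply Option.ext
        intro w
        rw [Fn.cmp_eq_some, Fn.push_eq_some, Fn.cmp_eq_some]
        constructor
        · rintro ⟨l', h1, h2⟩
          cases h2
          exact h1
        · intro h
          exact ⟨l, h, rfl⟩
      rw [this]
      exact isSt_al hr l
  eq := by
    rw [Fn.push_push]
    refine Fn.ext' fun t v k w => ?_
    rw [Fn.push_eq_some]
    constructor
    · rintro ⟨l', h1, h2⟩
      cases h2
      exact h1
    · intro h
      exact ⟨k, h, rfl⟩

end Mix

end

/-! ### The simplicial sets -/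

open Vale.Agent.P263.S Vale.Agent.P263.E

/-- the simplicial set of the families over the simplices -/
noncomputable def MixSS (K L : Type) : SS where
  obj p := Mix K L (Dl p)
  map θ x := Mix.pull (dmap θ) x
  map_id x := by rw [dmap_id]; exact Mix.pull_id x
  map_comp f g x := by rw [dmap_comp]; exact (Mix.pull_pull (dmap f) (dmap g) x).symm

namespace MixSS

variable {K L K' L' : Type}

theorem map_def {p q : ℕ} (θ : Op p q) (x : (MixSS K L).obj q) :
    (MixSS K L).map θ x = Mix.pull (dmap θ) x := rfl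

/-- relabelling -/
noncomputable def map [Finite K] [Finite L] (f : K → Option K') (g : L → Option (K' ⊕ L')) :
    SS.Map (MixSS K L) (MixSS K' L') where
  app x := Mix.map f g x
  nat θ x := Mix.map_pull f g (dmap θ) x

/-- the product -/
noncomputable def mul (K L : Type) : SS.Map ((MixSS K L).prod (MixSS K L)) (MixSS K L) where
  app x := Mix.mul x.1 x.2
  nat θ x := (Mix.pull_mul (T := Dl _) x.1 x.2 (dmap θ)).symm

/-- the families of stage `r` -/
noncomputable def stage (r : ℕ) (K L : Type) : SS where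
  obj p := {x : Mix K L (Dl p) // x.IsSt r}
  map θ x := ⟨x.1.pull (dmap θ), x.2.pull _⟩
  map_id x := Subtype.ext (by rw [dmap_id]; exact Mix.pull_id x.1)
  map_comp f g x := Subtype.ext (by rw [dmap_comp]; exact (Mix.pull_pull (dmap f) (dmap g) x.1).symm)

/-- the inclusion of the stage `r` -/
noncomputable def incl (r : ℕ) (K L : Type) : SS.Map (stage r K L) (MixSS K L) :=
  ⟨fun x => x.1, fun _ _ => rfl⟩

/-- the inclusion of the stages -/
noncomputable def incl' {r s : ℕ} (h : r ≤ s) (K L : Type) : SS.Map (stage r K L) (stage s K L) :=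
  ⟨fun x => ⟨x.1, x.2.mono h⟩, fun _ _ => rfl⟩

end MixSS

end Vale.Agent.P263.G2
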