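import Vale.Agent.P263.GB.StabBox
import Vale.Agent.P263.G2.MixMul

/-!
# P263, block G2: stability for the boxes of `Mix`

`mixAdd : AddB`, `is_mul_box` : multiplication with the standard box in `Mix Empty Unit` adds a box
by the rule `mixAdd`; hence (with `GB.StabBox`) homological stability and `Conn k D (Gam n) _` for
every model of the boxes of `Mix`.
-/

namespace Vale.Agent.P263.G2

open Vale.Agent.P263.S Vale.Agent.P263.E Vale.Agent.P263.G Vale.Agent.P263.GB

theorem dis_lh_rh : Iv.lh.Dis Iv.rh := by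
  refine (?_ : Iv.lh.Bf Iv.rh).dis
  show Iv.lh.hi ≤ Iv.rh.lo
  simp

/-- the rule of the multiplication with the standard box in `Mix` -/
noncomputable def mixAdd : AddB := AddB.of Iv.lh Iv.rh dis_lh_rh

/-- Multiplication with the standard box adds a box. -/
theorem is_mul_box {K : Type} {p : ℕ} (x : Mix K Unit (Dl p)) :
    mixAdd.Is x.S (x.mul (Mix.box ())).S := by
  refine AddB.of_is dis_lh_rh _ _ fun c => ?_
  rw [Mix.mem_mul_S]
  refine or_congr Iff.rfl ?_
  show (∃ b, (b, ()) ∈ (Conf.unit (Dl p) ()).pts ∧ _) ↔ _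
  constructor
  · rintro ⟨b, hb, h⟩
    have h1 := Prod.mk.inj (Conf.mem_unit.1 hb)
    rw [h1.1] at h
    exact h
  · intro h
    exact ⟨_, Conf.mem_unit.2 rfl, h⟩

end Vale.Agent.P263.G2
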