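import Vale.Agent.P263.GB.TelZig
import Vale.Agent.P263.G2.QInfDeg
import Vale.Agent.P263.G2.MixGI
import Vale.Agent.P263.G2.StabMix
import Vale.Agent.P263.G2.BoxBar

/-!
# P263, block G2: the explicit span `Gam N ← F_N → sing Q₀S⁰`

For `G := mixGOf h`:

* `e_toF` : `MixSS Empty Unit` is `F Unit`; `is_aF`, `hInj_dF`, `hSurj_dF` : homological stability
  for `fibS G.dF`;
* `fN N : FN N Unit → (G.dF.fib N).sub`, `q0inv : (G.dQ.fib 0).sub → sing Q₀S⁰` (bijective);
* `bN N v hv : FN N Unit → sing Q₀S⁰` : the collapse of the boxes followed by the right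
  multiplication with the vertex `v` of degree `-N`; `hInj_bN`, `hSurj_bN`, `isoUpTo_bN` under the
  hypothesis that `G.telAlpha` is a homology isomorphism;
* `conn_gam` : the zigzag between `Gam N` and `sing Q₀S⁰`.
-/

open Vale.Agent.P263.S Vale.Agent.P263.E Vale.Agent.P263.G Vale.Agent.P263.GB
open Vale.Agent.P263.TOP

namespace Vale.Agent.P263.G2

theorem invMap_bijective {X Y : SS} (e : SS.Map X Y)
    (he : ∀ p, Function.Bijective (e.app (p := p))) (p : ℕ) :
    Function.Bijective ((invMap e he).app (p := p)) := (Equiv.ofBijective _ (he p)).symm.bijective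

/-- levelwise bijective maps are injective on homology -/
theorem hInj_of_bij (k : Type) [CommRing k] {X Y : SS} (f : SS.Map X Y)
    (hf : ∀ p, Function.Bijective (f.app (p := p))) (j : ℕ) : HInj k f j := by
  intro z _ hb
  have e : (invMap f hf).comp f = SS.Map.id X :=
    SS.Map.ext fun p x => (Equiv.ofBijective _ (hf p)).symm_apply_apply x
  have h1 := hb.push (invMap f hf)
  rwa [← push_comp, e, push_id] at h1

/-- levelwise bijective maps are surjective on homology -/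
theorem hSurj_of_bij (k : Type) [CommRing k] {X Y : SS} (f : SS.Map X Y)
    (hf : ∀ p, Function.Bijective (f.app (p := p))) (j : ℕ) : HSurj k f j := by
  intro w hw
  have e : f.comp (invMap f hf) = SS.Map.id Y := SS.Map.ext fun p x => e_invMap f hf x
  refine ⟨push k (invMap f hf) j w, hw.push _, ?_⟩
  rw [← push_comp, e, push_id, sub_self]
  exact IsBd.zero j

/-! ### the ends -/

theorem toF_bijective (p : ℕ) : Function.Bijective ((MixSS.toF Empty Unit).app (p := p)) :=
  Function.bijective_iff_has_inverse.2 ⟨(MixSS.ofF Empty Unit).app,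
    fun x => MixSS.ofF_toF Empty Unit x, fun S => MixSS.toF_ofF Empty Unit S⟩

theorem toQ_bijective (p : ℕ) : Function.Bijective ((MixSS.toQ Unit Empty).app (p := p)) :=
  Function.bijective_iff_has_inverse.2 ⟨(MixSS.ofQ Unit Empty).app,
    fun x => MixSS.ofQ_toQ Unit Empty x, fun x => MixSS.toQ_ofQ Unit Empty x⟩

section

variable (h : SplitStmt)

theorem aF_app' {p : ℕ} (x : ((mixGOf h).obj Empty Unit).obj p) :
    (mixGOf h).aF.app x = (MixSS.mul Empty Unit).app (x, MixSS.box p) := by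
  rw [MixG.aF_app]
  have e : (mixGOf h).boxL () p = (MixSS.box p : (MixSS Empty Unit).obj p) := by
    unfold MixG.boxL
    exact (mixGOf h).map_eq_self (fun k => k.elim) (fun _ => rfl) _
  rw [e]
  rfl

/-- adding the standard box adds a box -/
theorem is_aF {p : ℕ} (x : ((mixGOf h).obj Empty Unit).obj p) :
    mixAdd.Is ((MixSS.toF Empty Unit).app x) ((MixSS.toF Empty Unit).app ((mixGOf h).aF.app x)) := by
  rw [aF_app']
  exact is_mul_box (show Mix Empty Unit (Dl p) from x)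

/-- the degree is the number of boxes -/
theorem dF_eq {p : ℕ} (x : ((mixGOf h).obj Empty Unit).obj p) :
    (mixGOf h).dF.deg x = ((Conf.pts ((MixSS.toF Empty Unit).app x)).card : ℤ) :=
  MixSS.deg_alphaQ x

theorem hInj_dF {n j : ℕ} (hj : 2 * (j + 1) ≤ n) :
    HInj (ZMod 2) (fibS (mixGOf h).dF (mixGOf h).dF_aF n) j :=
  hInj_fibS mixAdd (X := (mixGOf h).obj Empty Unit) (MixSS.toF Empty Unit) toF_bijective
    (mixGOf h).aF (is_aF h) (mixGOf h).dF (dF_eq h) hj

theorem hSurj_dF {n j : ℕ} (hj : 2 * j ≤ n) :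
    HSurj (ZMod 2) (fibS (mixGOf h).dF (mixGOf h).dF_aF n) j :=
  hSurj_fibS mixAdd (X := (mixGOf h).obj Empty Unit) (MixSS.toF Empty Unit) toF_bijective
    (mixGOf h).aF (is_aF h) (mixGOf h).dF (dF_eq h) hj

/-- the families of `N` boxes -/
noncomputable def fN (N : ℕ) : SS.Map (FN N Unit) ((mixGOf h).dF.fib (N : ℤ)).sub :=
  fnToFib (X := (mixGOf h).obj Empty Unit) (MixSS.toF Empty Unit) toF_bijective
    (mixGOf h).dF (dF_eq h) N

theorem fN_bijective (N p : ℕ) : Function.Bijective ((fN h N).app (p := p)) :=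
  fnToFib_bijective _ _ _ _ _ _

theorem toF_fN (N : ℕ) {p : ℕ} (S : (FN N Unit).obj p) :
    (MixSS.toF Empty Unit).app ((fN h N).app S).1 = (FN.toF N Unit).app S :=
  e_fnToFib (X := (mixGOf h).obj Empty Unit) (MixSS.toF Empty Unit) toF_bijective
    (mixGOf h).dF (dF_eq h) N S

/-- the loops of degree `0` -/
noncomputable def toQ0 : SS.Map ((mixGOf h).dQ.fib 0).sub (qLC.fib 0).sub :=
  ((mixGOf h).dQ.fib 0).map (qLC.fib 0)
    (show SS.Map ((mixGOf h).obj Unit Empty) (QInf Unit) from MixSS.toQ Unit Empty)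
    fun _ hx => hx

theorem toQ0_bijective (p : ℕ) : Function.Bijective ((toQ0 h).app (p := p)) := by
  constructor
  · intro x y hxy
    exact Subtype.ext ((toQ_bijective p).1 (congrArg Subtype.val hxy))
  · rintro ⟨y, hy⟩
    obtain ⟨x, rfl⟩ := (toQ_bijective p).2 y
    exact ⟨⟨x, hy⟩, rfl⟩

/-- the singular simplices of `Q₀S⁰` -/
noncomputable def q0inv : SS.Map ((mixGOf h).dQ.fib 0).sub (G.sing T0.Q0S0) :=
  (invMap q0' q0'_bijective).comp (toQ0 h)

theorem q0inv_bijective (p : ℕ) : Function.Bijective ((q0inv h).app (p := p)) :=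
  (invMap_bijective q0' q0'_bijective p).comp (toQ0_bijective h p)

theorem q0'_q0inv {p : ℕ} (x : ((mixGOf h).dQ.fib 0).sub.obj p) :
    q0'.app ((q0inv h).app x) = (toQ0 h).app x := e_invMap q0' q0'_bijective _

/-! ### the span -/

/-- a vertex of degree `-N` -/
theorem exists_vertex_neg (N : ℕ) : ∃ v : ((mixGOf h).obj Unit Empty).obj 0,
    (N : ℤ) + (mixGOf h).deg v = 0 := by
  obtain ⟨v, hv⟩ := (mixInvOf h).exists_deg (-(N : ℤ))
  exact ⟨v, by rw [hv]; ring⟩

/-- the collapse of `N` boxes followed by a loop of degree `-N` -/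
noncomputable def bN (N : ℕ) (v : ((mixGOf h).obj Unit Empty).obj 0)
    (hv : (N : ℤ) + (mixGOf h).deg v = 0) : SS.Map (FN N Unit) (G.sing T0.Q0S0) :=
  ((q0inv h).comp ((mixGOf h).boxR N v hv)).comp (fN h N)

variable (hT : ∀ j, RZ0 (freeMap (ZMod 2) (mixGOf h).telAlpha).cx j)

include hT

theorem h_boxR' {N j : ℕ} (hj : 2 * (j + 1) ≤ N) (v : ((mixGOf h).obj Unit Empty).obj 0)
    (hv : (N : ℤ) + (mixGOf h).deg v = 0) :
    HInj (ZMod 2) ((mixGOf h).boxR N v hv) j ∧ HSurj (ZMod 2) ((mixGOf h).boxR N v hv) j :=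
  (mixGOf h).h_boxR (mixInvOf h) N v hv j (hT j) (hT (j + 1)) fun n hn =>
    ⟨hInj_dF h (by omega), hSurj_dF h (by omega)⟩

theorem hInj_bN {N j : ℕ} (hj : 2 * (j + 1) ≤ N) (v : ((mixGOf h).obj Unit Empty).obj 0)
    (hv : (N : ℤ) + (mixGOf h).deg v = 0) : HInj (ZMod 2) (bN h N v hv) j :=
  hInj_comp (hInj_comp (hInj_of_bij _ _ (q0inv_bijective h) j) (h_boxR' h hT hj v hv).1)
    (hInj_of_bij _ _ (fN_bijective h N) j)

theorem hSurj_bN {N j : ℕ} (hj : 2 * (j + 1) ≤ N) (v : ((mixGOf h).obj Unit Empty).obj 0)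
    (hv : (N : ℤ) + (mixGOf h).deg v = 0) : HSurj (ZMod 2) (bN h N v hv) j :=
  hSurj_comp (hSurj_comp (hSurj_of_bij _ _ (q0inv_bijective h) j) (h_boxR' h hT hj v hv).2)
    (hSurj_of_bij _ _ (fN_bijective h N) j)

/-- **The boxes and `Q₀S⁰`.** -/
theorem isoUpTo_bN {N D : ℕ} (hD : 2 * (D + 1) ≤ N) (v : ((mixGOf h).obj Unit Empty).obj 0)
    (hv : (N : ℤ) + (mixGOf h).deg v = 0) : IsoUpTo (ZMod 2) D (bN h N v hv) :=
  isoUpTo_of_h (fun j hj => hSurj_bN h hT (by omega) v hv)
    fun j hj => hInj_bN h hT (by omega) v hv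

/-- **The zigzag between `Gam N` and the singular simplices of `Q₀S⁰`.** -/
theorem conn_gam {N D : ℕ} (hD : 2 * (D + 1) ≤ N) :
    Conn (ZMod 2) D (TOP.H.Gam N) (G.sing T0.Q0S0) := by
  obtain ⟨v, hv⟩ := exists_vertex_neg h N
  exact (conn_box (ZMod 2) N D).symm.trans (Conn.of_map _ (isoUpTo_bN h hT hD v hv))

end

end Vale.Agent.P263.G2
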