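import Vale.Agent.P263.TOP.Sus
import Vale.Agent.P251.G.Gen3

/-!
# P263, literal mapping spaces: paths are homotopies

* `bhom f : LC.of X ⟶ LC.of Y` for `f : BMap X Y`; `bof` the inverse.
* `continuous_bmap_iff` : the exponential law for families of based maps.
* `joined_iff` : paths in `BMap X Y` are the homotopies of `P251.G.LC`.
-/

open CategoryTheory MonoidalCategory OnePoint Topology Vale.Agent.P251.G Vale.Agent.P263.TOP

namespace Vale.Agent.P263.G2

variable {X Y Z : Type} [TopologicalSpace X] [T2Space X] [LocallyCompactSpace X]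
  [TopologicalSpace Y] [T2Space Y] [LocallyCompactSpace Y]
  [TopologicalSpace Z] [T2Space Z] [LocallyCompactSpace Z]

/-- the morphism of `LC` -/
def bhom (f : BMap X Y) : LC.of X ⟶ LC.of Y := ⟨f.1, f.2⟩

/-- the based map of a morphism of `LC` -/
def bof (f : LC.of X ⟶ LC.of Y) : BMap X Y := ⟨LC.Hom.toMap f, LC.Hom.map_infty f⟩

@[simp] theorem bhom_bof (f : LC.of X ⟶ LC.of Y) : bhom (bof f) = f := rfl

@[simp] theorem bof_bhom (f : BMap X Y) : bof (bhom f) = f := rfl

theorem app_bhom (f : BMap X Y) (x : OnePoint X) : LC.app (bhom f) x = f.1 x := rfl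

theorem bof_apply (f : LC.of X ⟶ LC.of Y) (x : OnePoint X) : (bof f).1 x = LC.app f x := rfl

omit [T2Space X] [LocallyCompactSpace X] [T2Space Y] [LocallyCompactSpace Y] in
theorem bmap_ext {f g : BMap X Y} (h : ∀ x : OnePoint X, f.1 x = g.1 x) : f = g :=
  Subtype.ext (ContinuousMap.ext h)

omit [T2Space Y] [LocallyCompactSpace Y] in
theorem continuous_bmap_uncurry {T : Type*} [TopologicalSpace T] {g : T → BMap X Y}
    (hg : Continuous g) : Continuous (fun p : T × OnePoint X => (g p.1).1 p.2) :=
  ContinuousEval.continuous_eval.comp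
    ((continuous_subtype_val.comp (hg.comp continuous_fst)).prodMk continuous_snd)

omit [T2Space X] [LocallyCompactSpace X] [T2Space Y] [LocallyCompactSpace Y] in
theorem continuous_bmap_of_uncurry {T : Type*} [TopologicalSpace T] {g : T → BMap X Y}
    (hg : Continuous (fun p : T × OnePoint X => (g p.1).1 p.2)) : Continuous g :=
  Continuous.subtype_mk (f := fun t => (g t).1)
    (ContinuousMap.continuous_of_continuous_uncurry _ hg) (fun t => (g t).2)

omit [T2Space Y] [LocallyCompactSpace Y] in
theorem continuous_bmap_iff {T : Type*} [TopologicalSpace T] {g : T → BMap X Y} :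
    Continuous g ↔ Continuous (fun p : T × OnePoint X => (g p.1).1 p.2) :=
  ⟨continuous_bmap_uncurry, continuous_bmap_of_uncurry⟩

/-- Paths in `BMap X Y` are based homotopies. -/
theorem joined_iff (f g : BMap X Y) : Joined f g ↔ LC.Homotopic (bhom f) (bhom g) := by
  rw [LC.homotopic_iff]
  constructor
  · rintro ⟨γ⟩
    refine ⟨⟨⟨⟨fun p => (γ p.1).1 p.2, continuous_bmap_uncurry γ.continuous⟩, ?_, ?_⟩, ?_⟩⟩
    · intro x
      change (γ 0).1 x = f.1 x
      rw [γ.source]
    · intro x
      change (γ 1).1 x = g.1 x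
      rw [γ.target]
    · intro t x hx
      obtain rfl : x = ∞ := hx
      change (γ t).1 ∞ = f.1 ∞
      rw [(γ t).2, f.2]
  · rintro ⟨F⟩
    refine ⟨⟨⟨fun t => ⟨⟨fun x => F (t, x), by fun_prop⟩, ?_⟩, ?_⟩, ?_, ?_⟩⟩
    · have := F.eq_fst t (Set.mem_singleton (∞ : OnePoint X))
      change F (t, ∞) = ∞
      rw [this]
      exact f.2
    · apply continuous_bmap_of_uncurry
      exact map_continuous F
    · exact bmap_ext fun x => F.apply_zero x
    · exact bmap_ext fun x => F.apply_one x

/-- `BMap X Y` is path connected if every based map is null homotopic. -/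
theorem pathConnected_bmap (h : ∀ f : LC.of X ⟶ LC.of Y, LC.Homotopic f 0) :
    PathConnectedSpace (BMap X Y) where
  nonempty := ⟨bof 0⟩
  joined f g := by
    have h1 : Joined f (bof 0) := (joined_iff _ _).2 (h (bhom f))
    have h2 : Joined g (bof 0) := (joined_iff _ _).2 (h (bhom g))
    exact h1.trans h2.symm

/-- `Ωʲ Sⁿ` is path connected for `j < n`. -/
theorem pathConnected_of_lt {j n : ℕ} (h : j < n) :
    PathConnectedSpace (BMap (Fin j → ℝ) (Fin n → ℝ)) :=
  pathConnected_bmap fun f => LC.homotopic_zero_of_lt h f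

theorem pathConnected_of_finrank_lt {E F : Type} [NormedAddCommGroup E] [NormedSpace ℝ E]
    [FiniteDimensional ℝ E] [ProperSpace E] [NormedAddCommGroup F] [NormedSpace ℝ F]
    [FiniteDimensional ℝ F] [ProperSpace F] (h : Module.finrank ℝ E < Module.finrank ℝ F) :
    PathConnectedSpace (BMap E F) :=
  pathConnected_bmap fun f => LC.homotopic_zero_of_finrank_lt h f

end Vale.Agent.P263.G2
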