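import Vale.Agent.P263.G2.Act
import Vale.Agent.P263.G2.Paths

/-!
# P263, block G2-2: the ladder `Q_r(B) → Ω Q_r(ℝ × B) → Q_{r+1}(B)`

`X`, `B`, `Z` locally compact Hausdorff spaces, `c : ℝ × B ≃ₜ B₁`, `e : X × ℝ ≃ₜ X'`,
`e' : Z × ℝ ≃ₜ Z'` homeomorphisms.

* `psh g q` : `(g ∧ 1) ∘ q`, jointly continuous;
* `adjL`, `adjR` : based loops in `BMap X T` and `BMap (ℝ × X) T`;
* `lo1 c : C(BMap X (B × Z), Lo (bzero X (B₁ × Z)))`, `(lo1 c q) s = (c (loopE s, ·) ∧ 1) ∘ q`;
* `lad c e e' : C(Lo (bzero X (B₁ × Z)), BMap X' (B × Z'))` : the first coordinate becomes the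
  last one;
* `lad_lo1` : `lad ∘ lo1` is the stage map; `homotopic_lo1_lad` : `lo1 ∘ lad` is homotopic to
  `Lo.map` of the stage map.
-/

open OnePoint Topology Vale.Agent.P251.G Vale.Agent.P263.TOP Vale.Agent.P263.GB unitInterval
  Filter

set_option linter.unusedSectionVars false

namespace Vale.Agent.P263.G2

/-! ### the calculus of `psh` and `hmB` -/

section psh

variable {X B B' B'' Z : Type} [TopologicalSpace X] [T2Space X] [LocallyCompactSpace X]
  [TopologicalSpace B] [T2Space B] [LocallyCompactSpace B]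
  [TopologicalSpace B'] [T2Space B'] [LocallyCompactSpace B']
  [TopologicalSpace B''] [T2Space B''] [LocallyCompactSpace B'']
  [TopologicalSpace Z] [T2Space Z] [LocallyCompactSpace Z]

/-- `(g ∧ 1) ∘ q` -/
def psh (g : BMap B B') (q : BMap X (B × Z)) : BMap X (B' × Z) := bcomp (BMap.sus Z g) q

theorem psh_apply (g : BMap B B') (q : BMap X (B × Z)) (x : OnePoint X) :
    (psh g q).1 x = (BMap.sus Z g).1 (q.1 x) := rfl

theorem continuous_psh {T : Type*} [TopologicalSpace T] {g : T → BMap B B'}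
    {q : T → BMap X (B × Z)} (hg : Continuous g) (hq : Continuous q) :
    Continuous fun t => psh (g t) (q t) :=
  continuous_bcomp (BMap.continuous_sus.comp hg) hq

@[simp] theorem psh_bid (q : BMap X (B × Z)) : psh (bid B) q = q := by
  refine bext fun x => ?_
  rw [psh_apply]
  generalize q.1 (x : OnePoint X) = z
  induction z using OnePoint.rec with
  | infty => rfl
  | coe p => rfl

theorem psh_psh (h : BMap B' B'') (g : BMap B B') (q : BMap X (B × Z)) :
    psh h (psh g q) = psh (bcomp h g) q := by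
  refine bext fun x => ?_
  rw [psh_apply, psh_apply, psh_apply]
  generalize q.1 (x : OnePoint X) = z
  induction z using OnePoint.rec with
  | infty => rfl
  | coe p =>
    obtain ⟨b, z⟩ := p
    show (BMap.sus Z h).1 ((BMap.sus Z g).1 (LC.smash (b : OnePoint B) (z : OnePoint Z))) =
      (BMap.sus Z (bcomp h g)).1 (LC.smash (b : OnePoint B) (z : OnePoint Z))
    rw [BMap.sus_smash, BMap.sus_smash, BMap.sus_smash]
    rfl

@[simp] theorem psh_zero (g : BMap B B') : psh g (bzero X (B × Z)) = bzero X (B' × Z) := rfl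

@[simp] theorem zero_psh (q : BMap X (B × Z)) : psh (bzero B B') q = bzero X (B' × Z) := by
  refine bext fun x => ?_
  rw [psh_apply]
  generalize q.1 (x : OnePoint X) = z
  induction z using OnePoint.rec with
  | infty => rfl
  | coe p => rfl

/-- the based map of a homeomorphism -/
def hmB (h : B ≃ₜ B') : BMap B B' := ⟨(opH h : C(OnePoint B, OnePoint B')), rfl⟩

@[simp] theorem hmB_coe (h : B ≃ₜ B') (x : B) :
    (hmB h).1 (x : OnePoint B) = (h x : OnePoint B') := rfl

theorem hmB_apply (h : B ≃ₜ B') (x : OnePoint B) : (hmB h).1 x = opH h x := rfl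

end psh

/-! ### families of homeomorphisms -/

section family

variable {P X Y : Type} [TopologicalSpace P] [CompactSpace P] [T2Space P]
  [TopologicalSpace X] [T2Space X] [LocallyCompactSpace X]
  [TopologicalSpace Y] [T2Space Y] [LocallyCompactSpace Y]

theorem tendsto_snd_cocompact : Tendsto (Prod.snd : P × Y → Y) (cocompact (P × Y))
    (cocompact Y) := by
  intro U hU
  obtain ⟨C, hC, hCU⟩ := mem_cocompact.1 hU
  refine mem_cocompact.2 ⟨Set.univ ×ˢ C, isCompact_univ.prod hC, ?_⟩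
  rintro ⟨p, y⟩ hy
  exact hCU fun h => hy ⟨Set.mem_univ _, h⟩

/-- a continuous family of homeomorphisms with continuous family of inverses, parametrised by a
compact space, is a continuous family of based maps -/
theorem continuous_family (R : P → X ≃ₜ Y) (h1 : Continuous fun p : P × X => R p.1 p.2)
    (h2 : Continuous fun p : P × Y => (R p.1).symm p.2) : Continuous fun p => hmB (R p) := by
  -- the homeomorphism `P × X ≃ P × Y`
  let ρ : P × X ≃ₜ P × Y :=
    { toFun := fun p => (p.1, R p.1 p.2)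
      invFun := fun p => (p.1, (R p.1).symm p.2)
      left_inv := fun p => by simp
      right_inv := fun p => by simp
      continuous_toFun := continuous_fst.prodMk h1
      continuous_invFun := continuous_fst.prodMk h2 }
  let π : BMap (P × Y) Y := ⟨⟨OnePoint.map Prod.snd, OnePoint.continuous_map continuous_snd (by
    rw [coclosedCompact_eq_cocompact, coclosedCompact_eq_cocompact]
    exact tendsto_snd_cocompact)⟩, rfl⟩
  refine continuous_bmk _ ?_
  have h3 : (fun p : P × OnePoint X => (hmB (R p.1)).1 p.2) =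
      fun p : P × OnePoint X => π.1 ((hmB ρ).1 (LC.smash (p.1 : OnePoint P) p.2)) := by
    funext ⟨p, x⟩
    induction x using OnePoint.rec with
    | infty =>
      show ∞ = π.1 ((hmB ρ).1 (LC.smash (p : OnePoint P) ∞))
      rw [LC.smash_infty_right]
      rfl
    | coe x => rfl
  rw [h3]
  exact π.1.continuous.comp ((hmB ρ).1.continuous.comp (LC.continuous_smash.comp
    ((OnePoint.continuous_coe.comp continuous_fst).prodMk continuous_snd)))

end family

/-! ### loops and maps out of `ℝ × X` -/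

section adj

variable {X T : Type} [TopologicalSpace X] [T2Space X] [LocallyCompactSpace X]
  [TopologicalSpace T] [T2Space T] [LocallyCompactSpace T]

variable (X) in
/-- the map `x ↦ (u, x)` -/
def front (u : OnePoint ℝ) : BMap X (ℝ × X) :=
  ⟨⟨fun x => LC.smash u x, LC.continuous_smash.comp (continuous_const.prodMk continuous_id)⟩,
    LC.smash_infty_right u⟩

@[simp] theorem front_apply (u : OnePoint ℝ) (x : OnePoint X) :
    (front X u).1 x = LC.smash u x := rfl

@[simp] theorem front_infty : front X ∞ = bzero X (ℝ × X) := rfl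

theorem continuous_front {S : Type*} [TopologicalSpace S] {u : S → OnePoint ℝ}
    (hu : Continuous u) : Continuous fun s => front X (u s) :=
  continuous_bmk _ (LC.continuous_smash.comp ((hu.comp continuous_fst).prodMk continuous_snd))

/-- from maps out of `ℝ × X` to loops -/
noncomputable def adjL : C(BMap (ℝ × X) T, Lo (bzero X T)) where
  toFun f := ⟨⟨fun s => bcomp f (front X (loopE s)), continuous_bcomp continuous_const
    (continuous_front (continuous_loopE.comp continuous_subtype_val))⟩, by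
    constructor
    · show bcomp f (front X (loopE ((0 : I) : ℝ))) = _
      rw [show loopE ((0 : I) : ℝ) = ∞ from loopE_zero, front_infty, bcomp_zero]
    · show bcomp f (front X (loopE ((1 : I) : ℝ))) = _
      rw [show loopE ((1 : I) : ℝ) = ∞ from loopE_one, front_infty, bcomp_zero]⟩
  continuous_toFun := Lo.continuous_mk _ (continuous_bcomp continuous_fst
    (continuous_front (continuous_loopE.comp (continuous_subtype_val.comp continuous_snd))))

theorem adjL_apply (f : BMap (ℝ × X) T) (s : I) (x : OnePoint X) :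
    ((adjL f).1 s).1 x = f.1 (LC.smash (loopE s) x) := rfl

/-- the inverse of the standard loop, as a point of the unit interval -/
noncomputable def loopJ (r : ℝ) : I := ⟨loopI r, (loopI_pos r).le, (loopI_lt_one r).le⟩

/-- the underlying function of `adjR` -/
noncomputable def adjFun (l : Lo (bzero X T)) (p : OnePoint (ℝ × X)) : OnePoint T :=
  p.elim ∞ fun p => (l.1 (loopJ p.1)).1 (p.2 : OnePoint X)

theorem adjFun_smash (l : Lo (bzero X T)) (s : I) (x : OnePoint X) :
    adjFun l (LC.smash (loopE s) x) = (l.1 s).1 x := by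
  have key : ∀ z : OnePoint X, (l.1 s).1 z = adjFun l (LC.smash (loopE s) z) ∨ z ≠ x := by
    intro z
    left
    by_cases h : 0 < (s : ℝ) ∧ (s : ℝ) < 1
    · rw [loopE, if_pos h]
      have h1 : loopJ (Real.tan (Real.pi * ((s : ℝ) - 1 / 2))) = s :=
        Subtype.ext (loopI_tan h.1 h.2)
      induction z using OnePoint.rec with
      | infty => rw [LC.smash_infty_right]; exact (l.1 s).2
      | coe z =>
        show _ = (l.1 (loopJ (Real.tan (Real.pi * ((s : ℝ) - 1 / 2))))).1 (z : OnePoint X)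
        rw [h1]
    · have h2 : loopE (s : ℝ) = ∞ := by rw [loopE, if_neg h]
      rw [h2, LC.smash_infty_left]
      have h3 : s = 0 ∨ s = 1 := by
        rcases s.2.1.eq_or_lt with h4 | h4
        · left; exact Subtype.ext h4.symm
        · right
          rcases s.2.2.eq_or_lt with h5 | h5
          · exact Subtype.ext h5
          · exact absurd ⟨h4, h5⟩ h
      rcases h3 with h3 | h3
      · rw [h3, l.2.1]; rfl
      · rw [h3, l.2.2]; rfl
  rcases key x with h | h
  · exact h.symm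
  · exact absurd rfl h

theorem isQuotientMap_loop_smash (S : Type*) [TopologicalSpace S] :
    IsQuotientMap (Prod.map (id : S → S) fun p : I × OnePoint X => LC.smash (loopU p.1) p.2) := by
  have h1 : Function.Surjective fun p : I × OnePoint X => LC.smash (loopU p.1) p.2 := by
    intro z
    obtain ⟨⟨u, x⟩, rfl⟩ := smash_surjective z
    obtain ⟨s, rfl⟩ := loopU_surjective u
    exact ⟨(s, x), rfl⟩
  have h2 : Continuous fun p : I × OnePoint X => LC.smash (loopU p.1) p.2 :=
    LC.continuous_smash.comp ((loopU.continuous.comp continuous_fst).prodMk continuous_snd)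
  exact (isProperMap_id.prodMap h2.isProperMap).isClosedMap.isQuotientMap
    (continuous_id.prodMap h2) (Function.surjective_id.prodMap h1)

theorem continuous_adjFun {S : Type*} [TopologicalSpace S] {l : S → Lo (bzero X T)}
    (hl : Continuous l) : Continuous fun p : S × OnePoint (ℝ × X) => adjFun (l p.1) p.2 := by
  rw [(isQuotientMap_loop_smash (X := X) S).continuous_iff]
  have h1 : (fun p : S × OnePoint (ℝ × X) => adjFun (l p.1) p.2) ∘ (Prod.map (id : S → S)
      fun p : I × OnePoint X => LC.smash (loopU p.1) p.2) =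
      fun p : S × (I × OnePoint X) => ((l p.1).1 p.2.1).1 p.2.2 := by
    funext ⟨s, u, x⟩
    exact adjFun_smash (l s) u x
  rw [h1]
  exact continuous_bmap (Lo.continuous_eval (hl.comp continuous_fst)
    (continuous_fst.comp continuous_snd)) (continuous_snd.comp continuous_snd)

/-- from loops to maps out of `ℝ × X` -/
noncomputable def adjR : C(Lo (bzero X T), BMap (ℝ × X) T) where
  toFun l := ⟨⟨adjFun l, (continuous_adjFun (S := Unit) (l := fun _ => l)
    continuous_const).comp (Continuous.prodMk continuous_const continuous_id :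
      Continuous fun q => ((), q))⟩, rfl⟩
  continuous_toFun := continuous_bmk _ (continuous_adjFun continuous_id)

theorem adjR_coe (l : Lo (bzero X T)) (r : ℝ) (x : X) :
    (adjR l).1 (((r, x) : ℝ × X) : OnePoint (ℝ × X)) = (l.1 (loopJ r)).1 (x : OnePoint X) := rfl

theorem adjR_smash (l : Lo (bzero X T)) (s : I) (x : OnePoint X) :
    (adjR l).1 (LC.smash (loopE s) x) = (l.1 s).1 x := adjFun_smash l s x

@[simp] theorem adjL_adjR (l : Lo (bzero X T)) : adjL (adjR l) = l :=
  Lo.ext fun s => Subtype.ext (ContinuousMap.ext fun x => adjR_smash l s x)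

@[simp] theorem adjR_adjL (f : BMap (ℝ × X) T) : adjR (adjL f) = f := by
  refine bext fun p => ?_
  obtain ⟨r, x⟩ := p
  rw [adjR_coe, adjL_apply]
  show f.1 (LC.smash (loopE (loopI r)) (x : OnePoint X)) = _
  rw [loopE_loopI]
  rfl

end adj

/-! ### rotations -/

section rot

/-- the rotation of the plane by the angle `s π / 2` -/
noncomputable def rot (s : ℝ) : ℝ × ℝ ≃ₜ ℝ × ℝ where
  toFun p := (Real.cos (s * (Real.pi / 2)) * p.1 + Real.sin (s * (Real.pi / 2)) * p.2,
    -Real.sin (s * (Real.pi / 2)) * p.1 + Real.cos (s * (Real.pi / 2)) * p.2)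
  invFun p := (Real.cos (s * (Real.pi / 2)) * p.1 - Real.sin (s * (Real.pi / 2)) * p.2,
    Real.sin (s * (Real.pi / 2)) * p.1 + Real.cos (s * (Real.pi / 2)) * p.2)
  left_inv p := by
    have h := Real.sin_sq_add_cos_sq (s * (Real.pi / 2))
    refine Prod.ext ?_ ?_
    · show Real.cos _ * (Real.cos _ * p.1 + Real.sin _ * p.2) -
        Real.sin _ * (-Real.sin _ * p.1 + Real.cos _ * p.2) = p.1
      linear_combination p.1 * h
    · show Real.sin _ * (Real.cos _ * p.1 + Real.sin _ * p.2) +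
        Real.cos _ * (-Real.sin _ * p.1 + Real.cos _ * p.2) = p.2
      linear_combination p.2 * h
  right_inv p := by
    have h := Real.sin_sq_add_cos_sq (s * (Real.pi / 2))
    refine Prod.ext ?_ ?_
    · show Real.cos _ * (Real.cos _ * p.1 - Real.sin _ * p.2) +
        Real.sin _ * (Real.sin _ * p.1 + Real.cos _ * p.2) = p.1
      linear_combination p.1 * h
    · show -Real.sin _ * (Real.cos _ * p.1 - Real.sin _ * p.2) +
        Real.cos _ * (Real.sin _ * p.1 + Real.cos _ * p.2) = p.2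
      linear_combination p.2 * h
  continuous_toFun := by fun_prop
  continuous_invFun := by fun_prop

theorem rot_apply (s : ℝ) (p : ℝ × ℝ) : rot s p =
    (Real.cos (s * (Real.pi / 2)) * p.1 + Real.sin (s * (Real.pi / 2)) * p.2,
    -Real.sin (s * (Real.pi / 2)) * p.1 + Real.cos (s * (Real.pi / 2)) * p.2) := rfl

theorem rot_symm_apply (s : ℝ) (p : ℝ × ℝ) : (rot s).symm p =
    (Real.cos (s * (Real.pi / 2)) * p.1 - Real.sin (s * (Real.pi / 2)) * p.2,
    Real.sin (s * (Real.pi / 2)) * p.1 + Real.cos (s * (Real.pi / 2)) * p.2) := rfl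

@[simp] theorem rot_zero (p : ℝ × ℝ) : rot 0 p = p := by
  rw [rot_apply]; simp

@[simp] theorem rot_symm_zero (p : ℝ × ℝ) : (rot 0).symm p = p := by
  rw [rot_symm_apply]; simp

@[simp] theorem rot_one (p : ℝ × ℝ) : rot 1 p = (p.2, -p.1) := by
  rw [rot_apply]; simp

@[simp] theorem rot_symm_one (p : ℝ × ℝ) : (rot 1).symm p = (-p.2, p.1) := by
  rw [rot_symm_apply]; simp

variable (X : Type) [TopologicalSpace X] [T2Space X] [LocallyCompactSpace X]

/-- the rotation of `ℝ² × X` -/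
noncomputable def rotB (s : I) : BMap ((ℝ × ℝ) × X) ((ℝ × ℝ) × X) :=
  hmB ((rot s).prodCongr (Homeomorph.refl X))

/-- the inverse rotation of `ℝ² × X` -/
noncomputable def rotB' (s : I) : BMap ((ℝ × ℝ) × X) ((ℝ × ℝ) × X) :=
  hmB ((rot s).symm.prodCongr (Homeomorph.refl X))

theorem rotB_coe (s : I) (p : ℝ × ℝ) (x : X) :
    (rotB X s).1 (((p, x) : (ℝ × ℝ) × X) : OnePoint ((ℝ × ℝ) × X)) =
      (((rot s p, x) : (ℝ × ℝ) × X) : OnePoint ((ℝ × ℝ) × X)) := rfl

theorem rotB'_coe (s : I) (p : ℝ × ℝ) (x : X) :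
    (rotB' X s).1 (((p, x) : (ℝ × ℝ) × X) : OnePoint ((ℝ × ℝ) × X)) =
      ((((rot s).symm p, x) : (ℝ × ℝ) × X) : OnePoint ((ℝ × ℝ) × X)) := rfl

theorem continuous_rot_uncurry : Continuous fun p : I × (ℝ × ℝ) => rot p.1 p.2 := by
  have h1 : (fun p : I × (ℝ × ℝ) => rot p.1 p.2) = fun p : I × (ℝ × ℝ) =>
    (Real.cos ((p.1 : ℝ) * (Real.pi / 2)) * p.2.1 + Real.sin ((p.1 : ℝ) * (Real.pi / 2)) * p.2.2,
    -Real.sin ((p.1 : ℝ) * (Real.pi / 2)) * p.2.1 +
      Real.cos ((p.1 : ℝ) * (Real.pi / 2)) * p.2.2) := rfl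
  rw [h1]
  fun_prop

theorem continuous_rot_symm_uncurry : Continuous fun p : I × (ℝ × ℝ) => (rot p.1).symm p.2 := by
  have h1 : (fun p : I × (ℝ × ℝ) => (rot p.1).symm p.2) = fun p : I × (ℝ × ℝ) =>
    (Real.cos ((p.1 : ℝ) * (Real.pi / 2)) * p.2.1 - Real.sin ((p.1 : ℝ) * (Real.pi / 2)) * p.2.2,
    Real.sin ((p.1 : ℝ) * (Real.pi / 2)) * p.2.1 +
      Real.cos ((p.1 : ℝ) * (Real.pi / 2)) * p.2.2) := rfl
  rw [h1]
  fun_prop

theorem continuous_rotB : Continuous (rotB X) := by
  refine continuous_family (fun s : I => (rot s).prodCongr (Homeomorph.refl X)) ?_ ?_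
  · exact (continuous_rot_uncurry.comp (continuous_fst.prodMk
      (continuous_fst.comp continuous_snd))).prodMk (continuous_snd.comp continuous_snd)
  · exact (continuous_rot_symm_uncurry.comp (continuous_fst.prodMk
      (continuous_fst.comp continuous_snd))).prodMk (continuous_snd.comp continuous_snd)

theorem continuous_rotB' : Continuous (rotB' X) := by
  refine continuous_family (fun s : I => (rot s).symm.prodCongr (Homeomorph.refl X)) ?_ ?_
  · exact (continuous_rot_symm_uncurry.comp (continuous_fst.prodMk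
      (continuous_fst.comp continuous_snd))).prodMk (continuous_snd.comp continuous_snd)
  · exact (continuous_rot_uncurry.comp (continuous_fst.prodMk
      (continuous_fst.comp continuous_snd))).prodMk (continuous_snd.comp continuous_snd)

end rot

/-! ### the ladder -/

section ladder

variable {X B Z X' B₁ Z' : Type} [TopologicalSpace X] [T2Space X] [LocallyCompactSpace X]
  [TopologicalSpace B] [T2Space B] [LocallyCompactSpace B]
  [TopologicalSpace Z] [T2Space Z] [LocallyCompactSpace Z]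
  [TopologicalSpace X'] [T2Space X'] [LocallyCompactSpace X']
  [TopologicalSpace B₁] [T2Space B₁] [LocallyCompactSpace B₁]
  [TopologicalSpace Z'] [T2Space Z'] [LocallyCompactSpace Z']

/-- the map `b ↦ c (u, b)` -/
def line0 (c : ℝ × B ≃ₜ B₁) (u : OnePoint ℝ) : BMap B B₁ := bcomp (hmB c) (front B u)

@[simp] theorem line0_apply (c : ℝ × B ≃ₜ B₁) (u : OnePoint ℝ) (b : OnePoint B) :
    (line0 c u).1 b = opH c (LC.smash u b) := rfl

theorem line0_infty (c : ℝ × B ≃ₜ B₁) : line0 c ∞ = bzero B B₁ := rfl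

theorem continuous_line0 {S : Type*} [TopologicalSpace S] (c : ℝ × B ≃ₜ B₁) {u : S → OnePoint ℝ}
    (hu : Continuous u) : Continuous fun s => line0 c (u s) :=
  continuous_bcomp continuous_const (continuous_front hu)

/-- the standard map to the loop space -/
noncomputable def lo1 (c : ℝ × B ≃ₜ B₁) : C(BMap X (B × Z), Lo (bzero X (B₁ × Z))) where
  toFun q := ⟨⟨fun s => psh (line0 c (loopE s)) q, continuous_psh
    (continuous_line0 c (continuous_loopE.comp continuous_subtype_val)) continuous_const⟩, by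
    constructor
    · show psh (line0 c (loopE ((0 : I) : ℝ))) q = _
      rw [show loopE ((0 : I) : ℝ) = ∞ from loopE_zero, line0_infty, zero_psh]
    · show psh (line0 c (loopE ((1 : I) : ℝ))) q = _
      rw [show loopE ((1 : I) : ℝ) = ∞ from loopE_one, line0_infty, zero_psh]⟩
  continuous_toFun := Lo.continuous_mk _ (continuous_psh
    (continuous_line0 c (continuous_loopE.comp (continuous_subtype_val.comp continuous_snd)))
    continuous_fst)

theorem lo1_apply (c : ℝ × B ≃ₜ B₁) (q : BMap X (B × Z)) (s : I) :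
    (lo1 c q).1 s = psh (line0 c (loopE s)) q := rfl

/-- `X' = X × ℝ = ℝ × X` -/
def ladS (e : X × ℝ ≃ₜ X') : X' ≃ₜ ℝ × X := e.symm.trans (Homeomorph.prodComm X ℝ)

theorem ladS_apply (e : X × ℝ ≃ₜ X') (x : X) (r : ℝ) : ladS e (e (x, r)) = (r, x) := by
  show Prod.swap (e.symm (e (x, r))) = _
  rw [Homeomorph.symm_apply_apply]; rfl

/-- `B₁ × Z = (ℝ × B) × Z = B × (Z × ℝ) = B × Z'` -/
def ladT (c : ℝ × B ≃ₜ B₁) (e' : Z × ℝ ≃ₜ Z') : B₁ × Z ≃ₜ B × Z' :=
  ((c.symm.trans (Homeomorph.prodComm ℝ B)).prodCongr (Homeomorph.refl Z)).trans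
    ((Homeomorph.prodAssoc B ℝ Z).trans ((Homeomorph.refl B).prodCongr
      ((Homeomorph.prodComm ℝ Z).trans e')))

theorem ladT_apply (c : ℝ × B ≃ₜ B₁) (e' : Z × ℝ ≃ₜ Z') (a : ℝ) (b : B) (z : Z) :
    ladT c e' (c (a, b), z) = (b, e' (z, a)) := by
  show ((Prod.swap (c.symm (c (a, b)))).1, e' (z, (Prod.swap (c.symm (c (a, b)))).2)) = _
  rw [Homeomorph.symm_apply_apply]; rfl

/-- the map from loops to the next stage -/
noncomputable def lad (c : ℝ × B ≃ₜ B₁) (e : X × ℝ ≃ₜ X') (e' : Z × ℝ ≃ₜ Z') :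
    C(Lo (bzero X (B₁ × Z)), BMap X' (B × Z')) where
  toFun l := bcomp (hmB (ladT c e')) (bcomp (adjR l) (hmB (ladS e)))
  continuous_toFun := continuous_bcomp continuous_const
    (continuous_bcomp adjR.continuous continuous_const)

theorem lad_coe (c : ℝ × B ≃ₜ B₁) (e : X × ℝ ≃ₜ X') (e' : Z × ℝ ≃ₜ Z')
    (l : Lo (bzero X (B₁ × Z))) (x : X) (r : ℝ) :
    (lad c e e' l).1 ((e (x, r) : X') : OnePoint X') =
      opH (ladT c e') ((l.1 (loopJ r)).1 (x : OnePoint X)) := by
  show opH (ladT c e') ((adjR l).1 ((ladS e (e (x, r)) : ℝ × X) : OnePoint (ℝ × X))) = _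
  rw [ladS_apply, adjR_coe]

/-- the points of `X'` -/
theorem exists_point (e : X × ℝ ≃ₜ X') (x' : X') : ∃ x r, x' = e (x, r) :=
  ⟨(e.symm x').1, (e.symm x').2, by simp⟩

/-- based maps out of `X'` are determined by the values at the points `e (x, t)` -/
theorem bext' {W : Type} [TopologicalSpace W] [T2Space W] [LocallyCompactSpace W]
    (e : X × ℝ ≃ₜ X') {f g : BMap X' W}
    (h : ∀ x r, f.1 ((e (x, r) : X') : OnePoint X') = g.1 ((e (x, r) : X') : OnePoint X')) :
    f = g := by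
  refine bext fun x' => ?_
  obtain ⟨x, r, rfl⟩ := exists_point e x'
  exact h x r

theorem stC_coe {Y Y' : Type} [TopologicalSpace Y] [T2Space Y] [LocallyCompactSpace Y]
    [TopologicalSpace Y'] [T2Space Y'] [LocallyCompactSpace Y'] (e : X × ℝ ≃ₜ X')
    (e' : Y × ℝ ≃ₜ Y') (f : BMap X Y) (x : X) (r : ℝ) :
    (stC e e' f).1 ((e (x, r) : X') : OnePoint X') =
      opH e' (LC.smash (f.1 (x : OnePoint X)) (r : OnePoint ℝ)) :=
  stC_smash e e' f (x : OnePoint X) (r : OnePoint ℝ)

/-- **`lad ∘ lo1` is the stage map.** -/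
theorem lad_lo1 (c : ℝ × B ≃ₜ B₁) (e : X × ℝ ≃ₜ X') (e' : Z × ℝ ≃ₜ Z') (q : BMap X (B × Z)) :
    lad c e e' (lo1 c q) = stC e (kH B e') q := by
  refine bext' e fun x r => ?_
  rw [lad_coe, stC_coe, lo1_apply, psh_apply]
  show opH (ladT c e') ((BMap.sus Z (line0 c (loopE (loopI r)))).1 (q.1 (x : OnePoint X))) = _
  rw [loopE_loopI]
  generalize q.1 (x : OnePoint X) = p
  induction p using OnePoint.rec with
  | infty => rfl
  | coe p =>
    obtain ⟨b, z⟩ := p
    show opH (ladT c e') (((c (r, b), z) : B₁ × Z) : OnePoint (B₁ × Z)) = _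
    rw [opH_coe, ladT_apply]
    rfl

theorem stC_bzero {Y Y' : Type} [TopologicalSpace Y] [T2Space Y] [LocallyCompactSpace Y]
    [TopologicalSpace Y'] [T2Space Y'] [LocallyCompactSpace Y'] (e : X × ℝ ≃ₜ X')
    (e' : Y × ℝ ≃ₜ Y') : stC e e' (bzero X Y) = bzero X' Y' := by
  refine bext' e fun x r => ?_
  rw [stC_coe]
  rfl

/-- `ℝ × X' = (ℝ × ℝ) × X` -/
def hS (e : X × ℝ ≃ₜ X') : ℝ × X' ≃ₜ (ℝ × ℝ) × X :=
  ((Homeomorph.refl ℝ).prodCongr (ladS e)).trans (Homeomorph.prodAssoc ℝ ℝ X).symm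

theorem hS_apply (e : X × ℝ ≃ₜ X') (a : ℝ) (x : X) (r : ℝ) :
    hS e (a, e (x, r)) = ((a, r), x) := by
  show ((a, (ladS e (e (x, r))).1), (ladS e (e (x, r))).2) = _
  rw [ladS_apply]

/-- `(ℝ × ℝ) × X = (ℝ × X) × ℝ` -/
def kS (X : Type) [TopologicalSpace X] : (ℝ × ℝ) × X ≃ₜ (ℝ × X) × ℝ :=
  (Homeomorph.prodAssoc ℝ ℝ X).trans (((Homeomorph.refl ℝ).prodCongr
    (Homeomorph.prodComm ℝ X)).trans (Homeomorph.prodAssoc ℝ X ℝ).symm)

theorem kS_apply (a r : ℝ) (x : X) : kS X ((a, r), x) = ((a, x), r) := rfl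

/-- `(B₁ × Z) × ℝ = (ℝ × ℝ) × (B × Z)` -/
def kT (c : ℝ × B ≃ₜ B₁) (Z : Type) [TopologicalSpace Z] :
    (B₁ × Z) × ℝ ≃ₜ (ℝ × ℝ) × (B × Z) :=
  ((((c.symm.prodCongr (Homeomorph.refl Z)).trans (Homeomorph.prodAssoc ℝ B Z)).prodCongr
    (Homeomorph.refl ℝ))).trans (kS (B × Z)).symm

theorem kT_apply (c : ℝ × B ≃ₜ B₁) (a : ℝ) (b : B) (z : Z) (r : ℝ) :
    kT c Z ((c (a, b), z), r) = ((a, r), (b, z)) := by
  show (((c.symm (c (a, b))).1, r), ((c.symm (c (a, b))).2, z)) = _
  rw [Homeomorph.symm_apply_apply]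

/-- `(ℝ × ℝ) × (B × Z) = B₁ × Z'` -/
def kU (c : ℝ × B ≃ₜ B₁) (e' : Z × ℝ ≃ₜ Z') : (ℝ × ℝ) × (B × Z) ≃ₜ B₁ × Z' :=
  (kT c Z).symm.trans (kH B₁ e')

theorem kU_apply (c : ℝ × B ≃ₜ B₁) (e' : Z × ℝ ≃ₜ Z') (a r : ℝ) (b : B) (z : Z) :
    kU c e' ((a, r), (b, z)) = (c (a, b), e' (z, r)) := by
  show kH B₁ e' ((kT c Z).symm ((a, r), (b, z))) = _
  rw [← kT_apply c a b z r, Homeomorph.symm_apply_apply]
  rfl

/-- the rotated map -/
noncomputable def rotM (c : ℝ × B ≃ₜ B₁) (e : X × ℝ ≃ₜ X') (e' : Z × ℝ ≃ₜ Z') (s : I)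
    (f : BMap (ℝ × X) (B₁ × Z)) : BMap (ℝ × X') (B₁ × Z') :=
  bcomp (bcomp (hmB (kU c e')) (bcomp (rotB' (B × Z) s) (hmB (kT c Z))))
    (bcomp (BMap.sus ℝ f) (bcomp (hmB (kS X)) (bcomp (rotB X s) (hmB (hS e)))))

theorem continuous_rotM {S : Type*} [TopologicalSpace S] (c : ℝ × B ≃ₜ B₁) (e : X × ℝ ≃ₜ X')
    (e' : Z × ℝ ≃ₜ Z') {s : S → I} {f : S → BMap (ℝ × X) (B₁ × Z)} (hs : Continuous s)
    (hf : Continuous f) : Continuous fun t => rotM c e e' (s t) (f t) := by
  refine continuous_bcomp (continuous_bcomp continuous_const (continuous_bcomp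
    ((continuous_rotB' (B × Z)).comp hs) continuous_const)) (continuous_bcomp
      (BMap.continuous_sus.comp hf) (continuous_bcomp continuous_const
        (continuous_bcomp ((continuous_rotB X).comp hs) continuous_const)))

/-- the value of the rotated map -/
theorem rotM_coe (c : ℝ × B ≃ₜ B₁) (e : X × ℝ ≃ₜ X') (e' : Z × ℝ ≃ₜ Z') (s : I)
    (f : BMap (ℝ × X) (B₁ × Z)) (a : ℝ) (x : X) (r : ℝ) :
    (rotM c e e' s f).1 (((a, e (x, r)) : ℝ × X') : OnePoint (ℝ × X')) =
      opH (kU c e') ((rotB' (B × Z) s).1 (opH (kT c Z) (LC.smash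
        (f.1 ((((rot s (a, r)).1, x) : ℝ × X) : OnePoint (ℝ × X)))
        (((rot s (a, r)).2 : ℝ) : OnePoint ℝ)))) := by
  show opH (kU c e') ((rotB' (B × Z) s).1 (opH (kT c Z) ((BMap.sus ℝ f).1
    (opH (kS X) ((rotB X s).1 ((hS e (a, e (x, r)) : (ℝ × ℝ) × X) :
      OnePoint ((ℝ × ℝ) × X))))))) = _
  rw [hS_apply]
  rfl

/-- the value on a point of the target -/
theorem rotM_target (c : ℝ × B ≃ₜ B₁) (e' : Z × ℝ ≃ₜ Z') (s : I) (a r : ℝ) (b : B) (z : Z) :
    opH (kU c e') ((rotB' (B × Z) s).1 (opH (kT c Z) (LC.smash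
      (((c (a, b), z) : B₁ × Z) : OnePoint (B₁ × Z)) (r : OnePoint ℝ)))) =
      (((c (((rot s).symm (a, r)).1, b), e' (z, ((rot s).symm (a, r)).2)) : B₁ × Z') :
        OnePoint (B₁ × Z')) := by
  have h1 : opH (kT c Z) (LC.smash (((c (a, b), z) : B₁ × Z) : OnePoint (B₁ × Z))
      (r : OnePoint ℝ)) = ((((a, r), (b, z)) : (ℝ × ℝ) × (B × Z)) :
        OnePoint ((ℝ × ℝ) × (B × Z))) := by
    show ((kT c Z ((c (a, b), z), r) : (ℝ × ℝ) × (B × Z)) :
      OnePoint ((ℝ × ℝ) × (B × Z))) = _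
    rw [kT_apply]
  rw [h1, rotB'_coe, opH_coe]
  rw [← Prod.mk.eta (p := (rot s).symm (a, r)), kU_apply]

theorem exists_target (c : ℝ × B ≃ₜ B₁) (b₁ : B₁) : ∃ a b, b₁ = c (a, b) :=
  ⟨(c.symm b₁).1, (c.symm b₁).2, by simp⟩

theorem rotM_zero (c : ℝ × B ≃ₜ B₁) (e : X × ℝ ≃ₜ X') (e' : Z × ℝ ≃ₜ Z')
    (l : Lo (bzero X (B₁ × Z))) :
    adjL (rotM c e e' 0 (adjR l)) =
      Lo.map (stC e (kH B₁ e')) (stC_bzero e (kH B₁ e')) l := by
  rw [← adjL_adjR (Lo.map (stC e (kH B₁ e')) (stC_bzero e (kH B₁ e')) l)]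
  congr 1
  refine bext fun p => ?_
  obtain ⟨a, x'⟩ := p
  obtain ⟨x, r, rfl⟩ := exists_point e x'
  rw [rotM_coe, adjR_coe, adjR_coe]
  show _ = (stC e (kH B₁ e') (l.1 (loopJ a))).1 ((e (x, r) : X') : OnePoint X')
  rw [stC_coe]
  rw [show ((0 : I) : ℝ) = 0 from rfl, rot_zero]
  generalize (l.1 (loopJ a)).1 (x : OnePoint X) = p
  induction p using OnePoint.rec with
  | infty => rfl
  | coe p =>
    obtain ⟨b₁, z⟩ := p
    obtain ⟨a', b, rfl⟩ := exists_target c b₁
    rw [rotM_target, show ((0 : I) : ℝ) = 0 from rfl, rot_symm_zero]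
    rfl

theorem rotM_one (c : ℝ × B ≃ₜ B₁) (e : X × ℝ ≃ₜ X') (e' : Z × ℝ ≃ₜ Z')
    (l : Lo (bzero X (B₁ × Z))) :
    adjL (rotM c e e' 1 (adjR l)) = lo1 c (lad c e e' l) := by
  rw [← adjL_adjR (lo1 c (lad c e e' l))]
  congr 1
  refine bext fun p => ?_
  obtain ⟨a, x'⟩ := p
  obtain ⟨x, r, rfl⟩ := exists_point e x'
  rw [rotM_coe, adjR_coe, adjR_coe, lo1_apply, psh_apply, lad_coe]
  show _ = (BMap.sus Z' (line0 c (loopE (loopI a)))).1 _
  rw [loopE_loopI, show ((1 : I) : ℝ) = 1 from rfl, rot_one]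
  generalize (l.1 (loopJ r)).1 (x : OnePoint X) = p
  induction p using OnePoint.rec with
  | infty => rfl
  | coe p =>
    obtain ⟨b₁, z⟩ := p
    obtain ⟨a', b, rfl⟩ := exists_target c b₁
    rw [rotM_target, show ((1 : I) : ℝ) = 1 from rfl, rot_symm_one, opH_coe, ladT_apply]
    show (((c (- -a, b), e' (z, a')) : B₁ × Z') : OnePoint (B₁ × Z')) = _
    rw [neg_neg]
    rfl

/-- **`lo1 ∘ lad` is homotopic to the stage map on loops.** -/
theorem homotopic_lo1_lad (c : ℝ × B ≃ₜ B₁) (e : X × ℝ ≃ₜ X') (e' : Z × ℝ ≃ₜ Z') :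
    ((lo1 c).comp (lad c e e')).Homotopic
      (Lo.map (stC e (kH B₁ e')) (stC_bzero e (kH B₁ e'))) := by
  refine ContinuousMap.Homotopic.symm ⟨⟨⟨fun p => adjL (rotM c e e' p.1 (adjR p.2)),
    adjL.continuous.comp (continuous_rotM c e e' continuous_fst
      (adjR.continuous.comp continuous_snd))⟩, fun l => rotM_zero c e e' l,
    fun l => rotM_one c e e' l⟩⟩

end ladder

end Vale.Agent.P263.G2
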