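import Vale.Agent.P263.G2.Ladder

/-!
# P263, block G2-2: the ladder, for arbitrary target spaces

`h : ℝ × W ≃ₜ W₁` (a delooping of the target), `e : X × ℝ ≃ₜ X'`, `a : W × ℝ ≃ₜ W'`,
`a₁ : W₁ × ℝ ≃ₜ W₁'`, `h' : ℝ × W' ≃ₜ W₁'` with `h' (x, a (w, t)) = a₁ (h (x, w), t)`.

* `lo h : C(BMap X W, Lo (bzero X W₁))`, `(lo h q) s = (w ↦ h (loopE s, w)) ∘ q`;
* `ldW h e a : C(Lo (bzero X W₁), BMap X' W')`;
* `ldW_lo` : `ldW ∘ lo = stC e a`; `homotopic_lo_ldW` : `lo h' ∘ ldW ≃ Lo.map (stC e a₁)`.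
-/

open OnePoint Topology Vale.Agent.P251.G Vale.Agent.P263.TOP Vale.Agent.P263.GB unitInterval
  Filter

set_option linter.unusedSectionVars false

namespace Vale.Agent.P263.G2

section ladderW

variable {X W X' W' W₁ W₁' : Type} [TopologicalSpace X] [T2Space X] [LocallyCompactSpace X]
  [TopologicalSpace W] [T2Space W] [LocallyCompactSpace W]
  [TopologicalSpace X'] [T2Space X'] [LocallyCompactSpace X']
  [TopologicalSpace W'] [T2Space W'] [LocallyCompactSpace W']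
  [TopologicalSpace W₁] [T2Space W₁] [LocallyCompactSpace W₁]
  [TopologicalSpace W₁'] [T2Space W₁'] [LocallyCompactSpace W₁']

/-- the standard map to the loop space -/
noncomputable def lo (h : ℝ × W ≃ₜ W₁) : C(BMap X W, Lo (bzero X W₁)) where
  toFun q := ⟨⟨fun s => bcomp (line0 h (loopE s)) q, continuous_bcomp
    (continuous_line0 h (continuous_loopE.comp continuous_subtype_val)) continuous_const⟩, by
    constructor
    · show bcomp (line0 h (loopE ((0 : I) : ℝ))) q = _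
      rw [show loopE ((0 : I) : ℝ) = ∞ from loopE_zero, line0_infty, zero_bcomp]
    · show bcomp (line0 h (loopE ((1 : I) : ℝ))) q = _
      rw [show loopE ((1 : I) : ℝ) = ∞ from loopE_one, line0_infty, zero_bcomp]⟩
  continuous_toFun := Lo.continuous_mk _ (continuous_bcomp
    (continuous_line0 h (continuous_loopE.comp (continuous_subtype_val.comp continuous_snd)))
    continuous_fst)

theorem lo_apply (h : ℝ × W ≃ₜ W₁) (q : BMap X W) (s : I) :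
    (lo h q).1 s = bcomp (line0 h (loopE s)) q := rfl

/-- `W₁ = ℝ × W = W × ℝ = W'` -/
def lwT (h : ℝ × W ≃ₜ W₁) (a : W × ℝ ≃ₜ W') : W₁ ≃ₜ W' :=
  h.symm.trans ((Homeomorph.prodComm ℝ W).trans a)

theorem lwT_apply (h : ℝ × W ≃ₜ W₁) (a : W × ℝ ≃ₜ W') (x : ℝ) (w : W) :
    lwT h a (h (x, w)) = a (w, x) := by
  show a (Prod.swap (h.symm (h (x, w)))) = _
  rw [Homeomorph.symm_apply_apply]; rfl

/-- the map from loops to the next stage -/
noncomputable def ldW (h : ℝ × W ≃ₜ W₁) (e : X × ℝ ≃ₜ X') (a : W × ℝ ≃ₜ W') :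
    C(Lo (bzero X W₁), BMap X' W') where
  toFun l := bcomp (hmB (lwT h a)) (bcomp (adjR l) (hmB (ladS e)))
  continuous_toFun := continuous_bcomp continuous_const
    (continuous_bcomp adjR.continuous continuous_const)

theorem ldW_coe (h : ℝ × W ≃ₜ W₁) (e : X × ℝ ≃ₜ X') (a : W × ℝ ≃ₜ W')
    (l : Lo (bzero X W₁)) (x : X) (r : ℝ) :
    (ldW h e a l).1 ((e (x, r) : X') : OnePoint X') =
      opH (lwT h a) ((l.1 (loopJ r)).1 (x : OnePoint X)) := by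
  show opH (lwT h a) ((adjR l).1 ((ladS e (e (x, r)) : ℝ × X) : OnePoint (ℝ × X))) = _
  rw [ladS_apply, adjR_coe]

/-- **`ldW ∘ lo` is the stage map.** -/
theorem ldW_lo (h : ℝ × W ≃ₜ W₁) (e : X × ℝ ≃ₜ X') (a : W × ℝ ≃ₜ W') (q : BMap X W) :
    ldW h e a (lo h q) = stC e a q := by
  refine bext' e fun x r => ?_
  rw [ldW_coe, stC_coe, lo_apply, bcomp_apply]
  show opH (lwT h a) ((line0 h (loopE (loopI r))).1 (q.1 (x : OnePoint X))) = _
  rw [loopE_loopI]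
  generalize q.1 (x : OnePoint X) = p
  induction p using OnePoint.rec with
  | infty => rfl
  | coe w =>
    show opH (lwT h a) ((h (r, w) : W₁) : OnePoint W₁) = _
    rw [opH_coe, lwT_apply]
    rfl

/-- `W₁ × ℝ = (ℝ × ℝ) × W` -/
def wT (h : ℝ × W ≃ₜ W₁) : W₁ × ℝ ≃ₜ (ℝ × ℝ) × W :=
  (h.symm.prodCongr (Homeomorph.refl ℝ)).trans (kS W).symm

theorem wT_apply (h : ℝ × W ≃ₜ W₁) (x : ℝ) (w : W) (r : ℝ) :
    wT h (h (x, w), r) = ((x, r), w) := by
  show (((h.symm (h (x, w))).1, r), (h.symm (h (x, w))).2) = _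
  rw [Homeomorph.symm_apply_apply]

/-- `(ℝ × ℝ) × W = W₁'` -/
def wU (h : ℝ × W ≃ₜ W₁) (a₁ : W₁ × ℝ ≃ₜ W₁') : (ℝ × ℝ) × W ≃ₜ W₁' := (wT h).symm.trans a₁

theorem wU_apply (h : ℝ × W ≃ₜ W₁) (a₁ : W₁ × ℝ ≃ₜ W₁') (x r : ℝ) (w : W) :
    wU h a₁ ((x, r), w) = a₁ (h (x, w), r) := by
  show a₁ ((wT h).symm ((x, r), w)) = _
  rw [← wT_apply h x w r, Homeomorph.symm_apply_apply]

/-- the rotated map -/
noncomputable def rotW (h : ℝ × W ≃ₜ W₁) (e : X × ℝ ≃ₜ X') (a₁ : W₁ × ℝ ≃ₜ W₁') (s : I)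
    (f : BMap (ℝ × X) W₁) : BMap (ℝ × X') W₁' :=
  bcomp (bcomp (hmB (wU h a₁)) (bcomp (rotB' W s) (hmB (wT h))))
    (bcomp (BMap.sus ℝ f) (bcomp (hmB (kS X)) (bcomp (rotB X s) (hmB (hS e)))))

theorem continuous_rotW {S : Type*} [TopologicalSpace S] (h : ℝ × W ≃ₜ W₁) (e : X × ℝ ≃ₜ X')
    (a₁ : W₁ × ℝ ≃ₜ W₁') {s : S → I} {f : S → BMap (ℝ × X) W₁} (hs : Continuous s)
    (hf : Continuous f) : Continuous fun t => rotW h e a₁ (s t) (f t) := by
  refine continuous_bcomp (continuous_bcomp continuous_const (continuous_bcomp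
    ((continuous_rotB' W).comp hs) continuous_const)) (continuous_bcomp
      (BMap.continuous_sus.comp hf) (continuous_bcomp continuous_const
        (continuous_bcomp ((continuous_rotB X).comp hs) continuous_const)))

/-- the value of the rotated map -/
theorem rotW_coe (h : ℝ × W ≃ₜ W₁) (e : X × ℝ ≃ₜ X') (a₁ : W₁ × ℝ ≃ₜ W₁') (s : I)
    (f : BMap (ℝ × X) W₁) (y : ℝ) (x : X) (r : ℝ) :
    (rotW h e a₁ s f).1 (((y, e (x, r)) : ℝ × X') : OnePoint (ℝ × X')) =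
      opH (wU h a₁) ((rotB' W s).1 (opH (wT h) (LC.smash
        (f.1 ((((rot s (y, r)).1, x) : ℝ × X) : OnePoint (ℝ × X)))
        (((rot s (y, r)).2 : ℝ) : OnePoint ℝ)))) := by
  show opH (wU h a₁) ((rotB' W s).1 (opH (wT h) ((BMap.sus ℝ f).1
    (opH (kS X) ((rotB X s).1 ((hS e (y, e (x, r)) : (ℝ × ℝ) × X) :
      OnePoint ((ℝ × ℝ) × X))))))) = _
  rw [hS_apply]
  rfl

/-- the value on a point of the target -/
theorem rotW_target (h : ℝ × W ≃ₜ W₁) (a₁ : W₁ × ℝ ≃ₜ W₁') (s : I) (x r : ℝ) (w : W) :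
    opH (wU h a₁) ((rotB' W s).1 (opH (wT h) (LC.smash
      ((h (x, w) : W₁) : OnePoint W₁) (r : OnePoint ℝ)))) =
      ((a₁ (h (((rot s).symm (x, r)).1, w), ((rot s).symm (x, r)).2) : W₁') :
        OnePoint W₁') := by
  have h1 : opH (wT h) (LC.smash ((h (x, w) : W₁) : OnePoint W₁)
      (r : OnePoint ℝ)) = ((((x, r), w) : (ℝ × ℝ) × W) : OnePoint ((ℝ × ℝ) × W)) := by
    show ((wT h (h (x, w), r) : (ℝ × ℝ) × W) : OnePoint ((ℝ × ℝ) × W)) = _
    rw [wT_apply]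
  rw [h1, rotB'_coe, opH_coe]
  rw [← Prod.mk.eta (p := (rot s).symm (x, r)), wU_apply]

theorem rotW_zero (h : ℝ × W ≃ₜ W₁) (e : X × ℝ ≃ₜ X') (a₁ : W₁ × ℝ ≃ₜ W₁')
    (l : Lo (bzero X W₁)) :
    adjL (rotW h e a₁ 0 (adjR l)) = Lo.map (stC e a₁) (stC_bzero e a₁) l := by
  rw [← adjL_adjR (Lo.map (stC e a₁) (stC_bzero e a₁) l)]
  congr 1
  refine bext fun p => ?_
  obtain ⟨y, x'⟩ := p
  obtain ⟨x, r, rfl⟩ := exists_point e x'
  rw [rotW_coe, adjR_coe, adjR_coe]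
  show _ = (stC e a₁ (l.1 (loopJ y))).1 ((e (x, r) : X') : OnePoint X')
  rw [stC_coe]
  rw [show ((0 : I) : ℝ) = 0 from rfl, rot_zero]
  generalize (l.1 (loopJ y)).1 (x : OnePoint X) = p
  induction p using OnePoint.rec with
  | infty => rfl
  | coe w₁ =>
    obtain ⟨y', w, rfl⟩ := exists_target h w₁
    rw [rotW_target, show ((0 : I) : ℝ) = 0 from rfl, rot_symm_zero]
    rfl

theorem rotW_one (h : ℝ × W ≃ₜ W₁) (e : X × ℝ ≃ₜ X') (a : W × ℝ ≃ₜ W') (a₁ : W₁ × ℝ ≃ₜ W₁')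
    (h' : ℝ × W' ≃ₜ W₁') (hc : ∀ x w t, h' (x, a (w, t)) = a₁ (h (x, w), t))
    (l : Lo (bzero X W₁)) :
    adjL (rotW h e a₁ 1 (adjR l)) = lo h' (ldW h e a l) := by
  rw [← adjL_adjR (lo h' (ldW h e a l))]
  congr 1
  refine bext fun p => ?_
  obtain ⟨y, x'⟩ := p
  obtain ⟨x, r, rfl⟩ := exists_point e x'
  rw [rotW_coe, adjR_coe, adjR_coe, lo_apply, bcomp_apply, ldW_coe]
  show _ = (line0 h' (loopE (loopI y))).1 _
  rw [loopE_loopI, show ((1 : I) : ℝ) = 1 from rfl, rot_one]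
  generalize (l.1 (loopJ r)).1 (x : OnePoint X) = p
  induction p using OnePoint.rec with
  | infty => rfl
  | coe w₁ =>
    obtain ⟨y', w, rfl⟩ := exists_target h w₁
    rw [rotW_target, show ((1 : I) : ℝ) = 1 from rfl, rot_symm_one, opH_coe, lwT_apply]
    show ((a₁ (h (- -y, w), y') : W₁') : OnePoint W₁') = ((h' (y, a (w, y')) : W₁') : OnePoint W₁')
    rw [neg_neg, hc]

/-- **`lo ∘ ldW` is homotopic to the stage map on loops.** -/
theorem homotopic_lo_ldW (h : ℝ × W ≃ₜ W₁) (e : X × ℝ ≃ₜ X') (a : W × ℝ ≃ₜ W')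
    (a₁ : W₁ × ℝ ≃ₜ W₁') (h' : ℝ × W' ≃ₜ W₁')
    (hc : ∀ x w t, h' (x, a (w, t)) = a₁ (h (x, w), t)) :
    ((lo h').comp (ldW h e a)).Homotopic (Lo.map (stC e a₁) (stC_bzero e a₁)) := by
  refine ContinuousMap.Homotopic.symm ⟨⟨⟨fun p => adjL (rotW h e a₁ p.1 (adjR p.2)),
    adjL.continuous.comp (continuous_rotW h e a₁ continuous_fst
      (adjR.continuous.comp continuous_snd))⟩, fun l => rotW_zero h e a₁ l,
    fun l => rotW_one h e a a₁ h' hc l⟩⟩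

/-- naturality of `lo` -/
theorem lo_stC (h : ℝ × W ≃ₜ W₁) (e : X × ℝ ≃ₜ X') (a : W × ℝ ≃ₜ W')
    (a₁ : W₁ × ℝ ≃ₜ W₁') (h' : ℝ × W' ≃ₜ W₁')
    (hc : ∀ x w t, h' (x, a (w, t)) = a₁ (h (x, w), t)) (q : BMap X W) :
    lo h' (stC e a q) = Lo.map (stC e a₁) (stC_bzero e a₁) (lo h q) := by
  refine Lo.ext fun s => ?_
  show bcomp (line0 h' (loopE s)) (stC e a q) = stC e a₁ (bcomp (line0 h (loopE s)) q)
  refine bext' e fun x r => ?_
  rw [bcomp_apply, stC_coe, stC_coe, bcomp_apply]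
  generalize q.1 (x : OnePoint X) = p
  induction p using OnePoint.rec with
  | infty =>
    rw [LC.smash_infty_left, opH_infty, (line0 h' (loopE s)).2, (line0 h (loopE s)).2,
      LC.smash_infty_left, opH_infty]
  | coe w =>
    show opH h' (LC.smash (loopE s) ((a (w, r) : W') : OnePoint W')) =
      opH a₁ (LC.smash (opH h (LC.smash (loopE s) (w : OnePoint W))) (r : OnePoint ℝ))
    generalize loopE (s : ℝ) = u
    induction u using OnePoint.rec with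
    | infty => rfl
    | coe u =>
      show ((h' (u, a (w, r)) : W₁') : OnePoint W₁') = ((a₁ (h (u, w), r) : W₁') : OnePoint W₁')
      rw [hc]

end ladderW

end Vale.Agent.P263.G2
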