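import Vale.Agent.P263.G2.AlQ
import Vale.Agent.P263.G2.BoxGam
import Vale.Agent.P263.GB.MixG

/-!
# P263, block G2-7: stable loops and boxes with disjoint supports

`Mix K L T` : the pairs of a stable family of maps `q : Fn (K ⊕ L) T` and a configuration
`S : Conf L T` of boxes such that the `L`-part of `q` is the collapse of `S`.

* `Mix.map f g` : relabelling, `f : K → Option K'`, `g : L → Option (K' ⊕ L')`;
* `Mix.resc`, `Mix.tg`, `Mix.un` : rescaling, shrinking, unions; `Mix.mul`;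
* `MixSS K L : SS`.
-/

open Topology Vale.Agent.P251.G Vale.Agent.P263.TOP
open scoped OnePoint

namespace Vale.Agent.P263.G2

section

variable {K L K' L' K'' L'' : Type} {T T' T'' : Type} [TopologicalSpace T] [TopologicalSpace T']
  [TopologicalSpace T'']

/-- the projection to the labels of boxes -/
def prL : K ⊕ L → Option L := Sum.elim (fun _ => none) some

@[simp] theorem prL_inl (k : K) : (prL (Sum.inl k) : Option L) = none := rfl

@[simp] theorem prL_inr (l : L) : prL (K := K) (Sum.inr l) = some l := rfl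

theorem prL_eq_some {x : K ⊕ L} {l : L} : prL x = some l ↔ x = Sum.inr l := by
  cases x with
  | inl k => simp
  | inr l' => simp

/-- A stable family of maps with labels in `K ⊕ L` and a family of boxes with labels in `L`, such
that the `L`-part of the maps is the collapse of the boxes. -/
@[ext] structure Mix (K L T : Type) [TopologicalSpace T] where
  /-- the maps -/
  q : Fn (K ⊕ L) T
  /-- the boxes -/
  S : Conf L T
  st : ∃ r, Fn.IsSt r q
  eq : Fn.push prL q = al S

/-- the two label maps together -/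
def labφ (f : K → Option K') (g : L → Option (K' ⊕ L')) : K ⊕ L → Option (K' ⊕ L') :=
  Sum.elim (fun k => (f k).map Sum.inl) g

/-- the label map on the boxes -/
def labψ (g : L → Option (K' ⊕ L')) (l : L) : Option L' := (g l).bind prL

theorem labφ_prL (f : K → Option K') (g : L → Option (K' ⊕ L')) (x : K ⊕ L) :
    (labφ f g x).bind prL = (prL x).bind (labψ g) := by
  cases x with
  | inl k =>
    show ((f k).map Sum.inl).bind prL = none
    cases f k <;> rfl
  | inr l => rfl

theorem labφ_comp (f : K → Option K') (g : L → Option (K' ⊕ L')) (f' : K' → Option K'')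
    (g' : L' → Option (K'' ⊕ L'')) (x : K ⊕ L) :
    (labφ f g x).bind (labφ f' g') = labφ (fun k => (f k).bind f') (GB.lcomp g f' g') x := by
  cases x with
  | inl k =>
    show ((f k).map Sum.inl).bind (labφ f' g') = ((f k).bind f').map Sum.inl
    cases f k <;> rfl
  | inr l => rfl

theorem labψ_comp (g : L → Option (K' ⊕ L')) (f' : K' → Option K'')
    (g' : L' → Option (K'' ⊕ L'')) (l : L) :
    (labψ g l).bind (labψ g') = labψ (GB.lcomp g f' g') l := by
  unfold labψ GB.lcomp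
  cases g l with
  | none => rfl
  | some x =>
    cases x with
    | inl k =>
      show none = ((f' k).map Sum.inl).bind prL
      cases f' k <;> rfl
    | inr l => rfl

namespace Mix

/-- the maps and the boxes are of stage `r` -/
def IsSt (r : ℕ) (x : Mix K L T) : Prop := Fn.IsSt r x.q ∧ x.S.IsSt r

theorem exists_isSt (x : Mix K L T) : ∃ r, x.IsSt r := by
  obtain ⟨r, hr⟩ := x.st
  obtain ⟨s, hs⟩ := x.S.stage
  exact ⟨max r s, hr.mono (le_max_left _ _), Conf.IsSt.mono (le_max_right _ _) hs⟩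

theorem IsSt.mono {r s : ℕ} (h : r ≤ s) {x : Mix K L T} (hx : x.IsSt r) : x.IsSt s :=
  ⟨hx.1.mono h, hx.2.mono h⟩

/-- equality of the maps and of the boxes -/
theorem ext' {x y : Mix K L T} (h1 : ∀ t v k w, x.q t v = some (k, w) ↔ y.q t v = some (k, w))
    (h2 : ∀ z, z ∈ x.S.pts ↔ z ∈ y.S.pts) : x = y :=
  Mix.ext (Fn.ext' h1) (Conf.ext_iff'.2 h2)

/-- the `L`-part of the maps -/
theorem q_inr (x : Mix K L T) {t : T} {v w : ℕ → ℝ} {l : L} :
    x.q t v = some (Sum.inr l, w) ↔ al x.S t v = some (l, w) := by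
  rw [← x.eq, Fn.push_eq_some]
  constructor
  · intro h
    exact ⟨_, h, rfl⟩
  · rintro ⟨k, h, h'⟩
    rw [prL_eq_some] at h'
    rwa [h'] at h

/-- change of parameters -/
noncomputable def pull (g : C(T', T)) (x : Mix K L T) : Mix K L T' where
  q := x.q.pull g
  S := x.S.pull g
  st := x.st.imp fun _ h => h.pull g
  eq := by
    rw [al_pull_eq, ← x.eq]
    rfl

theorem pull_id (x : Mix K L T) : x.pull (ContinuousMap.id T) = x :=
  Mix.ext rfl (Conf.pull_id _)

theorem pull_pull (g : C(T', T)) (g' : C(T'', T')) (x : Mix K L T) :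
    (x.pull g).pull g' = x.pull (g.comp g') :=
  Mix.ext rfl (Conf.pull_pull _ _ _)

theorem IsSt.pull {r : ℕ} {x : Mix K L T} (hx : x.IsSt r) (g : C(T', T)) : (x.pull g).IsSt r :=
  ⟨hx.1.pull g, hx.2.pull g⟩

/-- relabelling -/
noncomputable def map [Finite K] [Finite L] (f : K → Option K') (g : L → Option (K' ⊕ L'))
    (x : Mix K L T) : Mix K' L' T where
  q := Fn.push (labφ f g) x.q
  S := x.S.map (labψ g)
  st := x.st.imp fun _ h => h.push _
  eq := by
    rw [al_push, ← x.eq, Fn.push_push, Fn.push_push]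
    congr 1
    funext y
    exact labφ_prL f g y

theorem map_id [Finite K] [Finite L] (x : Mix K L T) :
    x.map (K' := K) (L' := L) (fun k => some k) (fun l => some (Sum.inr l)) = x := by
  refine Mix.ext ?_ ?_
  · show Fn.push (labφ (fun k => some k) (fun l => some (Sum.inr l))) x.q = x.q
    have : labφ (fun k : K => some k) (fun l : L => some (Sum.inr l)) = some := by
      funext y
      cases y <;> rfl
    rw [this, Fn.push_some]
  · exact Conf.map_some _

theorem map_map [Finite K] [Finite L] [Finite K'] [Finite L'] (f : K → Option K')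
    (g : L → Option (K' ⊕ L')) (f' : K' → Option K'') (g' : L' → Option (K'' ⊕ L''))
    (x : Mix K L T) : (x.map f g).map f' g' = x.map (fun k => (f k).bind f') (GB.lcomp g f' g') := by
  refine Mix.ext ?_ ?_
  · show Fn.push _ (Fn.push _ x.q) = Fn.push _ x.q
    rw [Fn.push_push]
    congr 1
    funext y
    exact labφ_comp f g f' g' y
  · show (x.S.map _).map _ = x.S.map _
    rw [Conf.map_map]
    congr 1
    funext l
    exact labψ_comp g f' g' l

theorem map_pull [Finite K] [Finite L] (f : K → Option K') (g : L → Option (K' ⊕ L'))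
    (h : C(T', T)) (x : Mix K L T) : (x.pull h).map f g = (x.map f g).pull h :=
  Mix.ext rfl (Conf.map_pull _ _ _)

theorem IsSt.map [Finite K] [Finite L] {r : ℕ} {x : Mix K L T} (hx : x.IsSt r)
    (f : K → Option K') (g : L → Option (K' ⊕ L')) : (x.map f g).IsSt r :=
  ⟨hx.1.push _, hx.2.map _⟩

/-- nothing -/
def emp : Mix K L T where
  q := Fn.emp
  S := Conf.empty
  st := ⟨0, Fn.isSt_emp 0⟩
  eq := by
    rw [al_empty]
    rfl

@[simp] theorem emp_q : (emp : Mix K L T).q = Fn.emp := rfl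

@[simp] theorem emp_S : (emp : Mix K L T).S = Conf.empty := rfl

theorem pull_emp (g : C(T', T)) : (emp : Mix K L T).pull g = emp :=
  Mix.ext rfl (Conf.pull_empty g)

theorem map_emp [Finite K] [Finite L] (f : K → Option K') (g : L → Option (K' ⊕ L')) :
    (emp : Mix K L T).map f g = emp :=
  Mix.ext rfl (Conf.map_empty _)

/-- outer rescaling of the coordinate `n` -/
noncomputable def resc (n : ℕ) (J : C(T, Iv)) (x : Mix K L T) : Mix K L T where
  q := Fn.src n (fun t => J t) x.q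
  S := x.S.resc n J
  st := by
    obtain ⟨r, hr⟩ := x.st
    exact ⟨max r (n + 1), (hr.mono (le_max_left _ _)).src
      (lt_of_lt_of_le n.lt_succ_self (le_max_right _ _)) J⟩
  eq := by
    rw [al_resc, ← x.eq]
    refine Fn.ext' fun t v l w => ?_
    simp only [Fn.push_eq_some, Fn.src, Fn.pre_eq_some]
    constructor
    · rintro ⟨k, ⟨v', h1, h2⟩, h3⟩
      exact ⟨v', h1, k, h2, h3⟩
    · rintro ⟨v', h1, k, h2, h3⟩
      exact ⟨k, ⟨v', h1, h2⟩, h3⟩

theorem resc_q_eq_some {n : ℕ} {J : C(T, Iv)} {x : Mix K L T} {t : T} {v : ℕ → ℝ}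
    {w : (K ⊕ L) × (ℕ → ℝ)} : (x.resc n J).q t v = some w ↔
      ∃ v', bxm (bxc n (J t)) v = some v' ∧ x.q t v' = some w := by
  show Fn.pre (fun t x => bxm (bxc n (J t)) x) x.q t v = some w ↔ _
  exact Fn.pre_eq_some

theorem IsSt.resc {r n : ℕ} (h : n < r) {x : Mix K L T} (hx : x.IsSt r) (J : C(T, Iv)) :
    (x.resc n J).IsSt r :=
  ⟨hx.1.src h J, hx.2.resc h J⟩

theorem pull_resc (g : C(T', T)) (n : ℕ) (J : C(T, Iv)) (x : Mix K L T) :
    (x.resc n J).pull g = (x.pull g).resc n (J.comp g) :=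
  Mix.ext rfl (Conf.pull_resc _ _ _ _)

omit [TopologicalSpace T] in
theorem push_src {M : Type} (φ : K → Option M) (n : ℕ) (J : T → Iv) (q : Fn K T) :
    Fn.push φ (Fn.src n J q) = Fn.src n J (Fn.push φ q) := by
  refine Fn.ext' fun t v l w => ?_
  simp only [Fn.push_eq_some, Fn.src, Fn.pre_eq_some]
  constructor
  · rintro ⟨k, ⟨v', h1, h2⟩, h3⟩
    exact ⟨v', h1, k, h2, h3⟩
  · rintro ⟨v', h1, k, h2, h3⟩
    exact ⟨k, ⟨v', h1, h2⟩, h3⟩

theorem map_resc [Finite K] [Finite L] (f : K → Option K') (g : L → Option (K' ⊕ L')) (n : ℕ)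
    (J : C(T, Iv)) (x : Mix K L T) : (x.resc n J).map f g = (x.map f g).resc n J :=
  Mix.ext (push_src _ _ _ _) (Conf.map_resc _ _ _ _)

omit [TopologicalSpace T] in
theorem src_full (n : ℕ) (q : Fn K T) : Fn.src n (fun _ => Iv.full) q = q := by
  refine Fn.ext' fun t v l w => ?_
  simp only [Fn.src, Fn.pre_eq_some, bxc_full, bxm_full, Option.some.injEq, exists_eq_left']

theorem resc_full (n : ℕ) (x : Mix K L T) : x.resc n (fullC T) = x :=
  Mix.ext (src_full n x.q) (Conf.resc_full n x.S)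

/-- inner rescaling of the coordinate `n`, depending on the label -/
noncomputable def tg (n : ℕ) (J : K ⊕ L → C(T, Iv)) (x : Mix K L T) : Mix K L T where
  q := Fn.tg n (fun k t => J k t) x.q
  S := x.S.tg n fun l => J (Sum.inr l)
  st := by
    obtain ⟨r, hr⟩ := x.st
    exact ⟨max r (n + 1), (hr.mono (le_max_left _ _)).tg
      (lt_of_lt_of_le n.lt_succ_self (le_max_right _ _)) J⟩
  eq := by
    rw [al_tg, ← x.eq]
    refine Fn.ext' fun t v l w => ?_
    simp only [Fn.push_eq_some, Fn.tg, Fn.post_eq_some]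
    constructor
    · rintro ⟨k, ⟨v', h1, h2⟩, h3⟩
      rw [prL_eq_some] at h3
      subst h3
      exact ⟨v', ⟨_, h1, rfl⟩, h2⟩
    · rintro ⟨v', ⟨k, h1, h3⟩, h2⟩
      rw [prL_eq_some] at h3
      subst h3
      exact ⟨_, ⟨v', h1, h2⟩, rfl⟩

theorem IsSt.tg {r n : ℕ} (h : n < r) {x : Mix K L T} (hx : x.IsSt r) (J : K ⊕ L → C(T, Iv)) :
    (x.tg n J).IsSt r :=
  ⟨hx.1.tg h J, hx.2.tg h _⟩

theorem pull_tg (g : C(T', T)) (n : ℕ) (J : K ⊕ L → C(T, Iv)) (x : Mix K L T) :
    (x.tg n J).pull g = (x.pull g).tg n fun k => (J k).comp g :=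
  Mix.ext rfl (Conf.pull_tg _ _ _ _)

theorem tg_full (n : ℕ) (x : Mix K L T) : x.tg n (fun _ => fullC T) = x := by
  refine Mix.ext (Fn.ext' fun t v l w => ?_) (Conf.tg_full n x.S)
  show Fn.tg n (fun _ _ => Iv.full) x.q t v = _ ↔ _
  simp only [Fn.tg, Fn.post_eq_some, bxc_full, bxm_full, Option.some.injEq, exists_eq_right]

theorem map_tg [Finite K] [Finite L] (f : K → Option K') (g : L → Option (K' ⊕ L')) (n : ℕ)
    {J : K ⊕ L → C(T, Iv)} {J' : K' ⊕ L' → C(T, Iv)}
    (h : ∀ x y, labφ f g x = some y → J x = J' y) (x : Mix K L T) :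
    (x.tg n J).map f g = (x.map f g).tg n J' := by
  have hS : (x.S.tg n fun l => J (Sum.inr l)).map (labψ g) =
      (x.S.map (labψ g)).tg n fun l => J' (Sum.inr l) := by
    refine Conf.map_tg (f := labψ g) n (fun l l' hl => h _ _ ?_) x.S
    show g l = some (Sum.inr l')
    unfold labψ at hl
    obtain ⟨z, hz, hz'⟩ := Option.bind_eq_some_iff.1 hl
    rw [prL_eq_some] at hz'
    rw [hz, hz']
  have hq : Fn.push (labφ f g) (Fn.tg n (fun k t => J k t) x.q) =
      Fn.tg n (fun k t => J' k t) (Fn.push (labφ f g) x.q) := by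
    refine Fn.ext' fun t v l w => ?_
    simp only [Fn.push_eq_some, Fn.tg, Fn.post_eq_some]
    constructor
    · rintro ⟨k, ⟨v', h1, h2⟩, h3⟩
      exact ⟨v', ⟨k, h1, h3⟩, by rw [← h k l h3]; exact h2⟩
    · rintro ⟨v', ⟨k, h1, h3⟩, h2⟩
      exact ⟨k, ⟨v', h1, by rw [h k l h3]; exact h2⟩, h3⟩
  exact Mix.ext hq hS

/-- the supports are disjoint -/
def Dis {ι : Type} (c : ι → Mix K L T) : Prop := Fn.Dis fun i => (c i).q

theorem Dis.box {ι : Type} {c : ι → Mix K L T} (h : Dis c) (i j : ι) (hij : i ≠ j)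
    (x : C(T, Bx) × L) (hx : x ∈ (c i).S.pts) (y : C(T, Bx) × L) (hy : y ∈ (c j).S.pts) (t : T) :
    Bx.Disj (x.1 t) (y.1 t) := by
  refine disj_of_bxm fun u v w h1 h2 => hij ?_
  refine h i j t u (Sum.inr x.2, v) (Sum.inr y.2, w) ?_ ?_
  · exact (c i).q_inr.2 (al_eq_some_iff.2 ⟨x.1, hx, h1⟩)
  · exact (c j).q_inr.2 (al_eq_some_iff.2 ⟨y.1, hy, h2⟩)

/-- the union of finitely many families with disjoint supports -/
noncomputable def un {ι : Type} [Fintype ι] (c : ι → Mix K L T) (h : Dis c) : Mix K L T where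
  q := Fn.uni fun i => (c i).q
  S := Conf.iUn (fun i => (c i).S) h.box
  st := by
    choose r hr using fun i => (c i).st
    exact ⟨Finset.univ.sup r, Fn.IsSt.uni (fun i => (hr i).mono (Finset.le_sup (Finset.mem_univ i)))
      h⟩
  eq := by
    rw [al_iUn]
    refine Fn.ext' fun t v l w => ?_
    rw [Fn.uni_eq_some (dis_al h.box), Fn.push_eq_some]
    constructor
    · rintro ⟨k, h1, h2⟩
      rw [prL_eq_some] at h2
      subst h2
      obtain ⟨i, hi⟩ := (Fn.uni_eq_some h).1 h1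
      exact ⟨i, (c i).q_inr.1 hi⟩
    · rintro ⟨i, hi⟩
      exact ⟨Sum.inr l, (Fn.uni_eq_some h).2 ⟨i, (c i).q_inr.2 hi⟩, rfl⟩

theorem un_q {ι : Type} [Fintype ι] {c : ι → Mix K L T} {h : Dis c} {t : T} {v : ℕ → ℝ}
    {w : (K ⊕ L) × (ℕ → ℝ)} : (un c h).q t v = some w ↔ ∃ i, (c i).q t v = some w :=
  Fn.uni_eq_some h

theorem mem_un_S {ι : Type} [Fintype ι] {c : ι → Mix K L T} {h : Dis c} {z : C(T, Bx) × L} :
    z ∈ (un c h).S.pts ↔ ∃ i, z ∈ (c i).S.pts := Conf.mem_iUn (h := h.box)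

theorem isSt_un {ι : Type} [Fintype ι] {r : ℕ} {c : ι → Mix K L T} {h : Dis c}
    (hc : ∀ i, (c i).IsSt r) : (un c h).IsSt r :=
  ⟨Fn.IsSt.uni (fun i => (hc i).1) h, (Conf.isSt_iUn (h := h.box)).2 fun i => (hc i).2⟩

theorem Dis.pull {ι : Type} {c : ι → Mix K L T} (h : Dis c) (g : C(T', T)) :
    Dis fun i => (c i).pull g := fun i j t v y z h1 h2 => h i j (g t) v y z h1 h2

theorem pull_un {ι : Type} [Fintype ι] {c : ι → Mix K L T} (h : Dis c) (g : C(T', T)) :
    (un c h).pull g = un (fun i => (c i).pull g) (h.pull g) := by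
  refine Mix.ext' (fun t v k w => ?_) fun z => ?_
  · rw [un_q]
    exact un_q (h := h)
  · exact Conf.ext_iff'.1 (Conf.pull_iUn g h.box (h.pull g).box) z

theorem Dis.map {ι : Type} [Finite K] [Finite L] {c : ι → Mix K L T} (h : Dis c)
    (f : K → Option K') (g : L → Option (K' ⊕ L')) : Dis fun i => (c i).map f g := by
  rintro i j t v ⟨k, y⟩ ⟨l, z⟩ h1 h2
  obtain ⟨k', h1, -⟩ := Fn.push_eq_some.1 h1
  obtain ⟨l', h2, -⟩ := Fn.push_eq_some.1 h2
  exact h i j t v _ _ h1 h2

theorem map_un {ι : Type} [Fintype ι] [Finite K] [Finite L] {c : ι → Mix K L T} (h : Dis c)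
    (f : K → Option K') (g : L → Option (K' ⊕ L')) :
    (un c h).map f g = un (fun i => (c i).map f g) (h.map f g) := by
  refine Mix.ext' (fun t v k w => ?_) fun z => ?_
  · rw [un_q]
    show Fn.push _ _ t v = _ ↔ _
    rw [Fn.push_eq_some]
    constructor
    · rintro ⟨k', h1, h2⟩
      obtain ⟨i, hi⟩ := un_q.1 h1
      exact ⟨i, Fn.push_eq_some.2 ⟨k', hi, h2⟩⟩
    · rintro ⟨i, hi⟩
      obtain ⟨k', h1, h2⟩ := Fn.push_eq_some.1 hi
      exact ⟨k', un_q.2 ⟨i, h1⟩, h2⟩
  · exact Conf.ext_iff'.1 (Conf.map_iUn _ h.box (h.map f g).box) z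

end Mix

end

end Vale.Agent.P263.G2
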