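import Vale.Agent.P263.G2.MixGam
import Vale.Agent.P263.GB.Range5
import Vale.Agent.P263.GB.TRange
import Vale.Agent.P263.GB.Gen
import Vale.Agent.P263.GB.SphQ
import Vale.Agent.P263.GB.PiOneMix
import Vale.Agent.P263.GB.QRange
import Vale.Agent.P263.GB.QZigN
import Vale.Agent.P263.GB.TConn

/-!
# P263, block G2: `T(1)` is acyclic

`VStmt k` : the vanishing `H_n(Ω^r S^(N+r); k) = 0` for `N < n < 2N` (cofinally many `r`).
`mixT_rh : VStmt k → mixG.T.RH k K t` for every finite `K` and every `t`.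
-/

open Topology Vale.Agent.P251.G Vale.Agent.P263.TOP
open Vale.Agent.P263.S Vale.Agent.P263.E Vale.Agent.P263.GB
open scoped OnePoint

namespace Vale.Agent.P263.G2

/-- the homology of the spaces `Ω^r S^(N+r)` vanishes in degrees strictly between `N` and `2N` -/
def VStmt (k : Type) [Field k] : Prop :=
  ∀ N n : ℕ, 2 ≤ N → N < n → n < 2 * N → ∀ m, ∃ r, m ≤ r ∧
    (free k (sing (BMap (Fin r → ℝ) (Fin (N + r) → ℝ)))).cx.HZ n

/-- the unit box -/
theorem gIsoF_fullPt : (gIsoF.app Unit).app fullPt = mixG.eF := Mix.ext_S rfl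

/-- **the range for the boxes** -/
theorem mix_hF (k : Type) [Field k] (N t : ℕ) (ht : t < 2 * N) :
    RZ0 (freeMap k (((mixG.gamF.unit mixG.eF).BN N).app Unit)).cx t :=
  (gIsoF_bij.unit_BN_iff gIsoF_fullPt N Unit t).1 (rz0_range k N Unit ht)

/-- **the range for the loops** -/
theorem mix_hQ (k : Type) [Field k] (hV : VStmt k) (N : ℕ) (hN : 2 ≤ N) (t : ℕ) (ht : t < 2 * N) :
    RZ0 (freeMap k (((mixG.gamQ.unit mixG.eQ).BN N).app Unit)).cx t := by
  refine Gam.rz0_unit_BN mixG.gamQ mixG.eQ N (2 * N) (by omega) (fun n h1 h2 => ?_) ?_ ?_ t ht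
  · exact (litQT_bij.hz_BN_iff N Unit n).1 (Gam.hz_BN_of_stages N n (hV N n hN h1 h2))
  · exact Gam.not_hz_BN mixG.gamQ_pt (mixG.segalH_gamQ k) mixG.gamQ_not_hz_one N (by omega)
  · exact Gam.gen mixG.gamQ_pt (mixG.segalH_gamQ k) mixG.eQ (mixG.unit_rz0_gamQ 1 le_rfl) N
      (by omega) Unit

/-- **`T(K₊)` is acyclic** -/
theorem mixT_rh (k : Type) [Field k] (hV : VStmt k) (K : Type) [Finite K] (t : ℕ) :
    mixG.T.RH k K t := by
  refine Gam.acyclic_of_range' mixG.T_pt (mixG.segalH_T k) ?_ (fun N hN t ht => ?_) K t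
  · exact (Gam.rh_zero_iff Unit _).2 (mixG.conn0_T k)
  · exact mixG.T_range N (fun t ht => mix_hF k N t ht) (fun t ht => mix_hQ k hV N hN t ht) t ht

end Vale.Agent.P263.G2
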