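import Vale.Agent.P263.G2.MixInst
import Vale.Agent.P263.G2.DegQI

/-!
# P263, block G2-7: degrees and connectedness on `MixSS`
-/

open Topology Vale.Agent.P251.G Vale.Agent.P263.TOP
open scoped OnePoint

namespace Vale.Agent.P263.G2

open Vale.Agent.P263.S Vale.Agent.P263.E

namespace MixSS

/-- the collapse of all boxes -/
noncomputable def alphaQ : SS.Map (MixSS Empty Unit) (MixSS Unit Empty) :=
  map (K' := Unit) (L' := Empty) (fun k => k.elim) (fun _ => some (Sum.inl ()))

/-- the loops of the collapse are the collapse of the boxes -/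
theorem toQ_alphaQ {p : ℕ} (x : (MixSS Empty Unit).obj p) :
    ((toQ Unit Empty).app (alphaQ.app x)).1 = al (show Mix Empty Unit (Dl p) from x).S := by
  refine Fn.ext' fun t v k w => ?_
  have h0 : ((toQ Unit Empty).app (alphaQ.app x)).1 =
      Fn.push (Sum.elim some fun _ => none) (Fn.push (labφ (K' := Unit) (L' := Empty)
        (fun k : Empty => k.elim) (fun _ : Unit => some (Sum.inl ())))
          (show Mix Empty Unit (Dl p) from x).q) := rfl
  rw [h0, Fn.push_push, Fn.push_eq_some, ← (show Mix Empty Unit (Dl p) from x).q_inr]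
  constructor
  · rintro ⟨l, h1, -⟩
    rcases l with l | l
    · exact l.elim
    · exact h1
  · intro h
    exact ⟨_, h, rfl⟩

/-- the degree -/
noncomputable def deg {p : ℕ} (x : (MixSS Unit Empty).obj p) : ℤ :=
  degQ ((toQ Unit Empty).app x)

theorem deg_map {p q : ℕ} (α : Op p q) (x : (MixSS Unit Empty).obj q) :
    deg ((MixSS Unit Empty).map α x) = deg x := by
  unfold deg
  rw [(toQ Unit Empty).nat, degQ_map]

theorem deg_emp (p : ℕ) : deg (emp Unit Empty p) = 0 := by
  refine degQ_emp _ ?_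
  show Fn.push (Sum.elim some fun _ => none) (Fn.emp : Fn (Unit ⊕ Empty) (Dl p)) = Fn.emp
  rfl

theorem deg_mul {p : ℕ} (x y : (MixSS Unit Empty).obj p) :
    deg ((mul Unit Empty).app (x, y)) = deg x + deg y := by
  refine degQ_mul _ _ _ ?_
  have h := Mix.mul_q (T := Dl p) (K := Unit) (L := Empty) x y
  have h0 : ((toQ Unit Empty).app ((mul Unit Empty).app (x, y))).1 =
      Fn.push (Sum.elim some fun _ => none) (Mix.mul (T := Dl p) x y).q := rfl
  rw [h0, h, Fn.push_mul]
  rfl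

theorem deg_box (p : ℕ) : deg (alphaQ.app (box p)) = 1 := by
  refine degQ_id _ ?_
  refine (toQ_alphaQ (box p)).trans ?_
  refine Fn.ext' fun t v k w => ?_
  rw [al_eq_some_iff]
  constructor
  · rintro ⟨c, h1, h2⟩
    obtain ⟨rfl, rfl⟩ := Prod.mk.inj (Conf.mem_unit.1 h1)
    have h3 : bxm (fun _ => Iv.full) v = some w := h2
    rw [bxm_full] at h3
    cases h3
    rfl
  · intro h
    cases h
    exact ⟨_, Conf.mem_unit.2 rfl, bxm_full v⟩

theorem deg_alphaQ {p : ℕ} (x : (MixSS Empty Unit).obj p) :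
    deg (alphaQ.app x) = (show Mix Empty Unit (Dl p) from x).S.pts.card :=
  degQ_al _ _ (toQ_alphaQ x)

theorem degB (x : (MixSS Empty Unit).obj 0) : ∃ m : ℕ, deg (alphaQ.app x) = m :=
  ⟨_, deg_alphaQ x⟩

theorem conn (x y : (MixSS Unit Empty).obj 0) (h : deg x = deg y) :
    ∃ w : (MixSS Unit Empty).obj 1, (MixSS Unit Empty).map (dl 0 0) w = x ∧
      (MixSS Unit Empty).map (dl 0 1) w = y := by
  obtain ⟨w, h1, h2⟩ := connQ _ _ h
  refine ⟨(ofQ Unit Empty).app w, ?_, ?_⟩
  · rw [← SS.Map.nat, h1, ofQ_toQ]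
  · rw [← SS.Map.nat, h2, ofQ_toQ]

theorem connB (x y : (MixSS Empty Unit).obj 0) (h : deg (alphaQ.app x) = deg (alphaQ.app y)) :
    ∃ w : (MixSS Empty Unit).obj 1, (MixSS Empty Unit).map (dl 0 0) w = x ∧
      (MixSS Empty Unit).map (dl 0 1) w = y := by
  rw [deg_alphaQ, deg_alphaQ, Nat.cast_inj] at h
  obtain ⟨w, h1, h2⟩ := F.exists_edge_unit' (S := (toF Empty Unit).app y)
    (S' := (toF Empty Unit).app x) h.symm
  refine ⟨(ofF Empty Unit).app w, ?_, ?_⟩
  · rw [← SS.Map.nat, h2, ofF_toF]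
  · rw [← SS.Map.nat, h1, ofF_toF]

/-- there is a loop of degree `m` -/
theorem exists_deg (m : ℤ) : ∃ x : (MixSS Unit Empty).obj 0, deg x = m := by
  obtain ⟨f, hf⟩ := exists_degOm (r := 2) le_rfl m
  let Φ : C(Dl 0, T0.Om 2) := ContinuousMap.const _ f
  refine ⟨(ofQ Unit Empty).app (qOf Φ), ?_⟩
  unfold deg
  rw [toQ_ofQ, degQ_qOf Φ (Classical.arbitrary _)]
  exact hf

end MixSS

end Vale.Agent.P263.G2
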