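import Vale.Agent.P263.G2.MixSplit
import Vale.Agent.P263.G2.ExtB
import Vale.Agent.P263.GB.GamIso
import Vale.Agent.P263.GB.QT
import Vale.Agent.P263.GB.TFun

/-!
# P263, block G2: the functors of `mixG` are the literal ones

* `gIsoQ : Gam.Hom gamQI mixG.gamQ`, `gIsoF : Gam.Hom gamF mixG.gamF`, levelwise
  bijective; `mix_sq` : `al` corresponds to the collapse `mixG.alpha`;
* `litQ : Gam.Hom Gam.Q mixG.gamQ`, `litQT : Gam.Hom (Gam.QT TSeq.zero) mixG.gamQ`,
  levelwise bijective; `lit_sq` : `alphaG` corresponds to `mixG.alpha`.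
-/

open Topology Vale.Agent.P251.G Vale.Agent.P263.TOP
open Vale.Agent.P263.S Vale.Agent.P263.E Vale.Agent.P263.GB
open scoped OnePoint

namespace Vale.Agent.P263.G2

section

variable {K L : Type} {T : Type} [TopologicalSpace T]

theorem Mix.inQ_map [Finite K] [Finite L] (g : Fn K T) (hg : ∃ r, Fn.IsSt r g) (f : K → Option L)
    (u : Empty → Option (L ⊕ Empty)) :
    (Mix.inQ g hg : Mix K Empty T).map f u =
      Mix.inQ (Fn.push f g) (hg.imp fun _ h => h.push f) := by
  refine Mix.ext ?_ ((Conf.eq_empty _).trans (Conf.eq_empty _).symm)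
  show Fn.push (labφ f u) (Fn.push (fun k => some (Sum.inl k)) g) =
    Fn.push (fun k => some (Sum.inl k)) (Fn.push f g)
  rw [Fn.push_push, Fn.push_push]
  congr 1
  funext k
  show (f k).map Sum.inl = (f k).bind fun k => some (Sum.inl k)
  cases f k <;> rfl

/-- boxes determine the family if there are no other labels -/
theorem Mix.ext_S {x y : Mix Empty L T} (h : x.S = y.S) : x = y := by
  refine Mix.ext (Fn.ext' fun t v z w => ?_) h
  rcases z with e | l
  · exact e.elim
  · rw [Mix.q_inr, Mix.q_inr, h]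

theorem Mix.inF_map [Finite K] [Finite L] (S : Conf K T) (f : K → Option L)
    (u : Empty → Option Empty) :
    (Mix.inF S : Mix Empty K T).map u (fun l => (f l).map Sum.inr) = Mix.inF (S.map f) := by
  refine Mix.ext_S ?_
  show S.map (labψ fun l => (f l).map Sum.inr) = S.map f
  congr 1
  funext l
  show ((f l).map Sum.inr).bind prL = f l
  cases f l <;> rfl

/-- **the collapse of all boxes** -/
theorem Mix.inF_collapse [Finite K] (S : Conf K T) (u : Empty → Option K)
    (hS : ∃ r, Fn.IsSt r (al S)) :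
    (Mix.inF S : Mix Empty K T).map (L' := Empty) u (fun k => some (Sum.inl k)) =
      Mix.inQ (al S) hS := by
  refine Mix.ext (Fn.ext' fun t v z w => ?_) ((Conf.eq_empty _).trans (Conf.eq_empty _).symm)
  rcases z with k | e
  · show Fn.push (labφ u fun k => some (Sum.inl k)) (Mix.inF S : Mix Empty K T).q t v = _ ↔
      Fn.push (fun k => some (Sum.inl k)) (al S) t v = _
    rw [Fn.push_eq_some, Fn.push_eq_some]
    constructor
    · rintro ⟨y, h1, h2⟩
      rcases y with e | k'
      · exact e.elim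
      · cases h2
        exact ⟨k, (Mix.inF S : Mix Empty K T).q_inr.1 h1, rfl⟩
    · rintro ⟨k', h1, h2⟩
      cases h2
      exact ⟨Sum.inr k, (Mix.inF S : Mix Empty K T).q_inr.2 h1, rfl⟩
  · exact e.elim

end

/-- loops -/
noncomputable def gIsoQ : Gam.Hom gamQI mixG.gamQ :=
  ⟨fun K => MixSS.ofQ K Empty, fun f _ x => (Mix.inQ_map x.1 x.2 f _).symm⟩

theorem gIsoQ_bij : gIsoQ.Bij := fun K _ _ =>
  ⟨fun x y hxy => (MixSS.toQ_ofQ K Empty x).symm.trans
    ((congrArg (MixSS.toQ K Empty).app hxy).trans (MixSS.toQ_ofQ K Empty y)),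
    fun x => ⟨_, MixSS.ofQ_toQ K Empty x⟩⟩

/-- boxes -/
noncomputable def gIsoF : Gam.Hom gamF mixG.gamF :=
  ⟨fun K => MixSS.ofF Empty K, fun {K _} _ _ f p S =>
    (Mix.inF_map (S : Conf K (Dl p)) f _).symm⟩

theorem gIsoF_bij : gIsoF.Bij := fun K _ _ =>
  ⟨fun x y hxy => (MixSS.toF_ofF Empty K x).symm.trans
    ((congrArg (MixSS.toF Empty K).app hxy).trans (MixSS.toF_ofF Empty K y)),
    fun x => ⟨_, MixSS.ofF_toF Empty K x⟩⟩

/-- the collapse -/
theorem mix_sq : Gam.Sq alG mixG.alpha gIsoF gIsoQ := fun K _ _ S =>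
  Mix.inF_collapse S _ ((alI K).app S).2

theorem toQIG_bij : toQIG.Bij := fun K _ p => toQI_bijective K p

/-- **the literal `Q`** -/
noncomputable def litQ : Gam.Hom Gam.Q mixG.gamQ := gIsoQ.comp toQIG

theorem litQ_bij : litQ.Bij := gIsoQ_bij.comp toQIG_bij

/-- **the literal collapse** -/
theorem lit_sq : Gam.Sq alphaG mixG.alpha gIsoF litQ := fun K _ p S => by
  have h1 := mix_sq K p S
  refine h1.trans (congrArg (gIsoQ.app K).app ?_)
  exact (congrArg (fun g : SS.Map (F K) (QInf K) => g.app S) (toQI_alpha K)).symm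

theorem qtToQ_bij : Gam.qtToQ.Bij := by
  intro K _ p
  have h1 : ∀ x : (FT TSeq.zero K).obj p,
      (Gam.qToQT.app K).app ((Gam.qtToQ.app K).app x) = x := by
    intro x
    obtain ⟨r, x, rfl⟩ := FT.exists_inc TSeq.zero K x
    rfl
  have h2 : ∀ x : (FQ (Dsc K)).obj p, (Gam.qtToQ.app K).app ((Gam.qToQT.app K).app x) = x := by
    intro x
    obtain ⟨r, x, rfl⟩ := FQ.exists_inc x
    rfl
  exact ⟨fun x y hxy => (h1 x).symm.trans ((congrArg (Gam.qToQT.app K).app hxy).trans (h1 y)),
    fun x => ⟨_, h2 x⟩⟩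

/-- the same from `Gam.QT TSeq.zero` -/
noncomputable def litQT : Gam.Hom (Gam.QT TSeq.zero) mixG.gamQ := litQ.comp Gam.qtToQ

theorem litQT_bij : litQT.Bij := litQ_bij.comp qtToQ_bij

end Vale.Agent.P263.G2
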