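import Vale.Agent.P263.G2.MixMul
import Vale.Agent.P263.G2.BoxEdge

/-!
# P263, block G2-7: homotopies on `MixSS`, special labels

* `MixSS.hR`, `MixSS.hL`, `MixSS.hA` : `x · ∅ ≃ x`, `∅ · x ≃ x`, `(x y) z ≃ x (y z)`;
* `MixSS.box`, `MixSS.emp`;
* `MixSS.toQ`, `MixSS.ofQ` : `MixSS K Empty` is `QInf K`; `MixSS.toF`, `MixSS.ofF` : `MixSS Empty L`
  is `F L`.
-/

open Topology Vale.Agent.P251.G Vale.Agent.P263.TOP
open scoped OnePoint

namespace Vale.Agent.P263.G2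

open Vale.Agent.P263.S Vale.Agent.P263.E

/-- interpolation from `J` to `I` along `χ` -/
noncomputable def mixIv {p : ℕ} (χ : Op p 1) (J I : Iv) : C(Dl p, Iv) :=
  ⟨fun t => Iv.mix (chiI χ t) J I, (chiI χ).continuous.ivMix continuous_const continuous_const⟩

theorem mixIv_apply {p : ℕ} (χ : Op p 1) (J I : Iv) (t : Dl p) :
    mixIv χ J I t = Iv.mix (chiI χ t) J I := rfl

theorem mixIv_comp {p q : ℕ} (χ : Op q 1) (f : Op p q) (J I : Iv) :
    mixIv (χ.comp f) J I = (mixIv χ J I).comp (dmap f) := by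
  ext1 t
  rw [mixIv_apply, chiI_comp]
  rfl

theorem mixIv_c0 {p : ℕ} (J I : Iv) : mixIv (c0 p) J I = ContinuousMap.const _ J := by
  ext1 t
  rw [mixIv_apply, chiI_c0, Iv.mix_zero]
  rfl

theorem mixIv_c1 {p : ℕ} (J I : Iv) : mixIv (c1 p) J I = ContinuousMap.const _ I := by
  ext1 t
  rw [mixIv_apply, chiI_c1, Iv.mix_one]
  rfl

theorem const_compC {T : Type} [TopologicalSpace T] (J I : Iv) :
    compC (ContinuousMap.const T J) (ContinuousMap.const T I) =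
      ContinuousMap.const T (J.comp I) := rfl

theorem Mix.resc_c0 {K L : Type} {p : ℕ} (J : Iv) (x : Mix K L (Dl p)) :
    x.resc 0 (mixIv (c0 p) J Iv.full) = x.resc 0 (ContinuousMap.const _ J) := by rw [mixIv_c0]

theorem Mix.resc_c1 {K L : Type} {p : ℕ} (J : Iv) (x : Mix K L (Dl p)) :
    x.resc 0 (mixIv (c1 p) J Iv.full) = x := by
  rw [mixIv_c1]
  exact Mix.resc_full 0 x

theorem Mix.pull_inF {K L T T' : Type} [TopologicalSpace T] [TopologicalSpace T'] (g : C(T', T))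
    (S : Conf L T) : (Mix.inF S : Mix K L T).pull g = Mix.inF (S.pull g) := by
  refine Mix.ext ?_ rfl
  show Fn.pull (Fn.push (fun l => some (Sum.inr l : K ⊕ L)) (al S)) g =
    Fn.push (fun l => some (Sum.inr l : K ⊕ L)) (al (S.pull g))
  rw [al_pull_eq]
  rfl

namespace MixSS

variable {K L K' L' : Type}

/-- nothing -/
def emp (K L : Type) (p : ℕ) : (MixSS K L).obj p := (Mix.emp : Mix K L (Dl p))

theorem emp_map (K L : Type) {p q : ℕ} (α : Op p q) :
    (MixSS K L).map α (emp K L q) = emp K L p := Mix.pull_emp _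

theorem map_emp [Finite K] [Finite L] (f : K → Option K') (g : L → Option (K' ⊕ L')) (p : ℕ) :
    (map f g).app (emp K L p) = emp K' L' p := Mix.map_emp f g

theorem eq_emp_of_isEmpty [IsEmpty K] [IsEmpty L] {p : ℕ} (x : (MixSS K L).obj p) :
    x = emp K L p := by
  refine Mix.ext ?_ (Conf.eq_empty _)
  refine Fn.ext' fun t v k w => ?_
  exact isEmptyElim k

theorem map_mul [Finite K] [Finite L] (f : K → Option K') (g : L → Option (K' ⊕ L')) {p : ℕ}
    (x y : (MixSS K L).obj p) :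
    (map f g).app ((mul K L).app (x, y)) = (mul K' L').app ((map f g).app x, (map f g).app y) :=
  Mix.map_mul f g x y

/-- the homotopy from `x · ∅` to `x` -/
noncomputable def hR (K L : Type) : SS.Htp (MixSS K L) (MixSS K L) where
  h _ χ x := Mix.resc 0 (mixIv χ Iv.lh Iv.full) x
  nat f χ x := by
    rw [mixIv_comp]
    exact (Mix.pull_resc (dmap f) 0 (mixIv χ Iv.lh Iv.full) x).symm

theorem hR_c0 (K L : Type) {p : ℕ} (x : (MixSS K L).obj p) :
    (hR K L).h p (c0 p) x = (mul K L).app (x, emp K L p) :=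
  (Mix.resc_c0 Iv.lh x).trans (Mix.mul_emp (T := Dl p) x).symm

theorem hR_c1 (K L : Type) {p : ℕ} (x : (MixSS K L).obj p) : (hR K L).h p (c1 p) x = x :=
  Mix.resc_c1 Iv.lh x

theorem map_hR [Finite K] [Finite L] (f : K → Option K') (g : L → Option (K' ⊕ L')) {p : ℕ}
    (χ : Op p 1) (x : (MixSS K L).obj p) :
    (map f g).app ((hR K L).h p χ x) = (hR K' L').h p χ ((map f g).app x) :=
  Mix.map_resc f g 0 _ x

/-- the homotopy from `∅ · x` to `x` -/
noncomputable def hL (K L : Type) : SS.Htp (MixSS K L) (MixSS K L) where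
  h _ χ x := Mix.resc 0 (mixIv χ Iv.rh Iv.full) x
  nat f χ x := by
    rw [mixIv_comp]
    exact (Mix.pull_resc (dmap f) 0 (mixIv χ Iv.rh Iv.full) x).symm

theorem hL_c0 (K L : Type) {p : ℕ} (x : (MixSS K L).obj p) :
    (hL K L).h p (c0 p) x = (mul K L).app (emp K L p, x) :=
  (Mix.resc_c0 Iv.rh x).trans (Mix.emp_mul (T := Dl p) x).symm

theorem hL_c1 (K L : Type) {p : ℕ} (x : (MixSS K L).obj p) : (hL K L).h p (c1 p) x = x :=
  Mix.resc_c1 Iv.rh x

theorem map_hL [Finite K] [Finite L] (f : K → Option K') (g : L → Option (K' ⊕ L')) {p : ℕ}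
    (χ : Op p 1) (x : (MixSS K L).obj p) :
    (map f g).app ((hL K L).h p χ x) = (hL K' L').h p χ ((map f g).app x) :=
  Mix.map_resc f g 0 _ x

/-! #### Associativity -/

/-- the intervals of `(x y) z` -/
noncomputable def ivA : Fin 3 → Iv := ![Iv.lh.comp Iv.lh, Iv.lh.comp Iv.rh, Iv.rh]

/-- the intervals of `x (y z)` -/
noncomputable def ivB : Fin 3 → Iv := ![Iv.lh, Iv.rh.comp Iv.lh, Iv.rh.comp Iv.rh]

theorem ivA_bf {i j : Fin 3} (h : i < j) : (ivA i).Bf (ivA j) := by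
  fin_cases i <;> fin_cases j <;> first
    | exact absurd h (by decide)
    | (simp only [ivA, Iv.Bf, Iv.comp_lo, Iv.comp_hi, Iv.lh_lo, Iv.lh_hi, Iv.rh_lo, Iv.rh_hi,
        Matrix.cons_val_zero, Matrix.cons_val_one, Matrix.cons_val, Fin.isValue, Fin.mk_one,
        Fin.zero_eta, Fin.reduceFinMk]
       norm_num)

theorem ivB_bf {i j : Fin 3} (h : i < j) : (ivB i).Bf (ivB j) := by
  fin_cases i <;> fin_cases j <;> first
    | exact absurd h (by decide)
    | (simp only [ivB, Iv.Bf, Iv.comp_lo, Iv.comp_hi, Iv.lh_lo, Iv.lh_hi, Iv.rh_lo, Iv.rh_hi,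
        Matrix.cons_val_zero, Matrix.cons_val_one, Matrix.cons_val, Fin.isValue, Fin.mk_one,
        Fin.zero_eta, Fin.reduceFinMk]
       norm_num)

theorem djC_iv {p : ℕ} (χ : Op p 1) : DjC fun i : Fin 3 => mixIv χ (ivA i) (ivB i) := by
  intro i j hij t
  rcases lt_or_gt_of_ne hij with h | h
  · exact Or.inl (Iv.Bf.mix (chiI χ t) (ivA_bf h) (ivB_bf h))
  · exact Or.inr (Iv.Bf.mix (chiI χ t) (ivA_bf h) (ivB_bf h))

/-- the homotopy from `(x y) z` to `x (y z)` -/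
noncomputable def hA (K L : Type) :
    SS.Htp (((MixSS K L).prod (MixSS K L)).prod (MixSS K L)) (MixSS K L) where
  h p χ x := (Mix.jx (fun i : Fin 3 => mixIv χ (ivA i) (ivB i)) (djC_iv χ) ![x.1.1, x.1.2, x.2] :
    Mix K L (Dl p))
  nat {p q} f χ x := by
    show (Mix.jx (fun i : Fin 3 => mixIv (χ.comp f) (ivA i) (ivB i)) (djC_iv (χ.comp f))
      ![Mix.pull (dmap f) x.1.1, Mix.pull (dmap f) x.1.2, Mix.pull (dmap f) x.2] :
        Mix K L (Dl p)) = Mix.pull (dmap f) (Mix.jx _ (djC_iv χ) ![x.1.1, x.1.2, x.2] :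
          Mix K L (Dl q))
    rw [Mix.pull_jx]
    congr 1
    · funext i
      exact mixIv_comp χ f (ivA i) (ivB i)
    · funext i
      fin_cases i <;> rfl

theorem exists_fin3 {P : Fin 3 → Prop} : (∃ i, P i) ↔ P 0 ∨ P 1 ∨ P 2 := by
  constructor
  · rintro ⟨i, hi⟩
    fin_cases i
    · exact Or.inl hi
    · exact Or.inr (Or.inl hi)
    · exact Or.inr (Or.inr hi)
  · rintro (h | h | h)
    · exact ⟨0, h⟩
    · exact ⟨1, h⟩
    · exact ⟨2, h⟩

section

variable {T : Type} [TopologicalSpace T]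

theorem jx3_A (x y z : Mix K L T) (hJ : DjC fun i : Fin 3 => ContinuousMap.const T (ivA i)) :
    Mix.jx (fun i : Fin 3 => ContinuousMap.const T (ivA i)) hJ ![x, y, z] = (x.mul y).mul z := by
  refine Mix.ext' (fun t v k w => ?_) fun b => ?_
  · rw [Mix.mul_q, Fn.mul_eq_some, Mix.mul_q, Mix.jx_q, exists_fin3]
    simp only [Fn.mul_eq_some]
    show ((∃ v', bxm (bxc 0 (Iv.lh.comp Iv.lh)) v = some v' ∧ x.q t v' = some (k, w)) ∨
      (∃ v', bxm (bxc 0 (Iv.lh.comp Iv.rh)) v = some v' ∧ y.q t v' = some (k, w)) ∨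
      ∃ v', bxm (bxc 0 Iv.rh) v = some v' ∧ z.q t v' = some (k, w)) ↔ _
    simp only [bxm_bxc_comp]
    constructor
    · rintro (⟨v', ⟨v'', h1, h2⟩, h3⟩ | ⟨v', ⟨v'', h1, h2⟩, h3⟩ | ⟨v', h1, h2⟩)
      · exact Or.inl ⟨v'', h1, Or.inl ⟨v', h2, h3⟩⟩
      · exact Or.inl ⟨v'', h1, Or.inr ⟨v', h2, h3⟩⟩
      · exact Or.inr ⟨v', h1, h2⟩
    · rintro (⟨v'', h1, ⟨v', h2, h3⟩ | ⟨v', h2, h3⟩⟩ | ⟨v', h1, h2⟩)
      · exact Or.inl ⟨v', ⟨v'', h1, h2⟩, h3⟩
      · exact Or.inr (Or.inl ⟨v', ⟨v'', h1, h2⟩, h3⟩)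
      · exact Or.inr (Or.inr ⟨v', h1, h2⟩)
  · rw [Mix.mem_mul_S, Mix.mem_jx_S, exists_fin3]
    simp only [Mix.mem_mul_S]
    show ((∃ c, (c, b.2) ∈ x.S.pts ∧ rescC 0 (ContinuousMap.const T (Iv.lh.comp Iv.lh)) c = b.1) ∨
      (∃ c, (c, b.2) ∈ y.S.pts ∧ rescC 0 (ContinuousMap.const T (Iv.lh.comp Iv.rh)) c = b.1) ∨
      ∃ c, (c, b.2) ∈ z.S.pts ∧ rescC 0 (ContinuousMap.const T Iv.rh) c = b.1) ↔ _
    simp only [← const_compC, ← rescC_rescC]
    constructor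
    · rintro (⟨c, h1, h2⟩ | ⟨c, h1, h2⟩ | ⟨c, h1, h2⟩)
      · exact Or.inl ⟨_, Or.inl ⟨c, h1, rfl⟩, h2⟩
      · exact Or.inl ⟨_, Or.inr ⟨c, h1, rfl⟩, h2⟩
      · exact Or.inr ⟨c, h1, h2⟩
    · rintro (⟨c, ⟨c', h1, rfl⟩ | ⟨c', h1, rfl⟩, h2⟩ | ⟨c, h1, h2⟩)
      · exact Or.inl ⟨c', h1, h2⟩
      · exact Or.inr (Or.inl ⟨c', h1, h2⟩)
      · exact Or.inr (Or.inr ⟨c, h1, h2⟩)

theorem jx3_B (x y z : Mix K L T) (hJ : DjC fun i : Fin 3 => ContinuousMap.const T (ivB i)) :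
    Mix.jx (fun i : Fin 3 => ContinuousMap.const T (ivB i)) hJ ![x, y, z] = x.mul (y.mul z) := by
  refine Mix.ext' (fun t v k w => ?_) fun b => ?_
  · rw [Mix.mul_q, Fn.mul_eq_some, Mix.mul_q, Mix.jx_q, exists_fin3]
    simp only [Fn.mul_eq_some]
    show ((∃ v', bxm (bxc 0 Iv.lh) v = some v' ∧ x.q t v' = some (k, w)) ∨
      (∃ v', bxm (bxc 0 (Iv.rh.comp Iv.lh)) v = some v' ∧ y.q t v' = some (k, w)) ∨
      ∃ v', bxm (bxc 0 (Iv.rh.comp Iv.rh)) v = some v' ∧ z.q t v' = some (k, w)) ↔ _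
    simp only [bxm_bxc_comp]
    constructor
    · rintro (⟨v', h1, h2⟩ | ⟨v', ⟨v'', h1, h2⟩, h3⟩ | ⟨v', ⟨v'', h1, h2⟩, h3⟩)
      · exact Or.inl ⟨v', h1, h2⟩
      · exact Or.inr ⟨v'', h1, Or.inl ⟨v', h2, h3⟩⟩
      · exact Or.inr ⟨v'', h1, Or.inr ⟨v', h2, h3⟩⟩
    · rintro (⟨v', h1, h2⟩ | ⟨v'', h1, ⟨v', h2, h3⟩ | ⟨v', h2, h3⟩⟩)
      · exact Or.inl ⟨v', h1, h2⟩
      · exact Or.inr (Or.inl ⟨v', ⟨v'', h1, h2⟩, h3⟩)
      · exact Or.inr (Or.inr ⟨v', ⟨v'', h1, h2⟩, h3⟩)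
  · rw [Mix.mem_mul_S, Mix.mem_jx_S, exists_fin3]
    simp only [Mix.mem_mul_S]
    show ((∃ c, (c, b.2) ∈ x.S.pts ∧ rescC 0 (ContinuousMap.const T Iv.lh) c = b.1) ∨
      (∃ c, (c, b.2) ∈ y.S.pts ∧ rescC 0 (ContinuousMap.const T (Iv.rh.comp Iv.lh)) c = b.1) ∨
      ∃ c, (c, b.2) ∈ z.S.pts ∧ rescC 0 (ContinuousMap.const T (Iv.rh.comp Iv.rh)) c = b.1) ↔ _
    simp only [← const_compC, ← rescC_rescC]
    constructor
    · rintro (⟨c, h1, h2⟩ | ⟨c, h1, h2⟩ | ⟨c, h1, h2⟩)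
      · exact Or.inl ⟨c, h1, h2⟩
      · exact Or.inr ⟨_, Or.inl ⟨c, h1, rfl⟩, h2⟩
      · exact Or.inr ⟨_, Or.inr ⟨c, h1, rfl⟩, h2⟩
    · rintro (⟨c, h1, h2⟩ | ⟨c, ⟨c', h1, rfl⟩ | ⟨c', h1, rfl⟩, h2⟩)
      · exact Or.inl ⟨c, h1, h2⟩
      · exact Or.inr (Or.inl ⟨c', h1, h2⟩)
      · exact Or.inr (Or.inr ⟨c', h1, h2⟩)

theorem jx_congr {ι : Type} [Fintype ι] {J J' : ι → C(T, Iv)} {hJ : DjC J} {hJ' : DjC J'}
    {c : ι → Mix K L T} (h : ∀ i, J i = J' i) : Mix.jx J hJ c = Mix.jx J' hJ' c := by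
  obtain rfl := funext h
  rfl

end

theorem hA_c0 (K L : Type) {p : ℕ} (x y z : (MixSS K L).obj p) :
    (hA K L).h p (c0 p) ((x, y), z) = (mul K L).app ((mul K L).app (x, y), z) := by
  have hd : DjC fun i : Fin 3 => ContinuousMap.const (Dl p) (ivA i) := by
    have := djC_iv (c0 p)
    simpa only [mixIv_c0] using this
  exact (jx_congr (K := K) (L := L) (T := Dl p) (hJ := djC_iv (c0 p)) (hJ' := hd)
    (c := ![x, y, z]) fun i => mixIv_c0 (ivA i) (ivB i)).trans (jx3_A x y z hd)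

theorem hA_c1 (K L : Type) {p : ℕ} (x y z : (MixSS K L).obj p) :
    (hA K L).h p (c1 p) ((x, y), z) = (mul K L).app (x, (mul K L).app (y, z)) := by
  have hd : DjC fun i : Fin 3 => ContinuousMap.const (Dl p) (ivB i) := by
    have := djC_iv (c1 p)
    simpa only [mixIv_c1] using this
  exact (jx_congr (K := K) (L := L) (T := Dl p) (hJ := djC_iv (c1 p)) (hJ' := hd)
    (c := ![x, y, z]) fun i => mixIv_c1 (ivA i) (ivB i)).trans (jx3_B x y z hd)

/-! #### Special labels -/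

/-- the standard box -/
noncomputable def box (p : ℕ) : (MixSS Empty Unit).obj p := (Mix.box () : Mix Empty Unit (Dl p))

theorem box_map {p q : ℕ} (α : Op p q) : (MixSS Empty Unit).map α (box q) = box p :=
  Mix.pull_box _ _

/-- loops as mixed families without boxes -/
noncomputable def ofQ (K L : Type) [Finite K] : SS.Map (QInf K) (MixSS K L) where
  app {p} x := (Mix.inQ x.1 x.2 : Mix K L (Dl p))
  nat _ _ := Mix.ext rfl (Conf.pull_empty _).symm

/-- the loops of a mixed family -/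
noncomputable def toQ (K L : Type) [Finite K] [Finite L] : SS.Map (MixSS K L) (QInf K) where
  app {p} x := ⟨Fn.push (Sum.elim some fun _ => none) (show Mix K L (Dl p) from x).q,
    (show Mix K L (Dl p) from x).st.imp fun _ h => h.push _⟩
  nat _ _ := rfl

theorem toQ_ofQ (K L : Type) [Finite K] [Finite L] {p : ℕ} (x : (QInf K).obj p) :
    (toQ K L).app ((ofQ K L).app x) = x := by
  refine Subtype.ext ?_
  show Fn.push (Sum.elim some fun _ => none) (Fn.push (fun k => some (Sum.inl k)) x.1) = x.1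
  rw [Fn.push_push]
  exact Fn.push_some x.1

theorem ofQ_toQ (K L : Type) [Finite K] [Finite L] [IsEmpty L] {p : ℕ}
    (x : (MixSS K L).obj p) : (ofQ K L).app ((toQ K L).app x) = x := by
  refine Mix.ext ?_ (Conf.eq_empty _).symm
  show Fn.push (fun k => some (Sum.inl k)) (Fn.push (Sum.elim some fun _ => none)
    (show Mix K L (Dl p) from x).q) = (show Mix K L (Dl p) from x).q
  rw [Fn.push_push]
  have : (fun k : K ⊕ L => ((Sum.elim some (fun _ => none) k : Option K)).bind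
      fun k => some (Sum.inl k : K ⊕ L)) = some := by
    funext k
    cases k with
    | inl k => rfl
    | inr l => exact isEmptyElim l
  rw [this, Fn.push_some]

/-- boxes as mixed families -/
noncomputable def ofF (K L : Type) : SS.Map (F L) (MixSS K L) where
  app {p} S := (Mix.inF S : Mix K L (Dl p))
  nat {_ q} α S := (Mix.pull_inF (K := K) (dmap α) (S : Conf L (Dl q))).symm

/-- the boxes of a mixed family -/
noncomputable def toF (K L : Type) : SS.Map (MixSS K L) (F L) where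
  app {p} x := (show Mix K L (Dl p) from x).S
  nat _ _ := rfl

theorem toF_ofF (K L : Type) {p : ℕ} (S : (F L).obj p) : (toF K L).app ((ofF K L).app S) = S :=
  rfl

theorem ofF_toF (K L : Type) [IsEmpty K] {p : ℕ} (x : (MixSS K L).obj p) :
    (ofF K L).app ((toF K L).app x) = x := by
  refine Mix.ext (Fn.ext' fun t v k w => ?_) rfl
  show Fn.push (fun l => some (Sum.inr l)) (al (show Mix K L (Dl p) from x).S) t v =
    some (k, w) ↔ (show Mix K L (Dl p) from x).q t v = some (k, w)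
  rw [Fn.push_eq_some]
  constructor
  · rintro ⟨l, h1, h2⟩
    cases h2
    exact (show Mix K L (Dl p) from x).q_inr.2 h1
  · intro h
    cases k with
    | inl k => exact isEmptyElim k
    | inr l => exact ⟨l, (show Mix K L (Dl p) from x).q_inr.1 h, rfl⟩

end MixSS

end Vale.Agent.P263.G2
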