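import Vale.Agent.P263.G2.Mix

/-!
# P263, block G2: loops only, boxes only

* `Mix.ofQ g : Mix K Empty T` for a stable family `g : Fn K T`;
* `Mix.ofF S : Mix Empty L T` for a configuration `S : Conf L T`;
* both are bijections, compatible with `pull` and relabelling; `ofF_collapse` : the collapse of
  all boxes of `ofF S` is `ofQ (al S)`.
-/

open Topology Vale.Agent.P251.G Vale.Agent.P263.TOP
open scoped OnePoint

namespace Vale.Agent.P263.G2

section

variable {K L K' L' : Type} {T T' : Type} [TopologicalSpace T] [TopologicalSpace T']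

theorem conf_empty_eq (S S' : Conf Empty T) : S = S' :=
  Conf.ext_iff'.2 fun z => z.2.elim

namespace Mix

/-- loops only -/
noncomputable def ofQ [Finite K] (g : Fn K T) (h : ∃ r, Fn.IsSt r g) : Mix K Empty T where
  q := Fn.push (fun k => some (Sum.inl k)) g
  S := Conf.empty
  st := h.imp fun _ h => h.push _
  eq := by
    rw [al_empty]
    refine Fn.ext' fun t v l w => ?_
    exact l.elim

theorem ofQ_q [Finite K] (g : Fn K T) (h : ∃ r, Fn.IsSt r g) {t : T} {v w : ℕ → ℝ} {k : K} :
    (ofQ g h).q t v = some (Sum.inl k, w) ↔ g t v = some (k, w) := by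
  show Fn.push (fun k => some (Sum.inl k)) g t v = _ ↔ _
  rw [Fn.push_eq_some]
  constructor
  · rintro ⟨k', h1, h2⟩
    cases h2
    exact h1
  · intro h1
    exact ⟨k, h1, rfl⟩

theorem ofQ_injective [Finite K] {g g' : Fn K T} {h : ∃ r, Fn.IsSt r g} {h' : ∃ r, Fn.IsSt r g'}
    (H : ofQ g h = ofQ g' h') : g = g' := by
  refine Fn.ext' fun t v k w => ?_
  rw [← ofQ_q g h, H, ofQ_q]

theorem exists_ofQ [Finite K] (x : Mix K Empty T) : ∃ g h, ofQ g h = x := by
  refine ⟨Fn.push (fun y : K ⊕ Empty => y.elim some fun e => e.elim) x.q,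
    x.st.imp fun _ h => h.push _, ?_⟩
  refine Mix.ext (Fn.ext' fun t v y w => ?_) (conf_empty_eq _ _)
  rcases y with k | e
  · rw [ofQ_q, Fn.push_eq_some]
    constructor
    · rintro ⟨y, h1, h2⟩
      rcases y with k' | e
      · cases h2
        exact h1
      · exact e.elim
    · intro h1
      exact ⟨Sum.inl k, h1, rfl⟩
  · exact e.elim

theorem ofQ_pull [Finite K] (g : Fn K T) (h : ∃ r, Fn.IsSt r g) (φ : C(T', T)) :
    (ofQ g h).pull φ = ofQ (g.pull φ) (h.imp fun _ h => h.pull φ) :=
  Mix.ext rfl (conf_empty_eq _ _)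

theorem ofQ_map [Finite K] [Finite K'] (g : Fn K T) (h : ∃ r, Fn.IsSt r g) (f : K → Option K')
    (u : Empty → Option (K' ⊕ Empty)) :
    (ofQ g h).map f u = ofQ (Fn.push f g) (h.imp fun _ h => h.push f) := by
  refine Mix.ext ?_ (conf_empty_eq _ _)
  show Fn.push (labφ f u) (Fn.push (fun k => some (Sum.inl k)) g) =
    Fn.push (fun k => some (Sum.inl k)) (Fn.push f g)
  rw [Fn.push_push, Fn.push_push]
  congr 1
  funext k
  show (f k).map Sum.inl = (f k).bind fun k => some (Sum.inl k)
  cases f k <;> rfl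

/-- boxes only -/
noncomputable def ofF (S : Conf L T) : Mix Empty L T where
  q := fun t v => (al S t v).map fun p => (Sum.inr p.1, p.2)
  S := S
  st := by
    obtain ⟨r, hr⟩ := S.stage
    refine ⟨r, ?_⟩
    rintro (e | l)
    · exact e.elim
    · have h : Fn.cmp (Sum.inr l) (fun t v => (al S t v).map fun p => (Sum.inr p.1, p.2) :
          Fn (Empty ⊕ L) T) = Fn.cmp l (al S) := by
        funext t v
        apply Option.ext
        intro w
        rw [Fn.cmp_eq_some, Fn.cmp_eq_some, Option.map_eq_some_iff]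
        constructor
        · rintro ⟨⟨l', w'⟩, h1, h2⟩
          cases h2
          exact h1
        · intro h1
          exact ⟨(l, w), h1, rfl⟩
      rw [h]
      exact isSt_al hr l
  eq := by
    refine Fn.ext' fun t v l w => ?_
    rw [Fn.push_eq_some]
    constructor
    · rintro ⟨y, h1, h2⟩
      rw [prL_eq_some] at h2
      subst h2
      obtain ⟨⟨l', w'⟩, h3, h4⟩ := Option.map_eq_some_iff.1 h1
      cases h4
      exact h3
    · intro h1
      exact ⟨Sum.inr l, Option.map_eq_some_iff.2 ⟨(l, w), h1, rfl⟩, rfl⟩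

@[simp] theorem ofF_S (S : Conf L T) : (ofF S).S = S := rfl

/-- boxes determine the family if there are no other labels -/
theorem ext_S2 {x y : Mix Empty L T} (h : x.S = y.S) : x = y := by
  refine Mix.ext (Fn.ext' fun t v z w => ?_) h
  rcases z with e | l
  · exact e.elim
  · rw [q_inr, q_inr, h]

theorem ofF_injective {S S' : Conf L T} (h : ofF S = ofF S') : S = S' :=
  congrArg Mix.S h

theorem exists_ofF (x : Mix Empty L T) : ∃ S, ofF S = x := ⟨x.S, ext_S2 rfl⟩

theorem ofF_pull (S : Conf L T) (φ : C(T', T)) : (ofF S).pull φ = ofF (S.pull φ) := ext_S2 rfl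

theorem ofF_map [Finite L] [Finite L'] (S : Conf L T) (f : L → Option L')
    (u : Empty → Option Empty) :
    (ofF S).map u (fun l => (f l).map Sum.inr) = ofF (S.map f) := by
  refine ext_S2 ?_
  show S.map (labψ fun l => (f l).map Sum.inr) = S.map f
  congr 1
  funext l
  show ((f l).map Sum.inr).bind prL = f l
  cases f l <;> rfl

/-- **the collapse of all boxes** -/
theorem ofF_collapse [Finite K] (S : Conf K T) (u : Empty → Option K) :
    (ofF S).map (L' := Empty) u (fun k => some (Sum.inl k)) =
      ofQ (al S) (S.stage.imp fun _ h => isSt_al h) := by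
  refine Mix.ext (Fn.ext' fun t v z w => ?_) (conf_empty_eq _ _)
  rcases z with k | e
  · rw [ofQ_q]
    show Fn.push (labφ u fun k => some (Sum.inl k)) (ofF S).q t v = _ ↔ _
    rw [Fn.push_eq_some]
    constructor
    · rintro ⟨y, h1, h2⟩
      rcases y with e | k'
      · exact e.elim
      · cases h2
        exact (ofF S).q_inr.1 h1
    · intro h1
      exact ⟨Sum.inr k, (ofF S).q_inr.2 h1, rfl⟩
  · exact e.elim

end Mix

end

end Vale.Agent.P263.G2
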