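import Vale.Agent.P263.G2.MixGI
import Vale.Agent.P263.GB.UnionRZ

/-!
# P263, block G2-7: the splitting theorem

`MixSS.split` : dropping labels is a homology isomorphism of `MixSS (K₁ ⊕ K₂) (L₁ ⊕ L₂)` onto
`MixSS K₁ L₁ × MixSS K₂ L₂`; `mixG : MixG`, `mixInv : mixG.Inv`.
-/

open Topology Vale.Agent.P251.G Vale.Agent.P263.TOP
open scoped OnePoint

namespace Vale.Agent.P263.G2

section

variable {K L K' L' : Type} {T T' : Type} [TopologicalSpace T] [TopologicalSpace T']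

/-- the coordinates `≥ r` are copied -/
theorem Fn.IsSt.copy {r : ℕ} {g : Fn K T} (hg : Fn.IsSt r g) {t : T} {v w : ℕ → ℝ} {k : K}
    (h : g t v = some (k, w)) {i : ℕ} (hi : r ≤ i) : w i = v i := by
  obtain ⟨φ, -, h2⟩ := hg k
  have h3 := Fn.cmp_eq_some.2 h
  rw [h2, ex_eq_some] at h3
  obtain ⟨y, -, rfl⟩ := h3
  exact rep_of_le hi

namespace Mix

theorem tg_q_eq_some {n : ℕ} {J : K ⊕ L → C(T, Iv)} {x : Mix K L T} {t : T} {v w : ℕ → ℝ}
    {k : K ⊕ L} : (x.tg n J).q t v = some (k, w) ↔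
      ∃ w', x.q t v = some (k, w') ∧ bxm (bxc n (J k t)) w' = some w :=
  Fn.post_eq_some (f := fun k t y => bxm (bxc n (J k t)) y) (g := x.q)

theorem map_q_eq_some [Finite K] [Finite L] {f : K → Option K'} {g : L → Option (K' ⊕ L')}
    {x : Mix K L T} {t : T} {v w : ℕ → ℝ} {k : K' ⊕ L'} : (x.map f g).q t v = some (k, w) ↔
      ∃ k', x.q t v = some (k', w) ∧ labφ f g k' = some k := Fn.push_eq_some

theorem mem_map_S [Finite K] [Finite L] {f : K → Option K'} {g : L → Option (K' ⊕ L')}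
    {x : Mix K L T} {z : C(T, Bx) × L'} : z ∈ (x.map f g).S.pts ↔
      ∃ l, (z.1, l) ∈ x.S.pts ∧ labψ g l = some z.2 := Conf.mem_map

theorem mem_tg_S {n : ℕ} {J : K ⊕ L → C(T, Iv)} {x : Mix K L T} {z : C(T, Bx) × L} :
    z ∈ (x.tg n J).S.pts ↔ ∃ c, (c, z.2) ∈ x.S.pts ∧ tgC n (J (Sum.inr z.2)) c = z.1 :=
  Conf.mem_tg

theorem map_none [Finite K] [Finite L] (x : Mix K L T) :
    (x.map (fun _ => none) (fun _ => none) : Mix K' L' T) = emp := by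
  refine Mix.ext' (fun t v k w => ?_) fun z => ?_
  · rw [map_q_eq_some]
    constructor
    · rintro ⟨k', -, h⟩
      rcases k' with k' | l'
      · exact absurd h (by simp [labφ])
      · exact absurd h (by simp [labφ])
    · intro h
      exact absurd h (by simp [Fn.emp])
  · rw [mem_map_S]
    constructor
    · rintro ⟨l, -, h⟩
      exact absurd h (by simp [labψ])
    · intro h
      simp [Conf.empty] at h

theorem tg_emp (n : ℕ) (J : K ⊕ L → C(T, Iv)) : (emp : Mix K L T).tg n J = emp := by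
  refine Mix.ext' (fun t v k w => ?_) fun z => ?_
  · rw [tg_q_eq_some]
    simp [Fn.emp]
  · rw [mem_tg_S]
    simp [Conf.empty]

theorem un_congr {ι : Type} [Fintype ι] {c c' : ι → Mix K L T} {h : Dis c} {h' : Dis c'}
    (e : ∀ i, c i = c' i) : un c h = un c' h' := by
  obtain rfl := funext e
  rfl

/-- a union with all members but one empty -/
theorem un_eq_of_emp {ι : Type} [Fintype ι] {c : ι → Mix K L T} {h : Dis c} (i : ι)
    (hi : ∀ j, j ≠ i → c j = emp) : un c h = c i := by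
  refine Mix.ext' (fun t v k w => ?_) fun z => ?_
  · rw [un_q]
    constructor
    · rintro ⟨j, hj⟩
      by_cases e : j = i
      · rwa [e] at hj
      · rw [hi j e] at hj
        exact absurd hj (by simp [Fn.emp])
    · intro h'
      exact ⟨i, h'⟩
  · rw [mem_un_S]
    constructor
    · rintro ⟨j, hj⟩
      by_cases e : j = i
      · rwa [e] at hj
      · rw [hi j e] at hj
        simp [Conf.empty] at hj
    · intro h'
      exact ⟨i, h'⟩

/-- families of stage `r`, moved to the two halves of the coordinate `r`, have disjoint supports -/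
theorem dis_tg {ι : Type} {r : ℕ} {c : ι → Mix K L T} (hc : ∀ i, (c i).IsSt r)
    {J : ι → C(T, Iv)} (hJ : DjC J) : Dis fun i => (c i).tg r fun _ => J i := by
  rintro i j t v ⟨k, y⟩ ⟨l, z⟩ h1 h2
  by_contra hne
  obtain ⟨y', h3, h4⟩ := tg_q_eq_some.1 h1
  obtain ⟨z', h5, h6⟩ := tg_q_eq_some.1 h2
  have h7 := (bxm_bxc_eq_some.1 h4).1
  have h8 := (bxm_bxc_eq_some.1 h6).1
  rw [(hc i).1.copy h3 le_rfl] at h7
  rw [(hc j).1.copy h5 le_rfl] at h8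
  exact (hJ i j hne t).not_rel h7 h8

end Mix

/-! ### The splitting -/

variable {K₁ K₂ L₁ L₂ : Type} [Finite K₁] [Finite K₂] [Finite L₁] [Finite L₂]

namespace Mix

/-- keep the first labels -/
noncomputable def p1 (x : Mix (K₁ ⊕ K₂) (L₁ ⊕ L₂) T) : Mix K₁ L₁ T :=
  x.map (Sum.elim some (fun _ => none)) (Sum.elim (fun l => some (Sum.inr l)) (fun _ => none))

/-- keep the second labels -/
noncomputable def p2 (x : Mix (K₁ ⊕ K₂) (L₁ ⊕ L₂) T) : Mix K₂ L₂ T :=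
  x.map (Sum.elim (fun _ => none) some) (Sum.elim (fun _ => none) (fun l => some (Sum.inr l)))

/-- the first labels -/
noncomputable def i1 (K₂ L₂ : Type) (x : Mix K₁ L₁ T) : Mix (K₁ ⊕ K₂) (L₁ ⊕ L₂) T :=
  x.map (fun k => some (Sum.inl k)) (fun l => some (Sum.inr (Sum.inl l)))

/-- the second labels -/
noncomputable def i2 (K₁ L₁ : Type) (x : Mix K₂ L₂ T) : Mix (K₁ ⊕ K₂) (L₁ ⊕ L₂) T :=
  x.map (fun k => some (Sum.inr k)) (fun l => some (Sum.inr (Sum.inr l)))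

theorem p1_i1 (x : Mix K₁ L₁ T) : (i1 K₂ L₂ x).p1 = x :=
  (map_map _ _ _ _ x).trans (map_id x)

theorem p2_i2 (x : Mix K₂ L₂ T) : (i2 K₁ L₁ x).p2 = x :=
  (map_map _ _ _ _ x).trans (map_id x)

theorem p2_i1 (x : Mix K₁ L₁ T) : (i1 K₂ L₂ x).p2 = emp :=
  (map_map _ _ _ _ x).trans (map_none x)

theorem p1_i2 (x : Mix K₂ L₂ T) : (i2 K₁ L₁ x).p1 = emp :=
  (map_map _ _ _ _ x).trans (map_none x)

/-- the intervals of the two halves -/
noncomputable def halfC (T : Type) [TopologicalSpace T] (b : Bool) : C(T, Iv) :=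
  ContinuousMap.const T (Iv.half b)

theorem isSt_two {r : ℕ} {x : Mix K₁ L₁ T} {y : Mix K₂ L₂ T} (hx : x.IsSt r) (hy : y.IsSt r)
    (b : Bool) : (Fn.two (i1 K₂ L₂ x) (i2 K₁ L₁ y) b).IsSt r := by
  cases b
  · exact hx.map _ _
  · exact hy.map _ _

/-- `x` and `y` next to each other in the coordinate `r` of the target -/
noncomputable def gl {r : ℕ} (x : Mix K₁ L₁ T) (y : Mix K₂ L₂ T) (hx : x.IsSt r)
    (hy : y.IsSt r) : Mix (K₁ ⊕ K₂) (L₁ ⊕ L₂) T :=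
  un (fun b => (Fn.two (i1 K₂ L₂ x) (i2 K₁ L₁ y) b).tg r fun _ => halfC T b)
    (dis_tg (isSt_two hx hy) djC_half)

theorem gl_q {r : ℕ} {x : Mix K₁ L₁ T} {y : Mix K₂ L₂ T} {hx : x.IsSt r} {hy : y.IsSt r}
    {t : T} {v : ℕ → ℝ} {w : ((K₁ ⊕ K₂) ⊕ (L₁ ⊕ L₂)) × (ℕ → ℝ)} :
    (gl x y hx hy).q t v = some w ↔
      ((i1 K₂ L₂ x).tg r fun _ => halfC T false).q t v = some w ∨
        ((i2 K₁ L₁ y).tg r fun _ => halfC T true).q t v = some w := by
  unfold gl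
  rw [un_q, Bool.exists_bool]
  rfl

theorem mem_gl {r : ℕ} {x : Mix K₁ L₁ T} {y : Mix K₂ L₂ T} {hx : x.IsSt r} {hy : y.IsSt r}
    {z : C(T, Bx) × (L₁ ⊕ L₂)} :
    z ∈ (gl x y hx hy).S.pts ↔ z ∈ ((i1 K₂ L₂ x).tg r fun _ => halfC T false).S.pts ∨
      z ∈ ((i2 K₁ L₁ y).tg r fun _ => halfC T true).S.pts := by
  unfold gl
  rw [mem_un_S, Bool.exists_bool]
  rfl

theorem pull_gl {r : ℕ} (x : Mix K₁ L₁ T) (y : Mix K₂ L₂ T) (hx : x.IsSt r) (hy : y.IsSt r)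
    (g : C(T', T)) : (gl x y hx hy).pull g = gl (x.pull g) (y.pull g) (hx.pull g) (hy.pull g) := by
  unfold gl
  rw [pull_un]
  refine un_congr fun b => ?_
  rw [pull_tg]
  cases b
  · show ((i1 K₂ L₂ x).pull g).tg r _ = (i1 K₂ L₂ (x.pull g)).tg r _
    unfold i1
    rw [map_pull]
    rfl
  · show ((i2 K₁ L₁ y).pull g).tg r _ = (i2 K₁ L₁ (y.pull g)).tg r _
    unfold i2
    rw [map_pull]
    rfl

theorem p1_gl {r : ℕ} (x : Mix K₁ L₁ T) (y : Mix K₂ L₂ T) (hx : x.IsSt r) (hy : y.IsSt r) :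
    (gl x y hx hy).p1 = x.tg r fun _ => halfC T false := by
  unfold gl p1
  rw [map_un]
  refine (un_eq_of_emp false fun b hb => ?_).trans ?_
  · obtain rfl : b = true := by simpa using hb
    rw [map_tg _ _ r (J' := fun _ => halfC T true) fun _ _ _ => rfl]
    exact (congrArg (fun z : Mix K₁ L₁ T => z.tg r fun _ => halfC T true) (p1_i2 y)).trans
      (tg_emp r _)
  · rw [map_tg _ _ r (J' := fun _ => halfC T false) fun _ _ _ => rfl]
    exact congrArg (fun z : Mix K₁ L₁ T => z.tg r fun _ => halfC T false) (p1_i1 x)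

theorem p2_gl {r : ℕ} (x : Mix K₁ L₁ T) (y : Mix K₂ L₂ T) (hx : x.IsSt r) (hy : y.IsSt r) :
    (gl x y hx hy).p2 = y.tg r fun _ => halfC T true := by
  unfold gl p2
  rw [map_un]
  refine (un_eq_of_emp true fun b hb => ?_).trans ?_
  · obtain rfl : b = false := by simpa using hb
    rw [map_tg _ _ r (J' := fun _ => halfC T false) fun _ _ _ => rfl]
    exact (congrArg (fun z : Mix K₂ L₂ T => z.tg r fun _ => halfC T false) (p2_i1 x)).trans
      (tg_emp r _)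
  · rw [map_tg _ _ r (J' := fun _ => halfC T true) fun _ _ _ => rfl]
    exact congrArg (fun z : Mix K₂ L₂ T => z.tg r fun _ => halfC T true) (p2_i2 y)

/-- the side of a label -/
def side : (K₁ ⊕ K₂) ⊕ (L₁ ⊕ L₂) → Bool :=
  Sum.elim (Sum.elim (fun _ => false) (fun _ => true)) (Sum.elim (fun _ => false) (fun _ => true))

theorem i1_p1_q {x : Mix (K₁ ⊕ K₂) (L₁ ⊕ L₂) T} {t : T} {v w : ℕ → ℝ}
    {k : (K₁ ⊕ K₂) ⊕ (L₁ ⊕ L₂)} :
    (i1 K₂ L₂ x.p1).q t v = some (k, w) ↔ side k = false ∧ x.q t v = some (k, w) := by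
  unfold i1 p1
  rw [map_map, map_q_eq_some]
  constructor
  · rintro ⟨k', h1, h2⟩
    rcases k' with (k' | k') | (k' | k') <;> cases h2
    · exact ⟨rfl, h1⟩
    · exact ⟨rfl, h1⟩
  · rintro ⟨h1, h2⟩
    refine ⟨k, h2, ?_⟩
    rcases k with (k | k) | (k | k) <;> first | rfl | exact Bool.noConfusion h1

theorem i2_p2_q {x : Mix (K₁ ⊕ K₂) (L₁ ⊕ L₂) T} {t : T} {v w : ℕ → ℝ}
    {k : (K₁ ⊕ K₂) ⊕ (L₁ ⊕ L₂)} :
    (i2 K₁ L₁ x.p2).q t v = some (k, w) ↔ side k = true ∧ x.q t v = some (k, w) := by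
  unfold i2 p2
  rw [map_map, map_q_eq_some]
  constructor
  · rintro ⟨k', h1, h2⟩
    rcases k' with (k' | k') | (k' | k') <;> cases h2
    · exact ⟨rfl, h1⟩
    · exact ⟨rfl, h1⟩
  · rintro ⟨h1, h2⟩
    refine ⟨k, h2, ?_⟩
    rcases k with (k | k) | (k | k) <;> first | rfl | exact Bool.noConfusion h1

theorem mem_i1_p1 {x : Mix (K₁ ⊕ K₂) (L₁ ⊕ L₂) T} {z : C(T, Bx) × (L₁ ⊕ L₂)} :
    z ∈ (i1 K₂ L₂ x.p1).S.pts ↔ side (K₁ := K₁) (K₂ := K₂) (Sum.inr z.2) = false ∧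
      z ∈ x.S.pts := by
  unfold i1 p1
  rw [map_map, mem_map_S]
  obtain ⟨c, k⟩ := z
  constructor
  · rintro ⟨k', h1, h2⟩
    rcases k' with k' | k' <;> cases h2
    exact ⟨rfl, h1⟩
  · rintro ⟨h1, h2⟩
    refine ⟨k, h2, ?_⟩
    rcases k with k | k <;> first | rfl | exact Bool.noConfusion h1

theorem mem_i2_p2 {x : Mix (K₁ ⊕ K₂) (L₁ ⊕ L₂) T} {z : C(T, Bx) × (L₁ ⊕ L₂)} :
    z ∈ (i2 K₁ L₁ x.p2).S.pts ↔ side (K₁ := K₁) (K₂ := K₂) (Sum.inr z.2) = true ∧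
      z ∈ x.S.pts := by
  unfold i2 p2
  rw [map_map, mem_map_S]
  obtain ⟨c, k⟩ := z
  constructor
  · rintro ⟨k', h1, h2⟩
    rcases k' with k' | k' <;> cases h2
    exact ⟨rfl, h1⟩
  · rintro ⟨h1, h2⟩
    refine ⟨k, h2, ?_⟩
    rcases k with k | k <;> first | rfl | exact Bool.noConfusion h1

/-- gluing the two parts: the inner coordinate `r` is moved to the half given by the label -/
theorem gl_p {r : ℕ} (x : Mix (K₁ ⊕ K₂) (L₁ ⊕ L₂) T) (h1 : x.p1.IsSt r) (h2 : x.p2.IsSt r) :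
    gl x.p1 x.p2 h1 h2 = x.tg r fun k => halfC T (side k) := by
  refine Mix.ext' (fun t v k w => ?_) fun z => ?_
  · rw [gl_q, tg_q_eq_some, tg_q_eq_some, tg_q_eq_some]
    simp only [i1_p1_q, i2_p2_q]
    cases h : side k <;> simp
  · rw [mem_gl, mem_tg_S, mem_tg_S, mem_tg_S]
    simp only [mem_i1_p1, mem_i2_p2]
    cases h : side (K₁ := K₁) (K₂ := K₂) (Sum.inr z.2) <;> simp

end Mix

end

/-! ### The simplicial sets -/

open Vale.Agent.P263.S Vale.Agent.P263.E Vale.Agent.P263.GB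

namespace MixSS

/-- `MixSS K L` is the union of its stages -/
noncomputable def isUnion (K L : Type) : IsUnion (MixSS K L) fun r => stage r K L where
  s r := incl' (Nat.le_succ r) K L
  i r := incl r K L
  comp _ := rfl
  inj _ _ _ _ h := Subtype.ext h
  surj p u := by
    obtain ⟨r, hr⟩ := Mix.exists_isSt (T := Dl p) u
    exact ⟨r, ⟨u, hr⟩, rfl⟩

/-- the product of two unions -/
noncomputable def isUnion₂ (K₁ L₁ K₂ L₂ : Type) :
    IsUnion ((MixSS K₁ L₁).prod (MixSS K₂ L₂)) fun r => (stage r K₁ L₁).prod (stage r K₂ L₂) where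
  s r := ⟨fun x => (⟨x.1.1, x.1.2.mono (Nat.le_succ r)⟩, ⟨x.2.1, x.2.2.mono (Nat.le_succ r)⟩),
    fun _ _ => rfl⟩
  i r := ⟨fun x => (x.1.1, x.2.1), fun _ _ => rfl⟩
  comp _ := rfl
  inj _ _ x y h := by
    have h1 : x.1.1 = y.1.1 := congrArg Prod.fst h
    have h2 : x.2.1 = y.2.1 := congrArg Prod.snd h
    exact Prod.ext (Subtype.ext h1) (Subtype.ext h2)
  surj p u := by
    obtain ⟨r, hr⟩ := Mix.exists_isSt (T := Dl p) u.1
    obtain ⟨s, hs⟩ := Mix.exists_isSt (T := Dl p) u.2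
    exact ⟨max r s, (⟨u.1, hr.mono (le_max_left _ _)⟩, ⟨u.2, hs.mono (le_max_right _ _)⟩), rfl⟩

variable (K₁ K₂ L₁ L₂ : Type) [Finite K₁] [Finite K₂] [Finite L₁] [Finite L₂]

/-- the splitting map -/
noncomputable def spl : SS.Map (MixSS (K₁ ⊕ K₂) (L₁ ⊕ L₂)) ((MixSS K₁ L₁).prod (MixSS K₂ L₂)) :=
  SS.pair
    (MixSS.map (K := K₁ ⊕ K₂) (L := L₁ ⊕ L₂) (K' := K₁) (L' := L₁) (Sum.elim some (fun _ => none))
      (Sum.elim (fun l => some (Sum.inr l)) (fun _ => none)))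
    (MixSS.map (K := K₁ ⊕ K₂) (L := L₁ ⊕ L₂) (K' := K₂) (L' := L₂) (Sum.elim (fun _ => none) some)
      (Sum.elim (fun _ => none) (fun l => some (Sum.inr l))))

/-- the splitting map on the stage `r` -/
noncomputable def splSt (r : ℕ) : SS.Map (stage r (K₁ ⊕ K₂) (L₁ ⊕ L₂))
    ((stage r K₁ L₁).prod (stage r K₂ L₂)) where
  app x := (⟨x.1.p1, x.2.map _ _⟩, ⟨x.1.p2, x.2.map _ _⟩)
  nat α x := Prod.ext (Subtype.ext (Mix.map_pull _ _ (dmap α) x.1))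
    (Subtype.ext (Mix.map_pull _ _ (dmap α) x.1))

/-- the gluing map on the stage `r` -/
noncomputable def glSt (r : ℕ) : SS.Map ((stage r K₁ L₁).prod (stage r K₂ L₂))
    (MixSS (K₁ ⊕ K₂) (L₁ ⊕ L₂)) where
  app {p} x := (Mix.gl x.1.1 x.2.1 x.1.2 x.2.2 : Mix (K₁ ⊕ K₂) (L₁ ⊕ L₂) (Dl p))
  nat α x := (Mix.pull_gl x.1.1 x.2.1 x.1.2 x.2.2 (dmap α)).symm

/-- shrinking the two factors of the stage `r` -/
noncomputable def hP (r : ℕ) : SS.Htp ((stage r K₁ L₁).prod (stage r K₂ L₂))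
    ((MixSS K₁ L₁).prod (MixSS K₂ L₂)) where
  h p χ x := ((Mix.tg r (fun _ => mixIv χ Iv.lh Iv.full) x.1.1 : Mix K₁ L₁ (Dl p)),
    (Mix.tg r (fun _ => mixIv χ Iv.rh Iv.full) x.2.1 : Mix K₂ L₂ (Dl p)))
  nat f χ x := by
    refine Prod.ext ?_ ?_
    · simp only [mixIv_comp]
      exact (Mix.pull_tg (dmap f) r (fun _ => mixIv χ Iv.lh Iv.full) x.1.1).symm
    · simp only [mixIv_comp]
      exact (Mix.pull_tg (dmap f) r (fun _ => mixIv χ Iv.rh Iv.full) x.2.1).symm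

/-- shrinking by the side of the label -/
noncomputable def hS (r : ℕ) : SS.Htp (stage r (K₁ ⊕ K₂) (L₁ ⊕ L₂))
    (MixSS (K₁ ⊕ K₂) (L₁ ⊕ L₂)) where
  h p χ x := (Mix.tg r (fun k => mixIv χ (Iv.half (Mix.side k)) Iv.full) x.1 :
    Mix (K₁ ⊕ K₂) (L₁ ⊕ L₂) (Dl p))
  nat f χ x := by
    simp only [mixIv_comp]
    exact (Mix.pull_tg (dmap f) r (fun k => mixIv χ (Iv.half (Mix.side k)) Iv.full) x.1).symm

theorem htp_spl_gl (r : ℕ) : HtpRel ((spl K₁ K₂ L₁ L₂).comp (glSt K₁ K₂ L₁ L₂ r))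
    ((isUnion₂ K₁ L₁ K₂ L₂).i r) := by
  refine ⟨hP K₁ K₂ L₁ L₂ r, Or.inl ⟨?_, ?_⟩⟩
  · refine SS.Map.ext fun p x => ?_
    refine Prod.ext ?_ ?_
    · show Mix.tg r (fun _ => mixIv (c0 p) Iv.lh Iv.full) x.1.1 = _
      rw [mixIv_c0]
      exact (Mix.p1_gl x.1.1 x.2.1 x.1.2 x.2.2).symm
    · show Mix.tg r (fun _ => mixIv (c0 p) Iv.rh Iv.full) x.2.1 = _
      rw [mixIv_c0]
      exact (Mix.p2_gl x.1.1 x.2.1 x.1.2 x.2.2).symm
  · refine SS.Map.ext fun p x => ?_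
    refine Prod.ext ?_ ?_
    · show Mix.tg r (fun _ => mixIv (c1 p) Iv.lh Iv.full) x.1.1 = _
      rw [mixIv_c1]
      exact Mix.tg_full r _
    · show Mix.tg r (fun _ => mixIv (c1 p) Iv.rh Iv.full) x.2.1 = _
      rw [mixIv_c1]
      exact Mix.tg_full r _

theorem htp_gl_spl (r : ℕ) : HtpRel ((glSt K₁ K₂ L₁ L₂ r).comp (splSt K₁ K₂ L₁ L₂ r))
    ((isUnion (K₁ ⊕ K₂) (L₁ ⊕ L₂)).i r) := by
  refine ⟨hS K₁ K₂ L₁ L₂ r, Or.inl ⟨?_, ?_⟩⟩
  · refine SS.Map.ext fun p x => ?_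
    show Mix.tg r (fun k => mixIv (c0 p) (Iv.half (Mix.side k)) Iv.full) x.1 = _
    simp only [mixIv_c0]
    exact (Mix.gl_p x.1 (x.2.map _ _) (x.2.map _ _)).symm
  · refine SS.Map.ext fun p x => ?_
    show Mix.tg r (fun k => mixIv (c1 p) (Iv.half (Mix.side k)) Iv.full) x.1 = _
    simp only [mixIv_c1]
    exact Mix.tg_full r _

end MixSS

/-- **The splitting theorem.** -/
theorem MixSS.split : SplitStmt := by
  intro R _ K₁ K₂ L₁ L₂ _ _ _ _ n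
  exact (MixSS.isUnion (K₁ ⊕ K₂) (L₁ ⊕ L₂)).rz0 (MixSS.isUnion₂ K₁ L₁ K₂ L₂)
    (MixSS.spl K₁ K₂ L₁ L₂) (fun r => MixSS.splSt K₁ K₂ L₁ L₂ r) (fun r => rfl)
    (fun r => ⟨MixSS.glSt K₁ K₂ L₁ L₂ r, (MixSS.htp_spl_gl K₁ K₂ L₁ L₂ r).ch,
      (MixSS.htp_gl_spl K₁ K₂ L₁ L₂ r).ch⟩) n

/-- the simplicial sets of stable loops and boxes -/
noncomputable def mixG : MixG := mixGOf MixSS.split

/-- associativity and a loop of degree `-1` -/
noncomputable def mixInv : mixG.Inv := mixInvOf MixSS.split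

end Vale.Agent.P263.G2
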