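import Vale.Agent.P263.G2.MixAcy
import Vale.Agent.P263.GB.VanTwo

/-!
# P263, block G2: the fibre `T` is acyclic mod 2

`vStmt_two`, **`mixT_rh_two`** : no hypothesis left.
-/

open Vale.Agent.P263.S Vale.Agent.P263.E Vale.Agent.P263.GB

namespace Vale.Agent.P263.G2

/-- (V) mod 2 -/
theorem vStmt_two : VStmt (ZMod 2) := fun N n hN h1 h2 m =>
  ⟨m, le_rfl, hz_loops_two N m (by omega) n (by omega) h2 h1.ne'⟩

/-- **the fibre `T` is acyclic mod 2** -/
theorem mixT_rh_two (K : Type) [Finite K] (t : ℕ) : mixG.T.RH (ZMod 2) K t :=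
  mixT_rh (ZMod 2) vStmt_two K t

end Vale.Agent.P263.G2
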