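import Vale.Agent.P263.GB.Plus
import Vale.Agent.P263.G2.CollDeg

/-!
# P263, G2: the degree of the loop sum in the first coordinate

* `pre a b f` : the loop `f` squeezed into the slab `(a, b)` of the coordinate `0`; `joined_pre`;
* `degOm_plus` : `degOm (plus c g f) = degOm g + degOm f`.
-/

open OnePoint Topology Vale.Agent.P251.G Vale.Agent.P263.TOP

namespace Vale.Agent.P263.G2

open GB (plus act rho Cut ws)
open T0 (Om Sph)

variable {r : ℕ}

/-- the loop `f` squeezed into the slab `(a, b)` of the coordinate `0` -/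
noncomputable def pre {a b : ℝ} (ha : 0 ≤ a) (hab : a < b) (hb : b ≤ 1) (f : Om (r + 1)) :
    Om (r + 1) :=
  ⟨⟨fun x => f.1 (act (rho a b) x), by
    exact (GB.continuous_preFun (T := Unit) (ρ := fun _ => rho a b) (F := fun _ => f)
      (GB.continuous_rho continuous_const continuous_const (fun _ => ha) (fun _ => hab)
        (fun _ => hb)) (fun _ => rfl) continuous_const).comp
      (continuous_const.prodMk continuous_id : Continuous fun x => ((), x))⟩, f.2⟩

theorem pre_apply {a b : ℝ} (ha : 0 ≤ a) (hab : a < b) (hb : b ≤ 1) (f : Om (r + 1))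
    (x : Sph (r + 1)) : (pre ha hab hb f).1 x = f.1 (act (rho a b) x) := rfl

theorem joined_pre {a b : ℝ} (ha : 0 ≤ a) (hab : a < b) (hb : b ≤ 1) (f : Om (r + 1)) :
    Joined (pre ha hab hb f) f := by
  have h0 : ∀ t : unitInterval, 0 ≤ (1 - (t : ℝ)) * a := fun t =>
    mul_nonneg (by linarith [t.2.2]) ha
  have h1 : ∀ t : unitInterval, (1 - (t : ℝ)) * a < (1 - (t : ℝ)) * b + t := by
    intro t
    have ht0 := t.2.1
    have ht1 := t.2.2
    rcases eq_or_lt_of_le ht0 with h | h
    · rw [← h]; simpa using hab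
    · nlinarith
  have h2 : ∀ t : unitInterval, (1 - (t : ℝ)) * b + t ≤ 1 := by
    intro t
    have ht0 := t.2.1
    have ht1 := t.2.2
    nlinarith
  refine ⟨⟨⟨fun t => pre (h0 t) (h1 t) (h2 t) f, ?_⟩, ?_, ?_⟩⟩
  · rw [GB.continuous_om_iff]
    exact GB.continuous_preFun (T := unitInterval)
      (ρ := fun t => rho ((1 - (t : ℝ)) * a) ((1 - (t : ℝ)) * b + t)) (F := fun _ => f)
      (GB.continuous_rho (by fun_prop) (by fun_prop) h0 h1 h2) (fun _ => rfl) continuous_const
  · refine GB.om_ext fun x => ?_
    show f.1 (act (rho ((1 - ((0 : unitInterval) : ℝ)) * a)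
      ((1 - ((0 : unitInterval) : ℝ)) * b + ((0 : unitInterval) : ℝ))) x) = f.1 (act (rho a b) x)
    congr 3 <;> simp
  · refine GB.om_ext fun x => ?_
    show f.1 (act (rho ((1 - ((1 : unitInterval) : ℝ)) * a)
      ((1 - ((1 : unitInterval) : ℝ)) * b + ((1 : unitInterval) : ℝ))) x) = f.1 x
    have h3 : rho ((1 - ((1 : unitInterval) : ℝ)) * a)
      ((1 - ((1 : unitInterval) : ℝ)) * b + ((1 : unitInterval) : ℝ)) = rho 0 1 := by
      congr 1 <;> simp
    rw [h3, GB.act_congr GB.rho_zero_one]
    exact congrArg f.1 (GB.act_id x)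

theorem degOm_pre {a b : ℝ} (ha : 0 ≤ a) (hab : a < b) (hb : b ≤ 1) (f : Om (r + 1)) :
    degOm (pre ha hab hb f) = degOm f := degOm_joined (joined_pre ha hab hb f)

theorem degOm_cast {s : ℕ} (f : Om s) :
    ((degOm f : ℤ) : ℝ) = degV (E := Fin s → ℝ) (fun x => f.1 x) :=
  degB_cast (E := Fin s → ℝ) f

/-- **The degree of the loop sum.** -/
theorem degOm_plus (c : Cut) (g f : Om (r + 1)) :
    degOm (plus c g f) = degOm g + degOm f := by
  have hg := degOm_pre (r := r) c.2.1.le c.2.2 le_rfl g
  have hf := degOm_pre (r := r) le_rfl c.2.1 c.2.2.le f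
  rw [← hg, ← hf]
  have key : ((degOm (plus c g f) : ℤ) : ℝ) =
      ((degOm (pre (r := r) c.2.1.le c.2.2 le_rfl g) : ℤ) : ℝ) +
      ((degOm (pre (r := r) le_rfl c.2.1 c.2.2.le f) : ℤ) : ℝ) := by
    rw [degOm_cast, degOm_cast, degOm_cast]
    have h := degV_sum (E := Fin (r + 1) → ℝ) (Finset.univ : Finset Bool)
      (f := fun x => (plus c g f).1 x)
      (g := fun b x => if b then (pre (r := r) c.2.1.le c.2.2 le_rfl g).1 x else
        (pre (r := r) le_rfl c.2.1 c.2.2.le f).1 x)
      (plus c g f).1.continuous (plus c g f).2 (fun b _ => by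
        cases b
        · exact (pre (r := r) le_rfl c.2.1 c.2.2.le f).1.continuous
        · exact (pre (r := r) c.2.1.le c.2.2 le_rfl g).1.continuous) (fun b _ => by
        cases b
        · exact (pre (r := r) le_rfl c.2.1 c.2.2.le f).2
        · exact (pre (r := r) c.2.1.le c.2.2 le_rfl g).2)
      (U := fun b => {x : Fin (r + 1) → ℝ | (if b then act (rho c.1 1) (x : Sph (r + 1)) else
        act (rho 0 c.1) (x : Sph (r + 1))) ≠ ∞}) (by
        intro b _ b' _ hbb
        refine Set.disjoint_left.2 fun x hx hx' => ?_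
        have h1 := (GB.dj_cut c).act (x : Sph (r + 1))
        cases b <;> cases b'
        · exact hbb rfl
        · rcases h1 with h1 | h1
          · exact hx h1
          · exact hx' h1
        · rcases h1 with h1 | h1
          · exact hx' h1
          · exact hx h1
        · exact hbb rfl) (by
        intro b _ x hx
        have h1 := (GB.dj_cut c).act (x : Sph (r + 1))
        cases b
        · rcases h1 with h1 | h1
          · exact absurd h1 hx
          · show ws (f.1 (act (rho 0 c.1) x)) (g.1 (act (rho c.1 1) x)) =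
              f.1 (act (rho 0 c.1) x)
            rw [h1, show g.1 ∞ = ∞ from g.2, GB.ws_infty_right]
        · rcases h1 with h1 | h1
          · show ws (f.1 (act (rho 0 c.1) x)) (g.1 (act (rho c.1 1) x)) =
              g.1 (act (rho c.1 1) x)
            rw [h1, show f.1 ∞ = ∞ from f.2, GB.ws_infty_left]
          · exact absurd h1 hx) (by
        intro b _ x hx
        cases b
        · have h1 : act (rho 0 c.1) (x : Sph (r + 1)) = ∞ := not_not.1 hx
          show f.1 (act (rho 0 c.1) x) = ∞
          rw [h1]; exact f.2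
        · have h1 : act (rho c.1 1) (x : Sph (r + 1)) = ∞ := not_not.1 hx
          show g.1 (act (rho c.1 1) x) = ∞
          rw [h1]; exact g.2) (by
        intro x hx
        have h1 : act (rho 0 c.1) (x : Sph (r + 1)) = ∞ := not_not.1 (hx false (Finset.mem_univ _))
        have h2 : act (rho c.1 1) (x : Sph (r + 1)) = ∞ := not_not.1 (hx true (Finset.mem_univ _))
        show ws (f.1 (act (rho 0 c.1) x)) (g.1 (act (rho c.1 1) x)) = ∞
        rw [h1, h2, show f.1 ∞ = ∞ from f.2, GB.ws_infty_left]
        exact g.2)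
    rw [h, Fintype.sum_bool]
    rfl
  exact_mod_cast key

end Vale.Agent.P263.G2
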