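import Vale.Agent.P263.G2.QInf
import Vale.Agent.P263.GB.CompDeg
import Vale.Agent.P263.GB.ToConn

/-!
# P263, block G2: `QInf Unit` is the singular simplicial set of `QS⁰`

* `pv : QS0 → (ℕ → ℝ) → Option (ℕ → ℝ)` : the partial map of `ℝ^ℕ` given by a point of `QS⁰`;
* `singToQI : SS.Map (sing QS0) (QInf Unit)`, bijective in every degree (`singToQI_bijective`);
* `degLC : LC (sing QS0)`, `sing0 : SS.Map (sing Q0S0) (degLC.fib 0).sub`, bijective.
-/

open Topology CategoryTheory Limits
open scoped OnePoint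
open Vale.Agent.P263.S Vale.Agent.P263.E

namespace Vale.Agent.P263.G2

open T0 (Om QS0 Q0S0 toQ omSeq)

/-! ### The partial map given by a point of `QS⁰` -/

theorem ex_stab {r : ℕ} (y : Om r) (x : ℕ → ℝ) :
    ex (r + 1) x (T0.stab r y (rs (r + 1) x : OnePoint (Fin (r + 1) → ℝ))) =
      ex r x (y (rs r x : OnePoint (Fin r → ℝ))) := by
  show ex (r + 1) x ((y ((Fin.init (rs (r + 1) x) : Fin r → ℝ) : OnePoint (Fin r → ℝ))).elim ∞
    (fun w => ((Fin.snoc w (rs (r + 1) x (Fin.last r)) : Fin (r + 1) → ℝ) :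
      OnePoint (Fin (r + 1) → ℝ)))) = _
  have e : (Fin.init (rs (r + 1) x) : Fin r → ℝ) = rs r x := rfl
  rw [e]
  generalize y (rs r x : OnePoint (Fin r → ℝ)) = z
  induction z using OnePoint.rec with
  | infty => rfl
  | coe w =>
    show ex (r + 1) x (((Fin.snoc w (rs (r + 1) x (Fin.last r)) : Fin (r + 1) → ℝ) :
      OnePoint (Fin (r + 1) → ℝ))) = _
    rw [ex_coe, ex_coe]
    congr 1
    funext i
    rcases lt_trichotomy i r with h | h | h
    · rw [rep_of_lt h, rep_of_lt (h.trans (Nat.lt_succ_self r))]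
      have : (⟨i, h.trans (Nat.lt_succ_self r)⟩ : Fin (r + 1)) = Fin.castSucc ⟨i, h⟩ := rfl
      rw [this, Fin.snoc_castSucc]
    · subst h
      rw [rep_of_le le_rfl, rep_of_lt (Nat.lt_succ_self i)]
      have : (⟨i, Nat.lt_succ_self i⟩ : Fin (i + 1)) = Fin.last i := rfl
      rw [this, Fin.snoc_last]
      rfl
    · rw [rep_of_le h.le, rep_of_le h]

/-- the maps between the stages -/
noncomputable def omMap {r s : ℕ} (h : r ≤ s) (y : Om r) : Om s := (omSeq.map (homOfLE h)).hom y

theorem toQ_omMap {r s : ℕ} (h : r ≤ s) (y : Om r) : toQ s (omMap h y) = toQ r y :=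
  T0.toQ_map h y

theorem ex_map {r s : ℕ} (h : r ≤ s) (y : Om r) (x : ℕ → ℝ) :
    ex s x (omMap h y (rs s x : OnePoint (Fin s → ℝ))) =
      ex r x (y (rs r x : OnePoint (Fin r → ℝ))) := by
  induction s, h using Nat.le_induction with
  | base =>
    have : omMap (le_refl r) y = y := by
      have e : (homOfLE (le_refl r)) = 𝟙 r := rfl
      unfold omMap
      rw [e, omSeq.map_id]
      rfl
    rw [this]
  | succ s h ih =>
    have : omMap (Nat.le_succ_of_le h) y = T0.stab s (omMap h y) := by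
      have e : (homOfLE (Nat.le_succ_of_le h)) = homOfLE h ≫ homOfLE (Nat.le_succ s) := rfl
      unfold omMap
      rw [e, omSeq.map_comp, T0.omSeq_map_succ]
      rfl
    rw [this, ← ih]
    exact ex_stab _ x

/-- the partial map of `ℝ^ℕ` given by a point of `QS⁰` -/
noncomputable def pv (q : QS0) (x : ℕ → ℝ) : Option (ℕ → ℝ) :=
  ex (T0.toQ_surj q).choose x ((T0.toQ_surj q).choose_spec.choose
    (rs (T0.toQ_surj q).choose x : OnePoint (Fin (T0.toQ_surj q).choose → ℝ)))

theorem ex_eq_of_toQ_eq {r s : ℕ} (y : Om r) (z : Om s) (h : toQ r y = toQ s z) (x : ℕ → ℝ) :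
    ex r x (y (rs r x : OnePoint (Fin r → ℝ))) = ex s x (z (rs s x : OnePoint (Fin s → ℝ))) := by
  rw [← ex_map (le_max_left r s) y, ← ex_map (le_max_right r s) z]
  have : omMap (le_max_left r s) y = omMap (le_max_right r s) z := by
    apply T0.toQ_injective (max r s)
    rw [toQ_omMap, toQ_omMap, h]
  rw [this]

theorem pv_toQ (r : ℕ) (y : Om r) (x : ℕ → ℝ) :
    pv (toQ r y) x = ex r x (y (rs r x : OnePoint (Fin r → ℝ))) :=
  ex_eq_of_toQ_eq _ _ (T0.toQ_surj (toQ r y)).choose_spec.choose_spec x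

theorem om_ext {r : ℕ} {y z : Om r}
    (h : ∀ x : ℕ → ℝ, ex r x (y (rs r x : OnePoint (Fin r → ℝ))) =
      ex r x (z (rs r x : OnePoint (Fin r → ℝ)))) : y = z := by
  apply Subtype.ext
  refine ContinuousMap.ext fun v => ?_
  induction v using OnePoint.rec with
  | infty => exact y.2.trans z.2.symm
  | coe v =>
    have h1 := ex_injective r _ (h (rep r 0 v))
    rwa [rs_rep] at h1

theorem pv_injective {q q' : QS0} (h : ∀ x, pv q x = pv q' x) : q = q' := by
  obtain ⟨r, y, rfl⟩ := T0.toQ_surj q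
  obtain ⟨s, z, rfl⟩ := T0.toQ_surj q'
  have e : omMap (le_max_left r s) y = omMap (le_max_right r s) z := by
    refine om_ext fun x => ?_
    rw [ex_map, ex_map, ← pv_toQ, ← pv_toQ, h]
  rw [← toQ_omMap (le_max_left r s) y, e, toQ_omMap]

/-! ### The comparison -/

section T

variable {T : Type} [TopologicalSpace T]

/-- the family of maps given by a family of points of `QS⁰` -/
noncomputable def pvF (σ : T → QS0) : Fn Unit T := fun t x => (pv (σ t) x).map fun y => ((), y)

omit [TopologicalSpace T] in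
theorem pvF_eq_some {σ : T → QS0} {t : T} {x : ℕ → ℝ} {k : Unit} {y : ℕ → ℝ} :
    pvF σ t x = some (k, y) ↔ pv (σ t) x = some y := by
  rw [pvF, Option.map_eq_some_iff]
  constructor
  · rintro ⟨y', h1, h2⟩
    have h3 : y' = y := (Prod.ext_iff.1 h2).2
    rw [h1, h3]
  · intro h
    exact ⟨y, h, rfl⟩

omit [TopologicalSpace T] in
theorem cmp_pvF (σ : T → QS0) : Fn.cmp () (pvF σ) = fun t x => pv (σ t) x := by
  funext t x
  apply Option.ext
  intro y
  rw [Fn.cmp_eq_some, pvF_eq_some]

/-- the stage of the family -/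
theorem isSt_pvF {r : ℕ} (f : C(T, Om r)) {σ : T → QS0} (h : ∀ t, toQ r (f t) = σ t) :
    Fn.IsSt r (pvF σ) := by
  rintro ⟨⟩
  rw [cmp_pvF]
  refine ⟨⟨fun p => f p.1 p.2, ?_⟩, fun t => (f t).2, fun t x => ?_⟩
  · exact ContinuousEval.continuous_eval.comp
      ((continuous_subtype_val.comp (f.continuous.comp continuous_fst)).prodMk continuous_snd)
  · show pv (σ t) x = ex r x (f t (rs r x : OnePoint (Fin r → ℝ)))
    rw [← h, pv_toQ]

/-- a witness as a family of loops -/
def omOf {r : ℕ} (φ : C(T × OnePoint (Fin r → ℝ), OnePoint (Fin r → ℝ)))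
    (h : ∀ t, φ (t, ∞) = ∞) : C(T, Om r) where
  toFun t := ⟨φ.curry t, h t⟩
  continuous_toFun := Continuous.subtype_mk φ.curry.continuous _

theorem omOf_apply {r : ℕ} (φ : C(T × OnePoint (Fin r → ℝ), OnePoint (Fin r → ℝ)))
    (h : ∀ t, φ (t, ∞) = ∞) (t : T) (z : OnePoint (Fin r → ℝ)) : omOf φ h t z = φ (t, z) := rfl

/-- every family of some stage is given by a family of loops -/
theorem exists_omOf {r : ℕ} {g : Fn Unit T} (hg : Fn.IsSt r g) :
    ∃ f : C(T, Om r), pvF (fun t => toQ r (f t)) = g := by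
  obtain ⟨φ, h1, h2⟩ := hg ()
  refine ⟨omOf φ h1, Fn.ext' fun t x k y => ?_⟩
  rw [pvF_eq_some, pv_toQ, omOf_apply, ← h2]
  exact Fn.cmp_eq_some

end T

/-- the map `sing QS⁰ → QInf Unit` -/
noncomputable def singToQI : SS.Map (sing QS0) (QInf Unit) where
  app σ := ⟨pvF (toC σ), by
    obtain ⟨r, f, hf⟩ := T0.exists_factor (toC σ)
    exact ⟨r, isSt_pvF f hf⟩⟩
  nat _ _ := rfl

theorem singToQI_coe {p : ℕ} (σ : (sing QS0).obj p) : (singToQI.app σ).1 = pvF (toC σ) := rfl

theorem singToQI_injective (p : ℕ) : Function.Injective (singToQI.app (p := p)) := by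
  intro σ τ h
  have h' : pvF (toC σ) = pvF (toC τ) := congrArg Subtype.val h
  have : toC σ = toC τ := ContinuousMap.ext fun t => pv_injective fun x => by
    apply Option.ext
    intro y
    rw [← pvF_eq_some (σ := toC σ) (k := ()), ← pvF_eq_some (σ := toC τ) (k := ()), h']
  exact this

theorem singToQI_surjective (p : ℕ) : Function.Surjective (singToQI.app (p := p)) := by
  rintro ⟨g, r, hg⟩
  obtain ⟨f, hf⟩ := exists_omOf hg
  exact ⟨ofC ((toQ r).hom.comp f), Subtype.ext hf⟩

/-- **`sing QS⁰ = QInf Unit`.** -/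
theorem singToQI_bijective (p : ℕ) : Function.Bijective (singToQI.app (p := p)) :=
  ⟨singToQI_injective p, singToQI_surjective p⟩

/-- the value at a simplex given by a family of loops -/
theorem singToQI_toQ {p r : ℕ} (f : C(Dl p, Om r)) :
    (singToQI.app (ofC ((toQ r).hom.comp f))).1 = pvF fun t => toQ r (f t) := rfl

/-! ### The degree -/

/-- the degree is constant on simplices -/
theorem deg_const {p : ℕ} (σ : C(Dl p, QS0)) (t u : Dl p) : GB.deg (σ t) = GB.deg (σ u) := by
  have : PreconnectedSpace (Dl p) := by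
    have h : _root_.IsPreconnected (stdSimplex ℝ (Fin (p + 1))) :=
      (convex_stdSimplex ℝ (Fin (p + 1))).isPreconnected
    exact isPreconnected_iff_preconnectedSpace.1 h
  exact PreconnectedSpace.constant ‹_› (GB.continuous_deg.comp σ.continuous)

/-- the degree on `sing QS⁰` -/
noncomputable def degLC : GB.LC (sing QS0) where
  deg σ := GB.deg (toC σ (stdSimplex.vertex 0))
  deg_map f σ := by
    rw [toC_map]
    exact deg_const (toC σ) _ _

theorem degLC_deg {p : ℕ} (σ : (sing QS0).obj p) (t : Dl p) : degLC.deg σ = GB.deg (toC σ t) :=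
  deg_const (toC σ) _ _

/-- simplices of `Q₀S⁰` are the simplices of `QS⁰` of degree `0` -/
noncomputable def sing0 : SS.Map (sing Q0S0) (degLC.fib 0).sub where
  app σ := (degLC.fib 0).elt (ofC ((GB.Q0incl).hom.comp (toC σ)))
    (GB.deg_Q0S0 (toC σ (stdSimplex.vertex 0)))
  nat _ _ := rfl

theorem sing0_bijective (p : ℕ) : Function.Bijective (sing0.app (p := p)) := by
  constructor
  · intro σ τ h
    have h' := congrArg Subtype.val h
    have : toC σ = toC τ := ContinuousMap.ext fun t => Subtype.ext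
      (DFunLike.congr_fun (F := C(Dl p, QS0)) h' t)
    exact this
  · rintro ⟨σ, hσ⟩
    refine ⟨ofC ⟨fun t => ⟨toC σ t, ?_⟩, ?_⟩, ?_⟩
    · rw [GB.pathComponent_base]
      exact (degLC_deg σ t).symm.trans hσ
    · exact Continuous.subtype_mk (toC σ).continuous _
    · rfl

end Vale.Agent.P263.G2
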