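import Vale.Agent.P263.GB.Plus
import Vale.Agent.P263.G2.QInfSing
import Vale.Agent.P263.G2.AlQ
import Vale.Agent.P263.G2.AlphaSS

/-!
# P263, block G2: the loop sum and the collapse in terms of `Fn`

* `pvF_plus` : `plus half g f` (in `Om (r + 1)`) corresponds to `Fn.mul f g`;
* `pvF_alphaQ` : the collapse `alphaQ S` corresponds to `al S`;
* `pvF_inj` : `pvF` is injective.
-/

open Topology CategoryTheory
open scoped OnePoint
open Vale.Agent.P263.S Vale.Agent.P263.E

namespace Vale.Agent.P263.G2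

open T0 (Om QS0 toQ)
open GB (plus act rho ws half)

theorem ex_ws {r : ℕ} {x w : ℕ → ℝ} {y z : OnePoint (Fin r → ℝ)} (h : y = ∞ ∨ z = ∞) :
    ex r x (ws y z) = some w ↔ ex r x y = some w ∨ ex r x z = some w := by
  rcases h with rfl | rfl
  · rw [GB.ws_infty_left, ex_infty]
    simp
  · rw [GB.ws_infty_right, ex_infty]
    simp

/-- a based map after the collapse onto a box -/
theorem ex_coll {r : ℕ} {b : Bx} (hb : Bx.St r b) (f : Om r) {x w : ℕ → ℝ} :
    ex r x (f (coll (fun i : Fin r => (b i).lo) (fun i : Fin r => (b i).hi)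
      (rs r x : OnePoint (Fin r → ℝ)))) = some w ↔
      ∃ x', bxm b x = some x' ∧ ex r x' (f (rs r x' : OnePoint (Fin r → ℝ))) = some w := by
  rw [bxm_eq_ex hb]
  generalize coll (fun i : Fin r => (b i).lo) (fun i : Fin r => (b i).hi)
      (rs r x : OnePoint (Fin r → ℝ)) = z
  induction z using OnePoint.rec with
  | infty =>
    have h1 : f (∞ : OnePoint (Fin r → ℝ)) = ∞ := f.2
    rw [h1, ex_infty]
    simp
  | coe y =>
    rw [ex_coe]
    constructor
    · intro h
      refine ⟨_, rfl, ?_⟩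
      rw [rs_rep]
      obtain ⟨z, h1, h2⟩ := ex_eq_some.1 h
      exact ex_eq_some.2 ⟨z, h1, by rw [rep_rep, h2]⟩
    · rintro ⟨x', h1, h⟩
      obtain rfl := Option.some.inj h1
      rw [rs_rep] at h
      obtain ⟨z, h1, h2⟩ := ex_eq_some.1 h
      exact ex_eq_some.2 ⟨z, h1, by rw [← h2, rep_rep]⟩

theorem act_lh {r : ℕ} (x : OnePoint (Fin (r + 1) → ℝ)) : act (rho 0 half.1) x =
    coll (fun i : Fin (r + 1) => (bxc 0 Iv.lh i).lo) (fun i : Fin (r + 1) => (bxc 0 Iv.lh i).hi)
      x := by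
  rw [GB.act_rho]
  congr 1
  · funext i
    by_cases h : i = 0
    · subst h
      rw [Function.update_self]
      exact (congrArg Iv.lo (bxc_self 0 Iv.lh)).symm
    · rw [Function.update_of_ne h]
      have : (i : ℕ) ≠ 0 := fun h' => h (Fin.ext h')
      rw [bxc_ne this]
      rfl
  · funext i
    by_cases h : i = 0
    · subst h
      rw [Function.update_self]
      exact (congrArg Iv.hi (bxc_self 0 Iv.lh)).symm
    · rw [Function.update_of_ne h]
      have : (i : ℕ) ≠ 0 := fun h' => h (Fin.ext h')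
      rw [bxc_ne this]
      rfl

theorem act_rh {r : ℕ} (x : OnePoint (Fin (r + 1) → ℝ)) : act (rho half.1 1) x =
    coll (fun i : Fin (r + 1) => (bxc 0 Iv.rh i).lo) (fun i : Fin (r + 1) => (bxc 0 Iv.rh i).hi)
      x := by
  rw [GB.act_rho]
  congr 1
  · funext i
    by_cases h : i = 0
    · subst h
      rw [Function.update_self]
      exact (congrArg Iv.lo (bxc_self 0 Iv.rh)).symm
    · rw [Function.update_of_ne h]
      have : (i : ℕ) ≠ 0 := fun h' => h (Fin.ext h')
      rw [bxc_ne this]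
      rfl
  · funext i
    by_cases h : i = 0
    · subst h
      rw [Function.update_self]
      exact (congrArg Iv.hi (bxc_self 0 Iv.rh)).symm
    · rw [Function.update_of_ne h]
      have : (i : ℕ) ≠ 0 := fun h' => h (Fin.ext h')
      rw [bxc_ne this]
      rfl

theorem pv_plus {r : ℕ} (g f : Om (r + 1)) {x w : ℕ → ℝ} :
    pv (toQ (r + 1) (plus half g f)) x = some w ↔
      (∃ x', bxm (bxc 0 Iv.lh) x = some x' ∧ pv (toQ (r + 1) f) x' = some w) ∨
        ∃ x', bxm (bxc 0 Iv.rh) x = some x' ∧ pv (toQ (r + 1) g) x' = some w := by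
  have e : ∀ (y : Om (r + 1)) (x : ℕ → ℝ), pv (toQ (r + 1) y) x =
      ex (r + 1) x (y (rs (r + 1) x : OnePoint (Fin (r + 1) → ℝ))) := pv_toQ (r + 1)
  rw [e]
  simp only [e]
  have h : (plus half g f) (rs (r + 1) x : OnePoint (Fin (r + 1) → ℝ)) =
      ws (f (act (rho 0 half.1) (rs (r + 1) x : OnePoint (Fin (r + 1) → ℝ))))
        (g (act (rho half.1 1) (rs (r + 1) x : OnePoint (Fin (r + 1) → ℝ)))) := rfl
  have hd : f (act (rho 0 half.1) (rs (r + 1) x : OnePoint (Fin (r + 1) → ℝ))) = ∞ ∨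
      g (act (rho half.1 1) (rs (r + 1) x : OnePoint (Fin (r + 1) → ℝ))) = ∞ := by
    rcases (GB.dj_cut half).act (rs (r + 1) x : OnePoint (Fin (r + 1) → ℝ)) with h1 | h1
    · left; rw [h1]; exact f.2
    · right; rw [h1]; exact g.2
  rw [h, ex_ws hd, act_lh, act_rh, ex_coll (st_bxc (Nat.succ_pos r) _),
    ex_coll (st_bxc (Nat.succ_pos r) _)]

section T

variable {T : Type} [TopologicalSpace T]

omit [TopologicalSpace T] in
/-- **The loop sum is the product of `Fn`.** -/
theorem pvF_plus {r : ℕ} (g f : T → Om (r + 1)) :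
    pvF (fun t => toQ (r + 1) (plus half (g t) (f t))) =
      Fn.mul (pvF fun t => toQ (r + 1) (f t)) (pvF fun t => toQ (r + 1) (g t)) := by
  refine Fn.ext' fun t x k w => ?_
  rw [pvF_eq_some, pv_plus, Fn.mul_eq_some]
  simp only [pvF_eq_some]

omit [TopologicalSpace T] in
theorem pvF_inj {σ τ : T → QS0} (h : pvF σ = pvF τ) : σ = τ := by
  funext t
  refine pv_injective fun x => option_ext fun y => ?_
  rw [← pvF_eq_some (σ := σ) (k := ()), ← pvF_eq_some (σ := τ) (k := ()), h]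

/-- **The collapse is `al`.** -/
theorem pvF_alphaOm {r : ℕ} (S : Conf Unit T) (hS : S.IsSt r) :
    pvF (fun t => toQ r (alphaOm r S hS t)) = al S := by
  refine Fn.ext' fun t x k w => ?_
  rw [pvF_eq_some, pv_toQ, al_eq_some_iff, ex_eq_some]
  constructor
  · rintro ⟨y, h1, h2⟩
    by_cases hx : ∀ p ∈ S.pts, collB r (p.1 t) (rs r x : OnePoint (Fin r → ℝ)) = ∞
    · rw [alphaOm_of_forall hS hx] at h1
      exact absurd h1 (OnePoint.infty_ne_coe _)
    · push Not at hx
      obtain ⟨⟨c, k'⟩, hp, hx⟩ := hx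
      refine ⟨c, hp, ?_⟩
      have h3 := alphaOm_of_mem hS hp hx
      rw [bxm_eq_ex (hS _ hp t), ex_eq_some]
      exact ⟨y, h3.symm.trans h1, h2⟩
  · rintro ⟨c, hc, h⟩
    rw [bxm_eq_ex (hS _ hc t), ex_eq_some] at h
    obtain ⟨y, h1, h2⟩ := h
    refine ⟨y, ?_, h2⟩
    have hx : collB r (c t) (rs r x : OnePoint (Fin r → ℝ)) ≠ ∞ := by
      have : collB r (c t) (rs r x : OnePoint (Fin r → ℝ)) = (y : OnePoint (Fin r → ℝ)) := h1
      rw [this]
      exact OnePoint.coe_ne_infty _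
    exact (alphaOm_of_mem hS hc hx).trans h1

theorem pvF_alphaQ (S : Conf Unit T) : pvF (fun t => alphaQ S t) = al S := by
  obtain ⟨r, hS⟩ := S.exists_isSt
  rw [← pvF_alphaOm S hS]
  congr 1
  funext t
  exact alphaQ_eq S hS t

end T

end Vale.Agent.P263.G2
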