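import Vale.Agent.P263.G2.QInf

/-!
# P263, block G2: the product of two families of stable loops

`lh = (0, 1/2)`, `rh = (1/2, 1)`; `Fn.mul x y` : `x` in the first half, `y` in the second half of
the coordinate `0`.
-/

open Topology Vale.Agent.P251.G Vale.Agent.P263.TOP
open scoped OnePoint

namespace Vale.Agent.P263.G2

/-- the interval `(0, 1/2)` -/
noncomputable def Iv.lh : Iv := ⟨(0, 1 / 2), by norm_num, by norm_num, by norm_num⟩

/-- the interval `(1/2, 1)` -/
noncomputable def Iv.rh : Iv := ⟨(1 / 2, 1), by norm_num, by norm_num, by norm_num⟩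

@[simp] theorem Iv.lh_lo : Iv.lh.lo = 0 := rfl

@[simp] theorem Iv.lh_hi : Iv.lh.hi = 1 / 2 := rfl

@[simp] theorem Iv.rh_lo : Iv.rh.lo = 1 / 2 := rfl

@[simp] theorem Iv.rh_hi : Iv.rh.hi = 1 := rfl

/-- the two halves -/
noncomputable def Iv.half (b : Bool) : Iv := if b then Iv.rh else Iv.lh

@[simp] theorem Iv.half_false : Iv.half false = Iv.lh := rfl

@[simp] theorem Iv.half_true : Iv.half true = Iv.rh := rfl

theorem Iv.half_dj {b c : Bool} (h : b ≠ c) : (Iv.half b).Dj (Iv.half c) := by
  cases b <;> cases c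
  · exact absurd rfl h
  · exact Or.inl le_rfl
  · exact Or.inr le_rfl
  · exact absurd rfl h

namespace Fn

variable {K L : Type} {T T' : Type}

/-- `x` if `b = false`, `y` if `b = true` -/
def two {α : Type*} (x y : α) (b : Bool) : α := if b then y else x

@[simp] theorem two_false {α : Type*} (x y : α) : two x y false = x := rfl

@[simp] theorem two_true {α : Type*} (x y : α) : two x y true = y := rfl

/-- `x` in the first half, `y` in the second half of the coordinate `0` -/
noncomputable def mul (x y : Fn K T) : Fn K T := juxt (fun b _ => Iv.half b) (two x y)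

theorem disJ_half : DisJ (T := T) fun b _ => Iv.half b := fun _ _ h _ => Iv.half_dj h

theorem mul_eq_some {x y : Fn K T} {t : T} {v : ℕ → ℝ} {w : K × (ℕ → ℝ)} :
    mul x y t v = some w ↔ (∃ v', bxm (bxc 0 Iv.lh) v = some v' ∧ x t v' = some w) ∨
      ∃ v', bxm (bxc 0 Iv.rh) v = some v' ∧ y t v' = some w := by
  rw [mul, juxt, uni_eq_some (disJ_half.dis 0 _)]
  simp only [src, pre_eq_some, Bool.exists_bool, two_false, two_true, Iv.half_false,
    Iv.half_true]

theorem push_mul (f : K → Option L) (x y : Fn K T) :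
    push f (mul x y) = mul (push f x) (push f y) :=
  ext' fun t v l w => by
    simp only [push_eq_some, mul_eq_some]
    constructor
    · rintro ⟨k, ⟨v', h1, h2⟩ | ⟨v', h1, h2⟩, h3⟩
      · exact Or.inl ⟨v', h1, k, h2, h3⟩
      · exact Or.inr ⟨v', h1, k, h2, h3⟩
    · rintro (⟨v', h1, k, h2, h3⟩ | ⟨v', h1, k, h2, h3⟩)
      · exact ⟨k, Or.inl ⟨v', h1, h2⟩, h3⟩
      · exact ⟨k, Or.inr ⟨v', h1, h2⟩, h3⟩

variable [TopologicalSpace T] [TopologicalSpace T']

theorem mul_pull (x y : Fn K T) (φ : C(T', T)) : (mul x y).pull φ = mul (x.pull φ) (y.pull φ) := by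
  refine ext' fun t v k w => ?_
  rw [mul_eq_some]
  exact mul_eq_some (x := x) (y := y) (t := φ t)

theorem IsSt.mul {r : ℕ} (hr : 0 < r) {x y : Fn K T} (hx : IsSt r x) (hy : IsSt r y) :
    IsSt r (mul x y) :=
  IsSt.juxt hr (fun b => ContinuousMap.const T (Iv.half b)) disJ_half fun b => by
    cases b
    · exact hx
    · exact hy

end Fn

end Vale.Agent.P263.G2
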