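import Vale.Agent.P263.G2.AlphaGam

/-!
# P263, block G2: the functor `Q` at one label is the singular simplicial set of `QS⁰`

* `omD r : QS (Dsc Unit) r ≃ₜ Ωʳ Sʳ`, `omD_stB`;
* `fqQS : SS.Map (FQ (Dsc Unit)) (sing QS0)`, `fqQS_inc`, **`fqQS_bijective`**;
* `fqQS_alphaFQ : fqQS ∘ alphaFQ Unit = alphaQSS`.
-/

open OnePoint Topology Vale.Agent.P251.G Vale.Agent.P263.TOP CategoryTheory
open Vale.Agent.P263.S Vale.Agent.P263.E Vale.Agent.P263.GB

namespace Vale.Agent.P263.G2

/-- based maps with one label -/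
def omD (r : ℕ) : QS (Dsc Unit) r ≃ₜ T0.Om r := omH r

theorem omD_apply (r : ℕ) (f : QS (Dsc Unit) r) (x : T0.Sph r) :
    omD r f x = (f.1 x).map Prod.snd := omH_apply r f x

theorem toSmash_eq_sm (r : ℕ) (x : T0.Sph r) (u : OnePoint ℝ) : T0.toSmash r (x, u) = sm r x u := by
  change (T0.snocHomeo r).onePointCongr (LC.smash x u) = opH (snocH r) (LC.smash x u)
  generalize LC.smash x u = w
  induction w using OnePoint.rec with
  | infty => rfl
  | coe w => rfl

/-- the stage maps -/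
theorem omD_stB (r : ℕ) (q : QS (Dsc Unit) r) :
    omD (r + 1) (stB (Dsc Unit) r q) = T0.stab r (omD r q) := by
  apply Subtype.ext
  refine ContinuousMap.ext fun z => ?_
  obtain ⟨⟨x, u⟩, rfl⟩ := T0.toSmash_surjective r z
  have h2 : (T0.stab r (omD r q)) (T0.toSmash r (x, u)) =
      T0.toSmash r ((omD r q) x, u) := T0.stabFun_toSmash _ (omD r q).2 (x, u)
  change (omD (r + 1) (stB (Dsc Unit) r q)) (T0.toSmash r (x, u)) =
    (T0.stab r (omD r q)) (T0.toSmash r (x, u))
  rw [h2, toSmash_eq_sm, omD_apply, omD_apply]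
  have h3 : (stB (Dsc Unit) r q).1 (sm r x u) =
      opH (assocH (Dsc Unit) r) (LC.smash (q.1 x) u) := stB_smash r q x u
  rw [h3]
  generalize q.1 x = y
  induction y using OnePoint.rec with
  | infty =>
    rw [LC.smash_infty_left]
    rfl
  | coe y =>
    induction u using OnePoint.rec with
    | infty =>
      rw [LC.smash_infty_right]
      exact (T0.toSmash_infty_right r _).symm
    | coe u => rfl

/-- `Q` at one label, in `sing QS⁰` -/
noncomputable def fqQS : SS.Map (FQ (Dsc Unit)) (sing T0.QS0) :=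
  Seq.desc (A := QSeq (Dsc Unit))
    (fun r => singMap ((T0.toQ r).hom.comp (omD r : C(QS (Dsc Unit) r, T0.Om r)))) fun r => by
    apply SS.Map.ext
    intro p σ
    refine ContinuousMap.ext fun t => ?_
    show T0.toQ (r + 1) (omD (r + 1) (stB (Dsc Unit) r (toC σ t))) = T0.toQ r (omD r (toC σ t))
    rw [omD_stB, T0.toQ_stab]

theorem fqQS_inc (r : ℕ) : fqQS.comp (FQ.inc (Dsc Unit) r) =
    singMap ((T0.toQ r).hom.comp (omD r : C(QS (Dsc Unit) r, T0.Om r))) :=
  Seq.desc_inc _ _ _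

theorem fqQS_inc_app (r : ℕ) {p : ℕ} (σ : (sing (QS (Dsc Unit) r)).obj p) (t : Dl p) :
    toC (fqQS.app ((FQ.inc (Dsc Unit) r).app σ)) t = T0.toQ r (omD r (toC σ t)) := by
  have h := congrArg (fun g : SS.Map (sing (QS (Dsc Unit) r)) (sing T0.QS0) => toC (g.app σ) t)
    (fqQS_inc r)
  exact h

/-- **`FQ (Dsc Unit) ≃ sing QS⁰`** -/
theorem fqQS_bijective (p : ℕ) : Function.Bijective (fqQS.app (p := p)) := by
  constructor
  · intro x y h
    obtain ⟨r, x, rfl⟩ := FQ.exists_inc x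
    obtain ⟨s, hs, y, rfl⟩ : ∃ s, r ≤ s ∧ ∃ y' : (sing (QS (Dsc Unit) s)).obj p,
        (FQ.inc (Dsc Unit) s).app y' = y := (QSeq (Dsc Unit)).exists_inc_ge y r
    have hx : ∃ x' : (sing (QS (Dsc Unit) s)).obj p,
        (FQ.inc (Dsc Unit) s).app x' = (FQ.inc (Dsc Unit) r).app x := by
      refine ⟨((QSeq (Dsc Unit)).up hs).app x, ?_⟩
      exact congrArg (fun g : SS.Map _ _ => g.app x) ((QSeq (Dsc Unit)).inc_up hs)
    obtain ⟨x', hx'⟩ := hx
    rw [← hx'] at h ⊢
    have hxy : x' = y := by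
      refine ContinuousMap.ext fun t => ?_
      have ht : toC (fqQS.app ((FQ.inc (Dsc Unit) s).app x')) t =
          toC (fqQS.app ((FQ.inc (Dsc Unit) s).app y)) t := by
        rw [h]
      rw [fqQS_inc_app, fqQS_inc_app] at ht
      exact (omD s).injective (T0.toQ_injective s ht)
    rw [hxy]
  · intro σ
    obtain ⟨r, f, hf⟩ := T0.exists_factor (toC σ)
    refine ⟨(FQ.inc (Dsc Unit) r).app (ofC (((omD r).symm :
      C(T0.Om r, QS (Dsc Unit) r)).comp f)), ?_⟩
    refine ContinuousMap.ext fun t => ?_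
    refine (fqQS_inc_app r _ t).trans ?_
    show T0.toQ r (omD r ((omD r).symm (f t))) = toC σ t
    rw [Homeomorph.apply_symm_apply]
    exact hf t

/-- the collapse into `QS⁰` through `FQ (Dsc Unit)` -/
theorem fqQS_alphaFQ : fqQS.comp (alphaFQ Unit) = alphaQSS := by
  apply SS.Map.ext
  intro p S
  obtain ⟨r, hr⟩ := S.stage
  refine ContinuousMap.ext fun t => ?_
  have h1 : (fqQS.comp (alphaFQ Unit)).app S =
      fqQS.app ((FQ.inc (Dsc Unit) r).app ((alphaSS r (Dsc Unit)).app ⟨S, hr⟩)) :=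
    congrArg fqQS.app (alphaFQ_apply Unit S hr)
  rw [h1]
  refine (fqQS_inc_app r _ t).trans ?_
  exact (alphaQ_eq (T := Dl p) S hr t).symm

end Vale.Agent.P263.G2
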