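import Vale.Agent.P263.G2.Act
import Vale.Agent.P263.G2.Circle
import Vale.Agent.P263.G2.W4
import Vale.Agent.P263.G2.SingSS

/-!
# P263, block G2-2: the map `θ_k` into whiskered simplices

`c : ℝ × Y ≃ₜ Y₁` a homeomorphism, `J` a finite set of labels.

* `theta c k : C(BMap X ((Fin k × J) × Y), PK (Fin (k + 1)) (bzero X (J × Y₁)))`, the map
  `(θ q)(t) x = (j, c (s_i(t), y))` if `q x = (i, j, y)`, with constant whiskers;
* `theta_re` : it is strictly simplicial in `k` (simplicial circle `cir`);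
* `theta_push` : natural in `J`; `theta_stK` : it commutes with the stage maps;
* `th1 c : C(BMap X (J × Y), Lo (bzero X (J × Y₁)))`; `theta_edge`, `toLo_theta` : on the `a`-th
  edge `θ_k q` is `th1` of the projection of `q` to the label `a`.
-/

open OnePoint Topology Vale.Agent.P251.G Vale.Agent.P263.TOP Vale.Agent.P263.GB
  Vale.Agent.P263.S unitInterval

set_option linter.unusedSectionVars false

namespace Vale.Agent.P263.G2

/-! ### the coordinates -/

theorem loopE_coe_zero : loopE ((0 : I) : ℝ) = ∞ := loopE_zero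

theorem loopE_coe_one : loopE ((1 : I) : ℝ) = ∞ := loopE_one

/-- the value at a vertex -/
theorem chiI_vertex {k : ℕ} (χ : Op k 1) (a : Fin (k + 1)) :
    chiI χ (stdSimplex.vertex a) = 0 ∨ chiI χ (stdSimplex.vertex a) = 1 := by
  have h : (chiI χ (stdSimplex.vertex a) : ℝ) =
      (stdSimplex.vertex (S := ℝ) (χ a) : Fin 2 → ℝ) 1 := by
    show (stdSimplex.map χ (stdSimplex.vertex (S := ℝ) a) : Fin 2 → ℝ) 1 = _
    rw [stdSimplex.map_vertex]
  have h2 : ∀ b : Fin 2, b = 0 ∨ b = 1 := by decide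
  rcases h2 (χ a) with h1 | h1
  · left
    apply Subtype.ext
    rw [h, h1, stdSimplex.vertex_coe]
    simp
  · right
    apply Subtype.ext
    rw [h, h1, stdSimplex.vertex_coe]
    simp

/-- the coordinate of the label `i` at the point `t` of the simplex -/
noncomputable def cw (k : ℕ) (i : Fin k) (t : Dl k) : OnePoint ℝ :=
  loopE (chiI (th k (i.1 + 1)) t)

theorem continuous_cw (k : ℕ) (i : Fin k) : Continuous (cw k i) :=
  continuous_loopE.comp (continuous_subtype_val.comp (chiI _).continuous)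

theorem cw_vertex {k : ℕ} (i : Fin k) (a : Fin (k + 1)) :
    cw k i (stdSimplex.vertex a) = ∞ := by
  rw [cw]
  rcases chiI_vertex (th k (i.1 + 1)) a with h | h
  · rw [h, loopE_coe_zero]
  · rw [h, loopE_coe_one]

/-- the coordinates are simplicial -/
theorem cw_dmap {l k : ℕ} (α : Op l k) (i : Fin k) (t : Dl l) :
    cw k i (dmap α t) = (cir α i).elim ∞ fun j => cw l j t := by
  have h1 : chiI (th k (i.1 + 1)) (dmap α t) = chiI ((th k (i.1 + 1)).comp α) t := by
    rw [chiI_comp]; rfl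
  rw [cw, h1]
  rcases h : cir α i with _ | j
  · rcases th_cir_none α i h with h2 | h2
    · rw [h2]
      show loopE (chiI (c1 l) t) = ∞
      rw [chiI_c1, loopE_coe_one]
    · rw [h2]
      show loopE (chiI (c0 l) t) = ∞
      rw [chiI_c0, loopE_coe_zero]
  · rw [th_cir_some α i j h]
    rfl

/-- the value of a threshold function at a point -/
theorem chiI_th {k : ℕ} (m : ℕ) (t : Dl k) :
    (chiI (th k m) t : ℝ) = ∑ i : Fin (k + 1), if m ≤ i.1 then (t : Fin (k + 1) → ℝ) i else 0 := by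
  show (stdSimplex.map (th k m) t : Fin 2 → ℝ) 1 = _
  rw [stdSimplex.map_coe, FunOnFinite.linearMap_apply_apply, Finset.sum_filter]
  refine Finset.sum_congr rfl fun i _ => ?_
  rw [th_val]
  by_cases h : i.1 < m
  · rw [if_pos h, if_neg (by decide), if_neg (by omega)]
  · rw [if_neg h, if_pos rfl, if_pos (by omega)]

/-- on the `a`-th edge the label `a` has the coordinate `x` and the other labels are at `∞` -/
theorem cw_edge {k : ℕ} (i a : Fin k) (x : I) :
    cw k i (edge a x) = if i = a then loopE x else ∞ := by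
  have hsum : (chiI (th k (i.1 + 1)) (edge a x) : ℝ) =
      (if i.1 + 1 ≤ a.1 then 1 - (x : ℝ) else 0) + (if i.1 + 1 ≤ a.1 + 1 then (x : ℝ) else 0) := by
    rw [chiI_th, Fintype.sum_eq_add a.castSucc a.succ (Fin.castSucc_lt_succ (i := a)).ne]
    · rw [edge_apply, edge_apply, if_pos rfl, if_neg (Fin.castSucc_lt_succ (i := a)).ne',
        if_pos rfl]
      simp only [Fin.val_castSucc, Fin.val_succ]
    · intro b hb
      rw [edge_apply, if_neg hb.1, if_neg hb.2]
      simp
  rw [cw, hsum]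
  rcases lt_trichotomy i.1 a.1 with h | h | h
  · rw [if_pos (by omega), if_pos (by omega), if_neg (fun h' => by rw [h'] at h; omega)]
    have : (1 : ℝ) - x + x = 1 := by ring
    rw [this, loopE_one]
  · rw [if_neg (by omega), if_pos (by omega), if_pos (Fin.ext h), zero_add]
  · rw [if_neg (by omega), if_neg (by omega), if_neg (fun h' => by rw [h'] at h; omega),
      add_zero, loopE_zero]

/-! ### the map `θ` -/

section theta

variable {X Y Y₁ : Type} [TopologicalSpace X] [T2Space X] [LocallyCompactSpace X]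
  [TopologicalSpace Y] [T2Space Y] [LocallyCompactSpace Y]
  [TopologicalSpace Y₁] [T2Space Y₁] [LocallyCompactSpace Y₁]
variable {J J' : Type} [TopologicalSpace J] [DiscreteTopology J] [Finite J]
  [TopologicalSpace J'] [DiscreteTopology J'] [Finite J']

/-- the action of `α` on the labels `S¹_k ∧ J₊` -/
def cirJ {l k : ℕ} (α : Op l k) (p : Fin k × J) : Option (Fin l × J) :=
  (cir α p.1).map fun i => (i, p.2)

/-- the map `1 ∧ f` of the labels `S¹_k ∧ J₊` -/
def cirL (k : ℕ) (f : J → Option J') (p : Fin k × J) : Option (Fin k × J') :=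
  (f p.2).map fun j => (p.1, j)

/-- the projection to the label `a` -/
def prLb {k : ℕ} (a : Fin k) (p : Fin k × J) : Option J :=
  if p.1 = a then Option.some p.2 else Option.none

/-- the labelled coordinates at the point `t` of the simplex -/
noncomputable def cwJ (J : Type) (k : ℕ) (t : Dl k) (p : Fin k × J) : OnePoint ℝ := cw k p.1 t

theorem continuous_cwJ (k : ℕ) (p : Fin k × J) : Continuous fun t : Dl k => cwJ J k t p :=
  continuous_cw k p.1

/-- the value of `θ_k q` at `t` -/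
noncomputable def thetaVal (c : ℝ × Y ≃ₜ Y₁) (k : ℕ) (q : BMap X ((Fin k × J) × Y)) (t : Dl k) :
    BMap X (J × Y₁) :=
  bcomp (act c (fun p => Option.some p.2) (cwJ J k t)) q

theorem continuous_thetaVal {T : Type*} [TopologicalSpace T] (c : ℝ × Y ≃ₜ Y₁) (k : ℕ)
    {q : T → BMap X ((Fin k × J) × Y)} {t : T → Dl k} (hq : Continuous q) (ht : Continuous t) :
    Continuous fun x => thetaVal c k (q x) (t x) :=
  continuous_bcomp (continuous_act c _ fun p => (continuous_cwJ k p).comp ht) hq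

theorem thetaVal_vertex (c : ℝ × Y ≃ₜ Y₁) (k : ℕ) (q : BMap X ((Fin k × J) × Y))
    (a : Fin (k + 1)) : thetaVal c k q (stdSimplex.vertex a) = bzero X (J × Y₁) := by
  have h : ∀ p : Fin k × J, cwJ J k (stdSimplex.vertex a) p = ∞ := fun p => cw_vertex p.1 a
  rw [thetaVal, act_infty c _ _ h, zero_bcomp]

/-- **The map `θ_k`.** -/
noncomputable def theta (c : ℝ × Y ≃ₜ Y₁) (k : ℕ) :
    C(BMap X ((Fin k × J) × Y), PK (Fin (k + 1)) (bzero X (J × Y₁))) where
  toFun q := ⟨(⟨fun t => thetaVal c k q t, continuous_thetaVal c k continuous_const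
    continuous_id⟩, fun _ => ContinuousMap.const _ (bzero X (J × Y₁))),
    fun a => ⟨rfl, (thetaVal_vertex c k q a).symm⟩⟩
  continuous_toFun := PK.continuous_mk _
    (continuous_thetaVal c k continuous_fst continuous_snd) fun _ => continuous_const

theorem theta_sx (c : ℝ × Y ≃ₜ Y₁) (k : ℕ) (q : BMap X ((Fin k × J) × Y)) (t : Dl k) :
    (theta c k q).1.1 t = thetaVal c k q t := rfl

theorem theta_wh (c : ℝ × Y ≃ₜ Y₁) (k : ℕ) (q : BMap X ((Fin k × J) × Y)) (a : Fin (k + 1))
    (s : I) : (theta c k q).1.2 a s = bzero X (J × Y₁) := rfl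

/-- `θ` is strictly simplicial -/
theorem theta_re (c : ℝ × Y ≃ₜ Y₁) {l k : ℕ} (α : Op l k) (q : BMap X ((Fin k × J) × Y)) :
    PK.re α (theta c k q) = theta c l (push (cirJ α) q) := by
  refine PK.ext (fun t => ?_) fun a s => rfl
  show thetaVal c k q (dmap α t) = thetaVal c l (push (cirJ α) q) t
  rw [thetaVal, thetaVal, bcomp_act_push]
  congr 1
  refine act_congr c _ _ _ _ ?_
  rintro ⟨i, j⟩
  have key : cwJ J k (dmap α t) (i, j) = (cir α i).elim ∞ fun j => cw l j t := cw_dmap α i t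
  rw [key, cirJ]
  show (_ = ((cir α i).map fun i => (i, j)).bind _ ∧ _ =
    ((cir α i).map fun i => (i, j)).elim ∞ (cwJ J l t)) ∨ _
  rcases cir α i with _ | i'
  · right
    exact ⟨Or.inr rfl, Or.inl rfl⟩
  · left
    exact ⟨rfl, rfl⟩

theorem push_bzero (f : J → Option J') :
    push f (bzero X (J × Y)) = bzero X (J' × Y) := rfl

/-- `θ` is natural in the labels -/
theorem theta_push (c : ℝ × Y ≃ₜ Y₁) (k : ℕ) (f : J → Option J')
    (q : BMap X ((Fin k × J) × Y)) :
    theta c k (push (cirL k f) q) = PK.map (push f) (push_bzero f) (theta c k q) := by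
  refine PK.ext (fun t => ?_) fun a s => rfl
  show thetaVal c k (push (cirL k f) q) t = push f (thetaVal c k q t)
  rw [thetaVal, thetaVal, bcomp_act_push, push_bcomp_act]
  congr 1
  refine act_congr c _ _ _ _ ?_
  rintro ⟨i, j⟩
  show ((cirL k f (i, j)).bind _ = (f j) ∧ (cirL k f (i, j)).elim ∞ (cwJ J' k t) = cw k i t) ∨
    (((cirL k f (i, j)).bind _ = _ ∨ _) ∧ (f j = _ ∨ _))
  rw [cirL]
  rcases f j with _ | j'
  · right
    exact ⟨Or.inl rfl, Or.inl rfl⟩
  · left
    exact ⟨rfl, rfl⟩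

/-- the standard map to the loop space: `q ↦ (s ↦ (j, c (s, y)))` -/
noncomputable def th1 (c : ℝ × Y ≃ₜ Y₁) : C(BMap X (J × Y), Lo (bzero X (J × Y₁))) where
  toFun q := ⟨⟨fun s => bcomp (act c Option.some fun _ => loopE s) q,
    continuous_bcomp (continuous_act c _ fun _ => continuous_loopE.comp continuous_subtype_val)
      continuous_const⟩, by
    constructor
    · show bcomp (act c Option.some fun _ => loopE ((0 : I) : ℝ)) q = _
      rw [act_infty _ _ _ fun _ => loopE_coe_zero, zero_bcomp]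
    · show bcomp (act c Option.some fun _ => loopE ((1 : I) : ℝ)) q = _
      rw [act_infty _ _ _ fun _ => loopE_coe_one, zero_bcomp]⟩
  continuous_toFun := Lo.continuous_mk _ (continuous_bcomp
    (continuous_act c _ fun _ => continuous_loopE.comp
      (continuous_subtype_val.comp continuous_snd)) continuous_fst)

theorem th1_apply (c : ℝ × Y ≃ₜ Y₁) (q : BMap X (J × Y)) (s : I) :
    (th1 c q).1 s = bcomp (act c Option.some fun _ => loopE s) q := rfl

/-- `θ_k q` on the `a`-th edge -/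
theorem theta_edge (c : ℝ × Y ≃ₜ Y₁) (k : ℕ) (q : BMap X ((Fin k × J) × Y)) (a : Fin k)
    (s : I) : (theta c k q).1.1 (edge a s) = (th1 c (push (prLb a) q)).1 s := by
  show thetaVal c k q (edge a s) = bcomp (act c Option.some fun _ => loopE s) (push (prLb a) q)
  rw [thetaVal, bcomp_act_push]
  congr 1
  refine act_congr c _ _ _ _ ?_
  rintro ⟨i, j⟩
  show (_ = (prLb a (i, j)).bind _ ∧ cw k i (edge a s) = (prLb a (i, j)).elim ∞ _) ∨ _
  rw [cw_edge, prLb]
  by_cases h : i = a
  · left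
    rw [if_pos h, if_pos h]
    exact ⟨rfl, rfl⟩
  · right
    rw [if_neg h]
    refine ⟨Or.inr ?_, Or.inl rfl⟩
    show cw k i (edge a s) = ∞
    rw [cw_edge, if_neg h]

/-- the loops of `θ_k q` -/
theorem toLo_theta (c : ℝ × Y ≃ₜ Y₁) (k : ℕ) (q : BMap X ((Fin k × J) × Y)) (a : Fin k) :
    PK.toLo (theta c k q) a = Lo.rep3 1 (th1 c (push (prLb a) q)) :=
  PK.toLo_of_const _ (fun _ _ => rfl) a _ fun s => theta_edge c k q a s

end theta

section stage

variable {X Y X' Y' Y₁ Y₁' : Type} [TopologicalSpace X] [T2Space X] [LocallyCompactSpace X]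
  [TopologicalSpace Y] [T2Space Y] [LocallyCompactSpace Y]
  [TopologicalSpace X'] [T2Space X'] [LocallyCompactSpace X']
  [TopologicalSpace Y'] [T2Space Y'] [LocallyCompactSpace Y']
  [TopologicalSpace Y₁] [T2Space Y₁] [LocallyCompactSpace Y₁]
  [TopologicalSpace Y₁'] [T2Space Y₁'] [LocallyCompactSpace Y₁']
variable {J : Type} [TopologicalSpace J] [DiscreteTopology J] [Finite J]

theorem stK_bzero (e : X × ℝ ≃ₜ X') (e' : Y × ℝ ≃ₜ Y') :
    stK J e e' (bzero X (J × Y)) = bzero X' (J × Y') := by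
  refine ext2' e fun x t => ?_
  rw [stK, stC_smash]
  rfl

/-- `θ` commutes strictly with the stage maps -/
theorem theta_stK (e : X × ℝ ≃ₜ X') {e' : Y × ℝ ≃ₜ Y'} {e₁ : Y₁ × ℝ ≃ₜ Y₁'} {c : ℝ × Y ≃ₜ Y₁}
    {c' : ℝ × Y' ≃ₜ Y₁'} (h : Compat e' e₁ c c') (k : ℕ) (q : BMap X ((Fin k × J) × Y)) :
    theta c' k (stK (Fin k × J) e e' q) =
      PK.map (stK J e e₁) (stK_bzero e e₁) (theta c k q) := by
  refine PK.ext (fun t => act_stK e h _ _ q) fun a _ => ?_
  show bzero X' (J × Y₁') = stK J e e₁ (bzero X (J × Y₁))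
  rw [stK_bzero]

/-- `th1` commutes strictly with the stage maps -/
theorem th1_stK (e : X × ℝ ≃ₜ X') {e' : Y × ℝ ≃ₜ Y'} {e₁ : Y₁ × ℝ ≃ₜ Y₁'} {c : ℝ × Y ≃ₜ Y₁}
    {c' : ℝ × Y' ≃ₜ Y₁'} (h : Compat e' e₁ c c') (q : BMap X (J × Y)) :
    th1 c' (stK J e e' q) = Lo.map (stK J e e₁) (stK_bzero e e₁) (th1 c q) :=
  Lo.ext fun _ => act_stK e h _ _ q

end stage

end Vale.Agent.P263.G2
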